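import Mathlib

/-!
# Row 318, core construction (multiscale windows), definitions

A *point* is a pair `(t, z)`: a breakpoint at time `t` (one start and one end item) together with
the length `z` of the job attached to it.  `blkX` builds the nested structure from a hypergraph
(`n` vertices, edge list `E`, target `k`).
-/

set_option autoImplicit false

namespace Crest.Agent.T318.C25

/-- well-formed hypergraph data -/
structure WF (n : ℕ) (E : List (List ℕ)) (k : ℕ) : Prop where
  npos : 0 < n
  kle : k ≤ n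
  ne : ∀ e ∈ E, e ≠ []
  lt : ∀ e ∈ E, ∀ v ∈ e, v < n
  cov : ∀ v < n, ∃ e ∈ E, v ∈ e

/-- no vertex set of size `≥ k` avoids containing a whole edge -/
def NoIS (n : ℕ) (E : List (List ℕ)) (k : ℕ) : Prop :=
  ∀ S : Finset ℕ, S ⊆ Finset.range n → (∀ e ∈ E, ∃ v ∈ e, v ∉ S) → S.card < k

/-- an `μ`-fold (fractional) solution: `x v` = weight of the vertex `v`, `y i v` = weight of the
incidence (edge number `i`, vertex `v`) -/
structure Frac (n : ℕ) (E : List (List ℕ)) (k μ : ℕ) (x : ℕ → ℕ) (y : ℕ → ℕ → ℕ) : Prop where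
  sumx : ∑ v ∈ Finset.range n, x v = μ * k
  sumy : ∀ i < E.length, ∑ v ∈ (Finset.range n).filter (fun v => v ∈ E.getD i []), y i v = μ
  xle : ∀ v < n, x v ≤ μ
  le : ∀ i < E.length, ∀ v ∈ E.getD i [], x v + y i v ≤ μ

/-- length of a special job of level `y` -/
def sig (Λ d y : ℕ) : ℕ := Λ ^ (y + 1) + (d + 1) * Λ ^ y

/-- the anchors `κ = 0, …, q` of the window with base `w` and level `y`; anchor `κ` carries a special
job iff `sp κ` -/
def anc (Λ d y w q : ℕ) (sp : ℕ → Bool) : List (ℕ × ℕ) :=
  (List.range (q + 1)).map fun κ =>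
    (w + κ * Λ ^ (y + 1) + d * Λ ^ y, if sp κ then sig Λ d y else Λ ^ y)

section par

variable (n m G D : ℕ)

/-- number of copies of the hypergraph -/
def rr (φ : ℕ) : ℕ := D + G * (φ + 1) + 1

/-- frontier bound for the edge groups -/
def ph1 (φ : ℕ) : ℕ := φ + rr G D φ * m * n

/-- number of clusters of a window of an edge group -/
def qq (φ : ℕ) : ℕ := D + G * (ph1 n m G D φ + n) + 1

/-- frontier bound for the next stage -/
def ph2 (φ : ℕ) : ℕ := ph1 n m G D φ + n * qq n m G D φ

/-- number of levels used by a block with `j` stages -/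
def szX : ℕ → ℕ → ℕ
  | 0, _ => 0
  | j + 1, φ => rr G D φ * m * (n * qq n m G D φ * szX j (ph2 n m G D φ) + 2) + 2

end par

/-- an edge group: one window (base `w0 + v * st`) for each vertex `v` of the edge `e`, with `q`
clusters, each containing a block `sub lo b` using `S` levels -/
def grpE (n Λ d : ℕ) (sub : ℕ → ℕ → List (ℕ × ℕ)) (S q lo w0 st : ℕ) (e : List ℕ) :
    List (ℕ × ℕ) :=
  ((List.range n).filter fun v => v ∈ e).flatMap (fun v =>
      anc Λ d (lo + n * q * S) (w0 + v * st) q fun κ => decide (κ < q ∧ v = e.headD 0)) ++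
    ((List.range (n * q)).filter fun i => i / q ∈ e).flatMap fun i =>
      sub (lo + i * S) (w0 + i / q * st + (i % q + 1) * Λ ^ (lo + n * q * S + 1))

/-- one stage: the root window (base `b`, `r * n` clusters) and the `r * m` edge groups -/
def stage (n : ℕ) (E : List (List ℕ)) (k Λ : ℕ) (sub : ℕ → ℕ → List (ℕ × ℕ)) (S r q lo b : ℕ) :
    List (ℕ × ℕ) :=
  anc Λ E.length (lo + r * E.length * (n * q * S + 2)) b (r * n)
      (fun κ => decide (κ < r * n ∧ κ % n < k)) ++
    (List.range (r * E.length)).flatMap fun i =>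
      grpE n Λ E.length sub S q (lo + i * (n * q * S + 2))
        (b + (i / E.length * n + 1) * Λ ^ (lo + r * E.length * (n * q * S + 2) + 1) +
          i % E.length * Λ ^ (lo + r * E.length * (n * q * S + 2)))
        (Λ ^ (lo + r * E.length * (n * q * S + 2) + 1)) (E.getD (i % E.length) [])

/-- the block with `j` stages, frontier bound `φ`, lowest level `lo`, base time `b` -/
def blkX (n : ℕ) (E : List (List ℕ)) (k G D Λ : ℕ) : ℕ → ℕ → ℕ → ℕ → List (ℕ × ℕ)
  | 0, _, _, _ => []
  | j + 1, φ, lo, b =>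
      stage n E k Λ (blkX n E k G D Λ j (ph2 n E.length G D φ))
        (szX n E.length G D j (ph2 n E.length G D φ)) (rr G D φ) (qq n E.length G D φ) lo b

section inst

variable (D n : ℕ) (E : List (List ℕ)) (k : ℕ)

/-- the base of the positional system -/
def lam : ℕ := (ph2 n E.length (2 * D + 3) D)^[D + 2] 0 + 2 * E.length + 3

/-- the top level -/
def top : ℕ := szX n E.length (2 * D + 3) D (D + 2) 0

/-- all breakpoints: `L = D + 2` stages, `K = D + 3` machines, `G = K + D` -/
def pts : List (ℕ × ℕ) :=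
  blkX n E k (2 * D + 3) D (lam D n E) (D + 2) 0 0 (lam D n E ^ top D n E)

/-- start times -/
def instA : List ℕ := List.replicate (D + 3) 0 ++ (pts D n E k).map Prod.fst

/-- end times -/
def instB : List ℕ :=
  List.replicate (D + 3) (2 * lam D n E ^ top D n E) ++ (pts D n E k).map Prod.fst

/-- job lengths -/
def instZ : List ℕ :=
  List.replicate (D + 3) (lam D n E ^ top D n E) ++ (pts D n E k).map Prod.snd

end inst

/-- NO leaf: without a large edge-free set there is no almost perfect family of feasible triples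
`(start, end, job)` -/
def NoStmt : Prop :=
  ∀ (D n : ℕ) (E : List (List ℕ)) (k : ℕ), WF n E k → NoIS n E k →
    ∀ Q : Multiset (ℕ × ℕ × ℕ), (∀ q ∈ Q, q.1 + q.2.2 ≤ q.2.1) →
      Q.map (fun q => q.1) ≤ (instA D n E k : Multiset ℕ) →
      Q.map (fun q => q.2.1) ≤ (instB D n E k : Multiset ℕ) →
      Q.map (fun q => q.2.2) ≤ (instZ D n E k : Multiset ℕ) →
      (instA D n E k).length ≤ Multiset.card Q + D → False

/-- YES leaf: a `μ`-fold solution gives a perfect family of feasible triples of the `μ`-fold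
instance -/
def YesStmt : Prop :=
  ∀ (D n : ℕ) (E : List (List ℕ)) (k μ : ℕ) (x : ℕ → ℕ) (y : ℕ → ℕ → ℕ), WF n E k →
    Frac n E k μ x y →
    ∃ Q : Multiset (ℕ × ℕ × ℕ), (∀ q ∈ Q, q.1 + q.2.2 ≤ q.2.1) ∧
      Q.map (fun q => q.1) = μ • (instA D n E k : Multiset ℕ) ∧
      Q.map (fun q => q.2.1) = μ • (instB D n E k : Multiset ℕ) ∧
      Q.map (fun q => q.2.2) = μ • (instZ D n E k : Multiset ℕ)

end Crest.Agent.T318.C25
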