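import Crest.Agent.T318.PackDefs_21
import Crest.Agent.Lib.PT.Alphabet
import Crest.Agent.Lib.PT.ArithRat

/-!
# Row 318: the polynomial-time form of the core (helper21)
-/

set_option autoImplicit false

namespace Crest.Agent.T318

open Crest.Agent.Lib.PT

/-- the core needed for S0493 -/
def CoreHard : Prop :=
  ∀ (D : ℕ) (L : Set (List Bool)), Crest.Complexity.InNP L →
    ∃ A E Z : List Bool → List ℕ, PTF A ∧ PTF E ∧ PTF Z ∧
      ∀ x, (E x).length = (A x).length ∧ (Z x).length = (A x).length ∧
        (x ∈ L → MYes 1 (A x) (E x) (Z x)) ∧ (x ∉ L → ¬ Near D (A x) (E x) (Z x))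

end Crest.Agent.T318
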