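import Crest.Agent.T318.CookLevin_17
import Crest.Agent.T318.Defs_25
import Crest.Agent.T318.PackDefsPT_21

/-!
# Row 318: hypergraph form of Cook–Levin and assembly of the two cores
-/

set_option autoImplicit false

namespace Crest.Agent.T318

open Crest.Agent.Lib.PT C25

/-- an edge-free set of size `k` gives a `1`-fold solution -/
theorem frac_of_set_17 {n k : ℕ} {E : List (List ℕ)} (hW : WF n E k) (S : Finset ℕ)
    (hS : S ⊆ Finset.range n) (hk : S.card = k) (hE : ∀ e ∈ E, ∃ v ∈ e, v ∉ S) :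
    ∃ x y, Frac n E k 1 x y := by
  classical
  have hch : ∀ i : ℕ, ∃ v : ℕ, i < E.length → v ∈ E.getD i [] ∧ v ∉ S := by
    intro i
    by_cases hi : i < E.length
    · obtain ⟨v, hv, hv'⟩ := hE (E.getD i []) (by
        rw [List.getD_eq_getElem _ _ hi]; exact List.getElem_mem hi)
      exact ⟨v, fun _ => ⟨hv, hv'⟩⟩
    · exact ⟨0, fun h => absurd h hi⟩
  choose ch hch using hch
  refine ⟨fun v => if v ∈ S then 1 else 0, fun i v => if v = ch i then 1 else 0, ?_, ?_, ?_, ?_⟩
  · rw [Finset.sum_ite_mem, Finset.inter_eq_right.2 hS]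
    simp [hk]
  · intro i hi
    rw [Finset.sum_ite_eq']
    have h1 := (hch i hi).1
    have h2 : ch i < n := hW.lt _ (by
      rw [List.getD_eq_getElem _ _ hi]; exact List.getElem_mem hi) _ h1
    rw [if_pos (Finset.mem_filter.2 ⟨Finset.mem_range.2 h2, h1⟩)]
  · intro v _
    split_ifs <;> omega
  · intro i hi v _
    by_cases h : v = ch i
    · have := (hch i hi).2
      simp [h, this]
    · simp only [h, if_false]
      split_ifs <;> omega

/-- the hypergraph of a clause list over `n` variables: vertex `2 v + 1` means that `v` is true,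
vertex `2 v` that it is false -/
def hyE (n : ℕ) (F : List (List (ℕ × Bool))) : List (List ℕ) :=
  (List.range n).map (fun v => [2 * v, 2 * v + 1]) ++
    F.map (fun c => c.map fun l => 2 * l.1 + bif l.2 then 0 else 1)

theorem hyE_wf {n : ℕ} {F : List (List (ℕ × Bool))} (hn : 0 < n)
    (hF : ∀ c ∈ F, c ≠ [] ∧ ∀ l ∈ c, l.1 < n) : WF (2 * n) (hyE n F) n := by
  refine ⟨by omega, by omega, ?_, ?_, ?_⟩
  · intro e he
    simp only [hyE, List.mem_append, List.mem_map] at he
    rcases he with ⟨v, -, rfl⟩ | ⟨c, hc, rfl⟩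
    · simp
    · simpa using (hF c hc).1
  · intro e he w hw
    simp only [hyE, List.mem_append, List.mem_map, List.mem_range] at he
    rcases he with ⟨v, hv, rfl⟩ | ⟨c, hc, rfl⟩
    · simp only [List.mem_cons, List.not_mem_nil, or_false] at hw
      omega
    · obtain ⟨l, hl, rfl⟩ := List.mem_map.1 hw
      have := (hF c hc).2 l hl
      cases l.2 <;> simp <;> omega
  · intro w hw
    refine ⟨[2 * (w / 2), 2 * (w / 2) + 1], ?_, ?_⟩
    · simp only [hyE, List.mem_append, List.mem_map, List.mem_range]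
      exact Or.inl ⟨w / 2, by omega, rfl⟩
    · simp only [List.mem_cons, List.not_mem_nil, or_false]
      omega

theorem hyE_yes {n : ℕ} {F : List (List (ℕ × Bool))} (hn : 0 < n)
    (hF : ∀ c ∈ F, c ≠ [] ∧ ∀ l ∈ c, l.1 < n) {σ : ℕ → Bool}
    (hσ : ∀ c ∈ F, ∃ l ∈ c, σ l.1 = l.2) : ∃ x y, Frac (2 * n) (hyE n F) n 1 x y := by
  classical
  have hmem : ∀ w, w ∈ (Finset.range n).image (fun v => 2 * v + bif σ v then 1 else 0) →
      w % 2 = bif σ (w / 2) then 1 else 0 := by
    intro w hw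
    obtain ⟨v, -, rfl⟩ := Finset.mem_image.1 hw
    cases h : σ v
    · simp [h]
    · have : (2 * v + 1) / 2 = v := by omega
      simp [this, h]
  refine frac_of_set_17 (hyE_wf hn hF)
    ((Finset.range n).image (fun v => 2 * v + bif σ v then 1 else 0)) ?_ ?_ ?_
  · intro w hw
    obtain ⟨v, hv, rfl⟩ := Finset.mem_image.1 hw
    have := Finset.mem_range.1 hv
    cases σ v <;> simp <;> omega
  · rw [Finset.card_image_of_injOn, Finset.card_range]
    intro a _ b _ hab
    simp only at hab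
    cases ha : σ a <;> cases hb : σ b <;> simp [ha, hb] at hab <;> omega
  · intro e he
    simp only [hyE, List.mem_append, List.mem_map, List.mem_range] at he
    rcases he with ⟨v, hv, rfl⟩ | ⟨c, hc, rfl⟩
    · cases h : σ v
      · refine ⟨2 * v + 1, by simp, fun hw => ?_⟩
        have := hmem _ hw
        have h2 : (2 * v + 1) / 2 = v := by omega
        rw [h2, h] at this
        simp at this
      · refine ⟨2 * v, by simp, fun hw => ?_⟩
        have := hmem _ hw
        have h2 : (2 * v) / 2 = v := by omega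
        rw [h2, h] at this
        simp at this
    · obtain ⟨l, hl, hl'⟩ := hσ c hc
      refine ⟨_, List.mem_map.2 ⟨l, hl, rfl⟩, fun hw => ?_⟩
      have := hmem _ hw
      cases h : l.2
      · have h2 : (2 * l.1 + 1) / 2 = l.1 := by omega
        simp only [h, cond_false, h2] at this
        rw [hl', h] at this
        simp at this
      · have h2 : (2 * l.1) / 2 = l.1 := by omega
        simp only [h, cond_true, add_zero, h2] at this
        rw [hl', h] at this
        simp at this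

theorem hyE_no {n : ℕ} {F : List (List (ℕ × Bool))}
    (hF : ∀ c ∈ F, c ≠ [] ∧ ∀ l ∈ c, l.1 < n)
    (hσ : ¬ ∃ σ : ℕ → Bool, ∀ c ∈ F, ∃ l ∈ c, σ l.1 = l.2) : NoIS (2 * n) (hyE n F) n := by
  classical
  intro S hS hE
  by_contra hc
  have hc : n ≤ S.card := not_lt.1 hc
  apply hσ
  have hpair : ∀ v < n, 2 * v ∉ S ∨ 2 * v + 1 ∉ S := by
    intro v hv
    obtain ⟨w, hw, hw'⟩ := hE [2 * v, 2 * v + 1] (by
      simp only [hyE, List.mem_append, List.mem_map, List.mem_range]
      exact Or.inl ⟨v, hv, rfl⟩)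
    simp only [List.mem_cons, List.not_mem_nil, or_false] at hw
    rcases hw with rfl | rfl
    · exact Or.inl hw'
    · exact Or.inr hw'
  have hinj : Set.InjOn (fun w : ℕ => w / 2) S := by
    intro a ha b hb hab
    simp only at hab
    have h1 := Finset.mem_range.1 (hS ha)
    by_contra hne
    rcases hpair (a / 2) (by omega) with h | h
    · rcases (by omega : a = 2 * (a / 2) ∨ b = 2 * (a / 2)) with h2 | h2
      · exact h (h2 ▸ ha)
      · exact h (h2 ▸ hb)
    · rcases (by omega : a = 2 * (a / 2) + 1 ∨ b = 2 * (a / 2) + 1) with h2 | h2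
      · exact h (h2 ▸ ha)
      · exact h (h2 ▸ hb)
  have himg : S.image (fun w => w / 2) = Finset.range n := by
    apply Finset.eq_of_subset_of_card_le
    · intro v hv
      obtain ⟨w, hw, rfl⟩ := Finset.mem_image.1 hv
      have := Finset.mem_range.1 (hS hw)
      exact Finset.mem_range.2 (by omega)
    · rw [Finset.card_image_of_injOn hinj, Finset.card_range]
      exact hc
  have hsurj : ∀ v < n, 2 * v ∈ S ∨ 2 * v + 1 ∈ S := by
    intro v hv
    have : v ∈ S.image (fun w => w / 2) := by rw [himg]; exact Finset.mem_range.2 hv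
    obtain ⟨w, hw, hw'⟩ := Finset.mem_image.1 this
    rcases (by omega : w = 2 * v ∨ w = 2 * v + 1) with h | h
    · exact Or.inl (h ▸ hw)
    · exact Or.inr (h ▸ hw)
  refine ⟨fun v => decide (2 * v + 1 ∈ S), fun c hc => ?_⟩
  obtain ⟨w, hw, hw'⟩ := hE (c.map fun l => 2 * l.1 + bif l.2 then 0 else 1) (by
    simp only [hyE, List.mem_append, List.mem_map]
    exact Or.inr ⟨c, hc, rfl⟩)
  obtain ⟨l, hl, rfl⟩ := List.mem_map.1 hw
  refine ⟨l, hl, ?_⟩
  have h1 := hsurj l.1 ((hF c hc).2 l hl)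
  cases h : l.2
  · simpa [h] using hw'
  · simp only [h, cond_true, add_zero] at hw'
    simpa [hw'] using h1

theorem ptf_hyE {γ : Type} [PTCode γ] {n : γ → ℕ} {F : γ → List (List (ℕ × Bool))} (hn : PTU n)
    (hF : PTF F) : PTF (fun c => hyE (n c) (F c)) := by
  unfold hyE
  refine PTF.append (PTF.map (PTF.range hn) ?_) (PTF.map hF ?_)
  · exact CL.ptf_l2 (PTF.natMul (PTF.const 2) PTF.snd)
      (CL.ptf_succ (PTF.natMul (PTF.const 2) PTF.snd))
  · refine PTF.map (f := fun _ (l : ℕ × Bool) => 2 * l.1 + bif l.2 then 0 else 1) PTF.snd ?_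
    exact PTF.natAdd (PTF.natMul (PTF.const 2) (PTF.comp PTF.fst PTF.snd))
      (PTF.cond (PTF.comp PTF.snd PTF.snd) (PTF.const 0) (PTF.const 1))

/-- **Cook–Levin, hypergraph form.** -/
theorem hyper_17 (A : Set (List Bool)) (hA : Crest.Complexity.InNP A) :
    ∃ (n k : List Bool → ℕ) (E : List Bool → List (List ℕ)), PTU n ∧ PTU k ∧ PTF E ∧
      ∀ x, WF (n x) (E x) (k x) ∧ (x ∈ A → ∃ a y, Frac (n x) (E x) (k x) 1 a y) ∧
        (x ∉ A → NoIS (n x) (E x) (k x)) := by
  obtain ⟨n, F, hn, hF, h⟩ := cookLevin_17 A hA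
  refine ⟨fun x => 2 * n x, n, fun x => hyE (n x) (F x), PTU.mul (PTU.const 2) hn, hn,
    ptf_hyE hn hF, fun x => ?_⟩
  obtain ⟨h0, h1, h2⟩ := h x
  refine ⟨hyE_wf h0 h1, fun hx => ?_, fun hx => hyE_no h1 (fun h3 => hx (h2.2 h3))⟩
  obtain ⟨σ, hσ⟩ := h2.1 hx
  exact hyE_yes h0 h1 hσ

/-- the generator leaf, for inputs that are bit strings -/
def GenStmt17 : Prop :=
  ∀ (D : ℕ) (n k : List Bool → ℕ) (E : List Bool → List (List ℕ)), PTU n → PTU k → PTF E →
    PTF (fun c => instA D (n c) (E c) (k c)) ∧ PTF (fun c => instB D (n c) (E c) (k c)) ∧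
      PTF (fun c => instZ D (n c) (E c) (k c))

theorem coreHard_of_17 (hNo : NoStmt) (hYes : YesStmt) (hGen : GenStmt17) : CoreHard := by
  intro D L hL
  obtain ⟨n, k, E, hn, hk, hE, h⟩ := hyper_17 L hL
  obtain ⟨hA, hB, hZ⟩ := hGen D n k E hn hk hE
  refine ⟨_, _, _, hA, hB, hZ, fun x => ⟨by simp [instA, instB], by simp [instA, instZ],
    fun hx => ?_, fun hx => ?_⟩⟩
  · obtain ⟨a, y, hf⟩ := (h x).2.1 hx
    exact hYes D _ _ _ 1 a y (h x).1 hf
  · rintro ⟨Q, h1, h2, h3, h4, h5⟩
    exact hNo D _ _ _ (h x).1 ((h x).2.2 hx) Q h1 h2 h3 h4 h5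

/-- the edges of the complete graph on four vertices -/
def k4E : List (List ℕ) := [[0, 1], [0, 2], [0, 3], [1, 2], [1, 3], [2, 3]]

theorem k4_wf : WF 4 k4E 2 := by
  refine ⟨by omega, by omega, by decide, by decide, by decide⟩

theorem k4_no : NoIS 4 k4E 2 := by
  intro S hS hE
  by_contra hc
  obtain ⟨a, ha, b, hb, hab⟩ := Finset.one_lt_card.1 (show 1 < S.card by omega)
  have ha4 := Finset.mem_range.1 (hS ha)
  have hb4 := Finset.mem_range.1 (hS hb)
  simp only [k4E, List.mem_cons, List.not_mem_nil, or_false, forall_eq_or_imp, forall_eq,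
    exists_eq_or_imp, exists_eq_left] at hE
  interval_cases a <;> interval_cases b <;> simp_all

theorem k4_frac : Frac 4 k4E 2 2 (fun _ => 1) (fun _ _ => 1) := by
  refine ⟨by decide, by decide, fun _ _ => by omega, fun _ _ _ _ => by omega⟩

theorem coreGap_of_17 (hNo : NoStmt) (hYes : YesStmt) : CoreGap := by
  intro D
  refine ⟨2, instA D 4 k4E 2, instB D 4 k4E 2, instZ D 4 k4E 2, by omega,
    by simp [instA, instB], by simp [instA, instZ], hYes D 4 k4E 2 2 _ _ k4_wf k4_frac, ?_⟩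
  rintro ⟨Q, h1, h2, h3, h4, h5⟩
  exact hNo D 4 k4E 2 k4_wf k4_no Q h1 h2 h3 h4 h5

end Crest.Agent.T318
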