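import Crest.Agent.T318.Pack_21

/-!
# Row 318: the two configuration programs, and `CoreGap → S0492` (helper21)
-/

set_option autoImplicit false

namespace Crest.Agent.T318.Pack21

open Crest.BinPacking Finset

/-! ### lower bounds: a bin holds at most one item above `1/2` -/

theorem card_big_le_one {ι : Type*} (a : ι → ℚ) (ha : ∀ i, 0 ≤ a i) (H : Finset ι)
    (hH : ∑ i ∈ H, a i ≤ 1) : (H.filter fun i => 1 / 2 < a i).card ≤ 1 := by
  classical
  rw [Finset.card_le_one]
  intro x hx y hy
  by_contra hxy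
  rw [Finset.mem_filter] at hx hy
  have h1 : ∑ i ∈ ({x, y} : Finset ι), a i ≤ ∑ i ∈ H, a i :=
    Finset.sum_le_sum_of_subset_of_nonneg (by
      intro w hw
      simp only [Finset.mem_insert, Finset.mem_singleton] at hw
      rcases hw with rfl | rfl
      · exact hx.1
      · exact hy.1) (fun i _ _ => ha i)
  rw [Finset.sum_pair hxy] at h1
  linarith [hx.2, hy.2]

theorem copy_lower {ι : Type*} [Fintype ι] [DecidableEq ι] (a : ι → ℚ) (ha : ∀ i, 0 ≤ a i)
    (y : Finset ι → ℝ) (hy : CopyLPFeasible a y) :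
    (((univ : Finset ι).filter fun i => 1 / 2 < a i).card : ℝ) ≤ copyLPCost y := by
  obtain ⟨h0, h1, h2⟩ := hy
  calc (((univ : Finset ι).filter fun i => 1 / 2 < a i).card : ℝ)
      = ∑ i ∈ (univ : Finset ι).filter fun i => 1 / 2 < a i, (1 : ℝ) := by simp
    _ ≤ ∑ i ∈ (univ : Finset ι).filter fun i => 1 / 2 < a i,
          ∑ H ∈ Finset.univ.filter (fun H => i ∈ H), y H := Finset.sum_le_sum fun i _ => h2 i
    _ = ∑ H, ((H.filter fun i => 1 / 2 < a i).card : ℝ) * y H := by
        simp only [Finset.sum_filter]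
        simp only [Finset.card_filter, Nat.cast_sum, Finset.sum_mul]
        have : ∀ i : ι, (if 1 / 2 < a i then ∑ H : Finset ι, if i ∈ H then y H else 0 else 0) =
            ∑ H : Finset ι, if i ∈ H then ((if 1 / 2 < a i then 1 else 0 : ℕ) : ℝ) * y H else 0 := by
          intro i
          split_ifs <;> simp
        rw [Finset.sum_congr rfl fun i _ => this i, Finset.sum_comm]
        refine Finset.sum_congr rfl fun H _ => ?_
        rw [← Finset.sum_filter]
        congr 1
        ext i
        simp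
    _ ≤ ∑ H, y H := by
        refine Finset.sum_le_sum fun H _ => ?_
        by_cases hH : y H = 0
        · simp [hH]
        · have h3 : ((H.filter fun i => 1 / 2 < a i).card : ℝ) ≤ 1 := by
            exact_mod_cast card_big_le_one a ha H (h1 H hH)
          nlinarith [h0 H]

theorem cfg_big_le_one {n : ℕ} (σ : Fin n → ℚ) (hσ : ∀ j, 0 ≤ σ j) (c : Fin n → ℕ)
    (hc : ∑ j, σ j * (c j : ℚ) ≤ 1) :
    ∑ j ∈ (univ : Finset (Fin n)).filter (fun j => 1 / 2 < σ j), c j ≤ 1 := by
  by_contra h
  push Not at h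
  set s := (univ : Finset (Fin n)).filter (fun j => 1 / 2 < σ j) with hs
  have h1 : ∑ j ∈ s, σ j * (c j : ℚ) ≤ ∑ j, σ j * (c j : ℚ) :=
    Finset.sum_le_sum_of_subset_of_nonneg (subset_univ _)
      (fun j _ _ => mul_nonneg (hσ j) (Nat.cast_nonneg _))
  have h2 : (2 : ℚ) ≤ ∑ j ∈ s, (c j : ℚ) := by exact_mod_cast h
  obtain ⟨j0, hj0, hc0⟩ : ∃ j ∈ s, c j ≠ 0 := by
    by_contra h3
    push Not at h3
    rw [Finset.sum_eq_zero h3] at h
    omega
  have h3 : ∑ j ∈ s, (1 / 2 : ℚ) * (c j : ℚ) < ∑ j ∈ s, σ j * (c j : ℚ) := by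
    refine Finset.sum_lt_sum (fun j hj => ?_) ⟨j0, hj0, ?_⟩
    · exact mul_le_mul_of_nonneg_right (Finset.mem_filter.1 hj).2.le (Nat.cast_nonneg _)
    · exact mul_lt_mul_of_pos_right (Finset.mem_filter.1 hj0).2
        (by exact_mod_cast Nat.pos_of_ne_zero hc0)
  rw [← Finset.mul_sum] at h3
  linarith

theorem type_lower {n : ℕ} (σ : Fin n → ℚ) (hσ : ∀ j, 0 ≤ σ j) (mult : Fin n → ℕ)
    (z : (Fin n → ℕ) →₀ ℝ) (hz : TypeLPFeasible σ mult z) :
    ((∑ j ∈ (univ : Finset (Fin n)).filter (fun j => 1 / 2 < σ j), mult j : ℕ) : ℝ) ≤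
      typeLPCost z := by
  obtain ⟨h0, h1, h2⟩ := hz
  push_cast
  refine (Finset.sum_le_sum fun j _ => h2 j).trans ?_
  unfold typeLPCost Finsupp.sum
  rw [Finset.sum_comm]
  refine Finset.sum_le_sum fun c hc => ?_
  rw [← Finset.sum_mul]
  have h3 : (∑ j ∈ (univ : Finset (Fin n)).filter (fun j => 1 / 2 < σ j), (c j : ℝ)) ≤ 1 := by
    exact_mod_cast cfg_big_le_one σ hσ c (h1 c hc)
  nlinarith [h0 c]

/-! ### upper bounds from a table of bins covering every copy `m` times -/

theorem img_prod_fin {ι α : Type*} [Fintype ι] (a : ι → α) (m : ℕ) :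
    img (fun p : ι × Fin m => a p.1) = m • img a := by
  simp only [img_eq_sum, Fintype.sum_prod_type, Finset.sum_const, Finset.card_univ,
    Fintype.card_fin, Finset.smul_sum]

theorem copy_upper {ι : Type*} [Fintype ι] [DecidableEq ι] (a : ι → ℚ) {m B : ℕ} (hm : 0 < m)
    (v : Fin (m * B) → Fin 3 → ℚ) (e : Fin (m * B) × Fin 3 ≃ ι × Fin m)
    (he : ∀ p, a (e p).1 = v p.1 p.2) (hinj : ∀ i, Function.Injective (v i))
    (hfit : ∀ i, ∑ t, v i t ≤ 1) : ∃ y : Finset ι → ℝ, CopyLPFeasible a y ∧ copyLPCost y = B := by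
  classical
  have hm' : (0 : ℝ) < m := by exact_mod_cast hm
  let H : Fin (m * B) → Finset ι := fun i => univ.image fun t => (e (i, t)).1
  have hi : ∀ i, Function.Injective fun t => (e (i, t)).1 := by
    intro i t t' h
    apply hinj i
    have h1 := he (i, t)
    have h2 := he (i, t')
    simp only at h h1 h2
    rw [← h1, ← h2, h]
  refine ⟨fun K => ((univ.filter fun i => H i = K).card : ℝ) / m, ⟨fun K => by positivity,
    fun K hK => ?_, fun x => ?_⟩, ?_⟩
  · have : (univ.filter fun i => H i = K).Nonempty := by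
      rw [← Finset.card_pos]
      by_contra h
      have h0 : (univ.filter fun i => H i = K).card = 0 := by omega
      exact hK (by simp only [h0]; simp)
    obtain ⟨i, hi'⟩ := this
    rw [← (Finset.mem_filter.1 hi').2]
    simp only [H]
    rw [Finset.sum_image fun t _ t' _ h => hi i h]
    refine le_of_eq_of_le (Finset.sum_congr rfl fun t _ => he (i, t)) (hfit i)
  · rw [← Finset.sum_div, le_div_iff₀ hm', one_mul, ← Nat.cast_sum, Nat.cast_le,
      Finset.sum_card_fiberwise_eq_card_filter]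
    have := Finset.card_le_card_of_injOn (s := (univ : Finset (Fin m)))
      (t := univ.filter fun i => H i ∈ univ.filter fun K : Finset ι => x ∈ K)
      (fun r => (e.symm (x, r)).1) (fun r _ => by
        simp only [Finset.coe_filter, Finset.mem_filter, mem_univ, true_and, Set.mem_ofPred_eq, H,
          Finset.mem_image]
        exact ⟨(e.symm (x, r)).2, by simp⟩) (fun r _ r' _ h => by
        simp only at h
        have h1 : (e ((e.symm (x, r)).1, (e.symm (x, r)).2)).1 =
            (e ((e.symm (x, r)).1, (e.symm (x, r')).2)).1 := by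
          conv_rhs => rw [h]
          simp
        have h2 := hi _ h1
        have h3 : e.symm (x, r) = e.symm (x, r') := Prod.ext h h2
        simpa using h3)
    simpa using this
  · unfold copyLPCost
    rw [← Finset.sum_div, ← Nat.cast_sum,
      ← Finset.card_eq_sum_card_fiberwise (fun _ _ => Finset.mem_coe.2 (mem_univ _))]
    simp only [Finset.card_univ, Fintype.card_fin, Nat.cast_mul]
    field_simp

theorem type_upper {n : ℕ} (σ : Fin n → ℚ) (mult : Fin n → ℕ) {m B : ℕ} (hm : 0 < m)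
    (v : Fin (m * B) → Fin 3 → ℚ)
    (e : Fin (m * B) × Fin 3 ≃ ((j : Fin n) × Fin (mult j)) × Fin m)
    (he : ∀ p, σ (e p).1.1 = v p.1 p.2) (hfit : ∀ i, ∑ t, v i t ≤ 1) :
    ∃ z, TypeLPFeasible σ mult z ∧ typeLPCost z = B := by
  classical
  have hm' : (0 : ℝ) < m := by exact_mod_cast hm
  let cfg : Fin (m * B) → Fin n → ℕ := fun i j => ∑ t, if (e (i, t)).1.1 = j then 1 else 0
  refine ⟨∑ i, Finsupp.single (cfg i) (1 / (m : ℝ)), ⟨fun c => ?_, fun c hc => ?_, fun j => ?_⟩, ?_⟩
  · rw [Finsupp.finsetSum_apply]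
    refine Finset.sum_nonneg fun i _ => ?_
    rw [Finsupp.single_apply]
    split_ifs <;> positivity
  · have h1 := Finsupp.support_finsetSum hc
    rw [Finset.mem_biUnion] at h1
    obtain ⟨i, -, hi⟩ := h1
    have h2 : c = cfg i := Finset.mem_singleton.1 (Finsupp.support_single_subset hi)
    subst h2
    refine le_of_eq_of_le ?_ (hfit i)
    simp only [cfg, Nat.cast_sum, Finset.mul_sum]
    rw [Finset.sum_comm]
    refine Finset.sum_congr rfl fun t _ => ?_
    rw [Finset.sum_eq_single (e (i, t)).1.1]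
    · simpa using he (i, t)
    · intro j _ hj
      simp [Ne.symm hj]
    · simp
  · rw [← Finsupp.sum_finsetSum_index (by simp) (by intros; ring)]
    have h1 : ∀ i, (Finsupp.single (cfg i) (1 / (m : ℝ))).sum (fun c w => (c j : ℝ) * w) =
        (cfg i j : ℝ) * (1 / m) := fun i => Finsupp.sum_single_index (by simp)
    simp only [h1]
    rw [← Finset.sum_mul, ← Nat.cast_sum]
    have h2 : ∑ i, cfg i j = mult j * m := by
      simp only [cfg]
      rw [← Fintype.sum_prod_type' (fun i t => if (e (i, t)).1.1 = j then 1 else 0),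
        Fintype.sum_equiv e _ (fun q => if q.1.1 = j then 1 else 0) (fun p => rfl),
        Fintype.sum_prod_type, Fintype.sum_sigma, Finset.sum_eq_single j]
      · simp
      · intro j' _ hj
        simp [hj]
      · simp
    rw [h2]
    push_cast
    field_simp
    exact le_rfl
  · unfold typeLPCost
    rw [← Finsupp.sum_finsetSum_index (by simp) (by intros; rfl)]
    have h1 : ∀ i, (Finsupp.single (cfg i) (1 / (m : ℝ))).sum (fun _ w => w) = 1 / m :=
      fun i => Finsupp.sum_single_index rfl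
    simp only [h1, Finset.sum_const, Finset.card_univ, Fintype.card_fin, nsmul_eq_mul, Nat.cast_mul]
    field_simp

/-! ### the number of items above `1/2` -/

theorem card_big_sizes (A E Z : List ℕ) :
    Multiset.card ((sizes A E Z : Multiset ℚ).filter fun s => 1 / 2 < s) = A.length := by
  rw [coe_sizes, Multiset.filter_add, Multiset.filter_add, Multiset.filter_eq_self.2,
    Multiset.filter_eq_nil.2, Multiset.filter_eq_nil.2]
  · simp
  · intro s hs
    obtain ⟨a, ha, rfl⟩ := Multiset.mem_map.1 hs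
    have := sZ_bounds (bnd_pos A E Z) (le_bnd_Z (Multiset.mem_coe.1 ha))
    linarith
  · intro s hs
    obtain ⟨a, ha, rfl⟩ := Multiset.mem_map.1 hs
    have := sE_bounds (bnd_pos A E Z) (le_bnd_E (Multiset.mem_coe.1 ha))
    linarith
  · intro s hs
    obtain ⟨a, ha, rfl⟩ := Multiset.mem_map.1 hs
    have := sA_bounds (bnd_pos A E Z) (le_bnd_A (Multiset.mem_coe.1 ha))
    linarith

theorem card_filter_img {ι α : Type*} [Fintype ι] (a : ι → α) (p : α → Prop) [DecidablePred p] :
    Multiset.card ((img a).filter p) = ((univ : Finset ι).filter fun i => p (a i)).card := by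
  unfold img
  rw [Multiset.filter_map, Multiset.card_map]
  rfl

theorem exists_types (S : Multiset ℚ) : ∃ (n : ℕ) (σ : Fin n → ℚ) (mult : Fin n → ℕ),
    Function.Injective σ ∧ (∀ j, σ j ∈ S) ∧ (∀ j, 0 < mult j) ∧
      img (fun i : (j : Fin n) × Fin (mult j) => σ i.1) = S := by
  have hmem : ∀ j, (S.toFinset.equivFin.symm j).1 ∈ S :=
    fun j => Multiset.mem_toFinset.1 (S.toFinset.equivFin.symm j).2
  refine ⟨S.toFinset.card, fun j => (S.toFinset.equivFin.symm j).1,
    fun j => S.count (S.toFinset.equivFin.symm j).1,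
    Subtype.val_injective.comp S.toFinset.equivFin.symm.injective, hmem,
    fun j => Multiset.count_pos.2 (hmem j), ?_⟩
  rw [img_eq_sum, Fintype.sum_sigma]
  simp only [Finset.sum_const, Finset.card_univ, Fintype.card_fin]
  refine Eq.trans ?_ (Multiset.toFinset_sum_count_nsmul_eq S)
  rw [← Finset.sum_coe_sort S.toFinset]
  exact Fintype.sum_equiv S.toFinset.equivFin.symm _ _ fun j => rfl

end Crest.Agent.T318.Pack21

namespace Crest.Agent.T318

open Crest.BinPacking Finset Pack21

/-- **S0492 from the core** -/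
theorem s0492_of_core (h : CoreGap) (c : ℕ) :
    ∃ (m : ℕ) (σ : Fin m → ℚ) (mult : Fin m → ℕ) (B : ℕ),
      Function.Injective σ ∧ (∀ j, 0 < mult j) ∧ (∀ j, 1 / 6 < σ j ∧ σ j ≤ 1) ∧
      (∃ z, TypeLPFeasible σ mult z ∧ typeLPCost z = B) ∧
      (∀ z, TypeLPFeasible σ mult z → (B : ℝ) ≤ typeLPCost z) ∧
      (∃ y : Finset ((j : Fin m) × Fin (mult j)) → ℝ,
        CopyLPFeasible (fun i => σ i.1) y ∧ copyLPCost y = B) ∧
      (∀ y : Finset ((j : Fin m) × Fin (mult j)) → ℝ,
        CopyLPFeasible (fun i => σ i.1) y → (B : ℝ) ≤ copyLPCost y) ∧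
      ¬ PacksInto (fun i : (j : Fin m) × Fin (mult j) => σ i.1) (B + c) := by
  obtain ⟨m, A, E, Z, hm, hE, hZ, hY, hN⟩ := h (8 * c)
  obtain ⟨n, σ, mult, hσ, hmem, hpos, himg⟩ := exists_types (sizes A E Z : Multiset ℚ)
  have hr : ∀ j, 1 / 6 < σ j ∧ σ j ≤ 1 := fun j => sizes_range (Multiset.mem_coe.1 (hmem j))
  have h0 : ∀ j, 0 ≤ σ j := fun j => by have := (hr j).1; linarith
  obtain ⟨v, hv, hinj, hfit⟩ := exists_table hY
  rw [← himg, ← img_prod_fin] at hv
  obtain ⟨e, he⟩ := exists_equiv_of_img_eq _ _ hv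
  have hbig : ((univ : Finset ((j : Fin n) × Fin (mult j))).filter
      fun i => 1 / 2 < σ i.1).card = A.length := by
    rw [← card_big_sizes A E Z, ← himg, card_filter_img]
  have hbig' : ∑ j ∈ (univ : Finset (Fin n)).filter (fun j => 1 / 2 < σ j), mult j =
      A.length := by
    rw [← hbig, Finset.card_filter, Fintype.sum_sigma, Finset.sum_filter]
    refine Finset.sum_congr rfl fun j _ => ?_
    split_ifs <;> simp
  refine ⟨n, σ, mult, A.length, hσ, hpos, hr,
    type_upper σ mult hm v e he hfit, fun z hz => ?_,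
    copy_upper (fun i : (j : Fin n) × Fin (mult j) => σ i.1) hm v e he hinj hfit,
    fun y hy => ?_, fun hp => hN (near_of_packs hE hZ _ himg c hp)⟩
  · rw [← hbig']
    exact type_lower σ h0 mult z hz
  · rw [← hbig]
    exact copy_lower (fun i : (j : Fin n) × Fin (mult j) => σ i.1) (fun i => h0 i.1) y hy

end Crest.Agent.T318
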