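import Crest.Agent.T318.NoB_25

/-!
# Row 318, NO side, part C: the descent
-/

set_option autoImplicit false

namespace Crest.Agent.T318.C25

/-- every occurrence of the block `sub` (with frontier `≤ φ`) leaves room for `g` more triples -/
def NoProp (P : List (ℕ × ℕ)) (K D T J : ℕ) (Q : Multiset (ℕ × ℕ × ℕ)) (Λ S φ g : ℕ)
    (sub : ℕ → ℕ → List (ℕ × ℕ)) : Prop :=
  ∀ lo b (F : Finset ℕ), (∀ p ∈ sub lo b, p ∈ P) →
    (∀ p ∈ P, p ∈ sub lo b ∨ Out Λ lo (lo + S) F p) → (∀ w ∈ F, Λ ^ (lo + S) ∣ w) → F.card ≤ φ →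
    Λ ^ (lo + S) ∣ b → Λ ^ (lo + S) ∣ T → Λ ^ (lo + S) ≤ J → span Λ Q b (lo + S) + g ≤ K + D

theorem sum_range_mul (f : ℕ → ℕ) (r n : ℕ) :
    ∑ κ ∈ Finset.range (r * n), f κ = ∑ c ∈ Finset.range r, ∑ v ∈ Finset.range n, f (c * n + v) := by
  induction r with
  | zero => simp
  | succ r ih => rw [add_mul, one_mul, Finset.sum_range_add, ih, Finset.sum_range_succ]

theorem cv_div {c v n : ℕ} (hv : v < n) : (c * n + v) / n = c := by
  rw [mul_comm, Nat.mul_add_div (by omega), Nat.div_eq_of_lt hv, add_zero]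

theorem cv_mod {c v n : ℕ} (hv : v < n) : (c * n + v) % n = v := by
  rw [mul_comm, Nat.mul_add_mod, Nat.mod_eq_of_lt hv]

variable {P : List (ℕ × ℕ)} {K D T J : ℕ} {Q : Multiset (ℕ × ℕ × ℕ)}

section edge

variable {n Λ d S q lo w0 st : ℕ} {sub : ℕ → ℕ → List (ℕ × ℕ)} {e : List ℕ} {F : Finset ℕ}

/-- descent from a window of an edge group into one of its clusters -/
theorem edge_step {φ g : ℕ} (hsub : SubOK Λ S sub) (hno : NoProp P K D T J Q Λ S φ g sub)
    (hq : q + 1 ≤ Λ) (hd : 2 * d + 1 ≤ Λ) (h3 : 3 ≤ Λ)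
    (hin : ∀ p ∈ grpE n Λ d sub S q lo w0 st e, p ∈ P)
    (hctx : ∀ p ∈ P, p ∈ grpE n Λ d sub S q lo w0 st e ∨ Out Λ lo (lo + n * q * S + 2) F p)
    (hF : ∀ w ∈ F, Λ ^ (lo + n * q * S + 2) ∣ w) (hφ : F.card + n * q ≤ φ)
    (hw0 : Λ ^ (lo + n * q * S + 2) ∣ w0) (hst : Λ ^ (lo + n * q * S + 2) ∣ st)
    (hT : Λ ^ (lo + n * q * S + 2) ∣ T) (hJ : Λ ^ (lo + n * q * S + 2) ≤ J)
    {v κ : ℕ} (hv : v < n) (hve : v ∈ e) (hκ : κ < q) :
    span Λ Q (w0 + v * st) (lo + n * q * S + 2) + sk Λ d Q (lo + n * q * S) (w0 + v * st) κ + g ≤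
      K + D := by
  have hΛ : 0 < Λ := by omega
  have hi0 : v * q + κ < n * q := cv_lt hv hκ
  have h0 := idx_le (lo := lo) (S := S) hi0
  let base : ℕ → ℕ := fun i => w0 + i / q * st + (i % q + 1) * Λ ^ (lo + n * q * S + 1)
  have hctx' := ctx_step (y := lo + n * q * S) (S := S) (N := n * q) (i0 := v * q + κ)
    (F' := F ∪ (Finset.range (n * q)).image base) (ch := fun i => sub (lo + i * S) (base i))
    hΛ hctx (fun p hp => by
      rcases grpE_cases hp with ⟨v, hv, hve, κ, hκ, h1, h2⟩ | ⟨i, hi, hie, hp⟩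
      · refine Or.inl ⟨h2, ?_⟩
        rw [h1]
        exact dvd_add (dvd_add (dvd_add ((pow_dvd_pow Λ (by omega)).trans hw0)
          (Dvd.dvd.mul_left ((pow_dvd_pow Λ (by omega)).trans hst) _))
          (Dvd.dvd.mul_left (pow_dvd_pow Λ (by omega)) _)) (Dvd.dvd.mul_left dvd_rfl _)
      · have h0 := idx_le (lo := lo) (S := S) hi
        obtain ⟨h1, h2, h3, h4⟩ := hsub _ _ (sub_base_dvd hi hw0 hst (by omega)) p hp
        exact Or.inr ⟨i, hi, hp, h1, h2, base i, Finset.mem_union_right _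
          (Finset.mem_image_of_mem _ (Finset.mem_range.2 hi)), h3, h4⟩)
    Finset.subset_union_left le_rfl (by omega) hi0
  have hb : base (v * q + κ) = w0 + v * st + (κ + 1) * Λ ^ (lo + n * q * S + 1) := by
    simp only [base, cv_div hκ, cv_mod hκ]
  have h1 := hno (lo + (v * q + κ) * S) (base (v * q + κ)) (F ∪ (Finset.range (n * q)).image base)
    (fun p hp => hin p (sub_mem_grpE hi0 (by rwa [cv_div hκ]) hp)) hctx'
    (fun w hw => by
      rcases Finset.mem_union.1 hw with hw | hw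
      · exact (pow_dvd_pow Λ (by omega)).trans (hF w hw)
      · obtain ⟨i, hi, rfl⟩ := Finset.mem_image.1 hw
        exact sub_base_dvd (Finset.mem_range.1 hi) hw0 hst (by omega))
    (by
      have a1 := Finset.card_union_le F ((Finset.range (n * q)).image base)
      have a2 := Finset.card_image_le (s := Finset.range (n * q)) (f := base)
      rw [Finset.card_range] at a2
      omega)
    (sub_base_dvd hi0 hw0 hst (by omega)) ((pow_dvd_pow Λ (by omega)).trans hT)
    ((Nat.pow_le_pow_right hΛ (by omega)).trans hJ)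
  have h2 := span_step (Λ := Λ) (d := d) (y := lo + n * q * S) (w := w0 + v * st) (κ := κ)
    (w' := base (v * q + κ)) (h' := lo + (v * q + κ) * S + S) Q hd h3 h0 (by omega) hb.ge (by
      have a1 : Λ ^ (lo + (v * q + κ) * S + S) ≤ Λ ^ (lo + n * q * S + 1) :=
        Nat.pow_le_pow_right hΛ (by omega)
      have a2 : (κ + 2) * Λ ^ (lo + n * q * S + 1) =
          (κ + 1) * Λ ^ (lo + n * q * S + 1) + Λ ^ (lo + n * q * S + 1) := by ring
      omega)
  omega

/-- some cluster of an edge group is spanned by a special job -/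
theorem edge_group (hA : Amb P K D T J Q) (hsub : SubOK Λ S sub)
    (hq : q + 1 ≤ Λ) (hd : 2 * d + 1 ≤ Λ) (h3 : 3 ≤ Λ)
    (hin : ∀ p ∈ grpE n Λ d sub S q lo w0 st e, p ∈ P)
    (hctx : ∀ p ∈ P, p ∈ grpE n Λ d sub S q lo w0 st e ∨ Out Λ lo (lo + n * q * S + 2) F p)
    (hF : ∀ w ∈ F, Λ ^ (lo + n * q * S + 2) ∣ w) (hφ : D + (K + D) * (F.card + n) < q)
    (hw0 : Λ ^ (lo + n * q * S + 2) ∣ w0) (hst : Λ ^ (lo + n * q * S + 2) ∣ st)
    (hT : Λ ^ (lo + n * q * S + 2) ∣ T) (hJ : Λ ^ (lo + n * q * S + 2) ≤ J)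
    (hne : e ≠ []) (hlt : ∀ v ∈ e, v < n) :
    ∃ v ∈ e, ∃ κ < q, 1 ≤ sk Λ d Q (lo + n * q * S) (w0 + v * st) κ := by
  classical
  have hΛ : 0 < Λ := by omega
  let W : Finset ℕ := ((Finset.range n).filter fun v => v ∈ e).image fun v => w0 + v * st
  have hWc : W.card ≤ n := by
    refine Finset.card_image_le.trans ((Finset.card_filter_le _ _).trans ?_)
    simp
  have h1 := hA.group (Λ := Λ) (d := d) (lo := lo) (y := lo + n * q * S) (q := q) (F := F) (W := W)
    (by omega) hF
    (fun w hw => by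
      obtain ⟨v, -, rfl⟩ := Finset.mem_image.1 hw
      exact dvd_add hw0 (Dvd.dvd.mul_left hst _))
    hT hJ hq hd h3 fun p hp => by
      rcases hctx p hp with hg | ho
      · obtain ⟨-, -, v, hv, hve, κ, hκ, ρ, hρ, h3⟩ := grpE_props hΛ hsub hw0 hst hg
        exact Or.inr ⟨w0 + v * st, Finset.mem_image_of_mem _
          (Finset.mem_filter.2 ⟨Finset.mem_range.2 hv, hve⟩), κ, hκ, ρ, hρ, h3⟩
      · exact Or.inl ho
  have hhe : e.headD 0 ∈ e := by
    cases e with
    | nil => exact absurd rfl hne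
    | cons a t => simp
  have h2 := card_le_cnt (p := fun p : ℕ × ℕ => p.2 = sig Λ d (lo + n * q * S))
    (s := (P : Multiset (ℕ × ℕ)))
    ((Finset.range q).image fun κ =>
      (w0 + e.headD 0 * st + κ * Λ ^ (lo + n * q * S + 1) + d * Λ ^ (lo + n * q * S),
        sig Λ d (lo + n * q * S))) fun a ha => by
      obtain ⟨κ, hκ, rfl⟩ := Finset.mem_image.1 ha
      exact ⟨hin _ (anc_mem_grpE (hlt _ hhe) hhe (Finset.mem_range.1 hκ)), rfl⟩
  rw [Finset.card_image_of_injective _ (fun a b hab => by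
    have hV : 0 < Λ ^ (lo + n * q * S + 1) := by positivity
    have := (Prod.ext_iff.1 hab).1
    dsimp only at this
    exact Nat.eq_of_mul_eq_mul_right hV (by omega)), Finset.card_range] at h2
  by_contra hcon
  push Not at hcon
  have h4 : ∑ w ∈ W, ∑ κ ∈ Finset.range q, sk Λ d Q (lo + n * q * S) w κ = 0 := by
    refine Finset.sum_eq_zero fun w hw => Finset.sum_eq_zero fun κ hκ => ?_
    obtain ⟨v, hv, rfl⟩ := Finset.mem_image.1 hw
    have := hcon v (Finset.mem_filter.1 hv).2 κ (Finset.mem_range.1 hκ)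
    omega
  have h5 : (K + D) * (F.card + W.card) ≤ (K + D) * (F.card + n) :=
    Nat.mul_le_mul_left _ (by omega)
  omega

end edge

theorem exists_idx {E : List (List ℕ)} {e : List ℕ} (he : e ∈ E) :
    ∃ a < E.length, E.getD a [] = e := by
  obtain ⟨a, ha, rfl⟩ := List.getElem_of_mem he
  exact ⟨a, ha, by simp [List.getD_eq_getElem?_getD, ha]⟩

section stage

variable {n k Λ S r q : ℕ} {sub : ℕ → ℕ → List (ℕ × ℕ)} {E : List (List ℕ)}

theorem stage_step {φ φ' g : ℕ} (hA : Amb P K D T J Q) (hwf : WF n E k) (hno : NoIS n E k)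
    (hsub : SubOK Λ S sub) (hno' : NoProp P K D T J Q Λ S φ' g sub)
    (hq : q + 1 ≤ Λ) (hd : 2 * E.length + 1 ≤ Λ) (h3 : 3 ≤ Λ) (hr : r * n + 1 ≤ Λ)
    (hr' : D + (K + D) * (φ + 1) < r) (hq' : D + (K + D) * (φ + r * E.length * n + n) < q)
    (hφ' : φ + r * E.length * n + n * q ≤ φ') :
    NoProp P K D T J Q Λ (r * E.length * (n * q * S + 2) + 2) φ (g + 2)
      (stage n E k Λ sub S r q) := by
  classical
  intro lo b F hin hctx hF hφ hb hT hJ
  rw [← add_assoc] at hctx hF hb hT hJ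
  rw [← add_assoc lo]
  have hΛ : 0 < Λ := by omega
  generalize hy : lo + r * E.length * (n * q * S + 2) = y at *
  -- the root group
  have h1 := hA.group (Λ := Λ) (d := E.length) (lo := lo) (y := y) (q := r * n) (F := F) (W := {b})
    (by omega) hF (by simpa using hb) hT hJ hr hd h3 fun p hp => by
      rcases hctx p hp with hg | ho
      · obtain ⟨-, -, κ, hκ, ρ, hρ, h3⟩ := stage_props hsub hq (by omega) (hy ▸ hb) hg
        rw [hy] at hρ h3
        exact Or.inr ⟨b, Finset.mem_singleton_self _, κ, hκ, ρ, hρ, h3⟩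
      · exact Or.inl ho
  rw [Finset.sum_singleton, Finset.card_singleton, sum_range_mul] at h1
  have h2 := card_le_cnt (p := fun p : ℕ × ℕ => p.2 = sig Λ E.length y)
    (s := (P : Multiset (ℕ × ℕ)))
    ((Finset.range r ×ˢ Finset.range k).image fun x =>
      (b + (x.1 * n + x.2) * Λ ^ (y + 1) + E.length * Λ ^ y, sig Λ E.length y)) fun a ha => by
      obtain ⟨x, hx, rfl⟩ := Finset.mem_image.1 ha
      obtain ⟨hx1, hx2⟩ := Finset.mem_product.1 hx
      have hx3 : x.2 < n := lt_of_lt_of_le (Finset.mem_range.1 hx2) hwf.kle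
      refine ⟨hin _ ?_, rfl⟩
      have := anc_mem_stage (E := E) (k := k) (Λ := Λ) (S := S) (q := q) (lo := lo) (b := b)
        (sub := sub) (cv_lt (Finset.mem_range.1 hx1) hx3)
        (by rw [cv_mod hx3]; exact Finset.mem_range.1 hx2)
      rwa [hy] at this
  rw [Finset.card_image_of_injOn (fun a ha c hc hac => by
    have hV : 0 < Λ ^ (y + 1) := by positivity
    have h := (Prod.ext_iff.1 hac).1
    dsimp only at h
    have h' : a.1 * n + a.2 = c.1 * n + c.2 := Nat.eq_of_mul_eq_mul_right hV (by omega)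
    have ha2 : a.2 < n :=
      lt_of_lt_of_le (Finset.mem_range.1 (Finset.mem_product.1 ha).2) hwf.kle
    have hc2 : c.2 < n :=
      lt_of_lt_of_le (Finset.mem_range.1 (Finset.mem_product.1 hc).2) hwf.kle
    refine Prod.ext ?_ ?_
    · rw [← cv_div (c := a.1) ha2, h', cv_div hc2]
    · rw [← cv_mod (c := a.1) ha2, h', cv_mod hc2]), Finset.card_product, Finset.card_range,
    Finset.card_range] at h2
  -- a good copy
  obtain ⟨c, hc, hck⟩ : ∃ c < r, k ≤ ∑ v ∈ Finset.range n, sk Λ E.length Q y b (c * n + v) := by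
    by_contra hcon
    push Not at hcon
    have a1 : ∑ c ∈ Finset.range r, (∑ v ∈ Finset.range n, sk Λ E.length Q y b (c * n + v) + 1) ≤
        ∑ _c ∈ Finset.range r, k :=
      Finset.sum_le_sum fun c hc => hcon c (Finset.mem_range.1 hc)
    rw [Finset.sum_add_distrib] at a1
    simp only [Finset.sum_const, Finset.card_range, smul_eq_mul, mul_one] at a1
    have a2 : (K + D) * (F.card + 1) ≤ (K + D) * (φ + 1) := Nat.mul_le_mul_left _ (by omega)
    omega
  -- the edge groups of this copy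
  let F1 : Finset ℕ := F ∪ (Finset.range (r * E.length) ×ˢ Finset.range n).image
    fun x => ew n E.length Λ y b x.1 + x.2 * Λ ^ (y + 1)
  have hF1c : F1.card ≤ φ + r * E.length * n := by
    refine (Finset.card_union_le _ _).trans (Nat.add_le_add hφ (Finset.card_image_le.trans ?_))
    simp
  have hF1d : ∀ w ∈ F1, Λ ^ y ∣ w := fun w hw => by
    rcases Finset.mem_union.1 hw with hw | hw
    · exact (pow_dvd_pow Λ (by omega)).trans (hF w hw)
    · obtain ⟨x, -, rfl⟩ := Finset.mem_image.1 hw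
      exact dvd_add (ew_dvd hb le_rfl) (Dvd.dvd.mul_left (pow_dvd_pow Λ (by omega)) _)
  have hctx1 : ∀ i < r * E.length, ∀ p ∈ P,
      p ∈ grpE n Λ E.length sub S q (lo + i * (n * q * S + 2)) (ew n E.length Λ y b i)
        (Λ ^ (y + 1)) (E.getD (i % E.length) []) ∨
      Out Λ (lo + i * (n * q * S + 2)) (lo + i * (n * q * S + 2) + (n * q * S + 2)) F1 p :=
    fun i hi => ctx_step (y := y) (S := n * q * S + 2) (N := r * E.length) (i0 := i) (F' := F1)
      (ch := fun i => grpE n Λ E.length sub S q (lo + i * (n * q * S + 2)) (ew n E.length Λ y b i)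
        (Λ ^ (y + 1)) (E.getD (i % E.length) [])) hΛ hctx (fun p hp => by
        rcases stage_cases hp with ⟨κ, hκ, h1, h2⟩ | ⟨i, hi, hp⟩
        · rw [hy] at h1 h2
          refine Or.inl ⟨h2, ?_⟩
          rw [h1]
          exact dvd_add (dvd_add ((pow_dvd_pow Λ (by omega)).trans hb)
            (Dvd.dvd.mul_left (pow_dvd_pow Λ (by omega)) _)) (Dvd.dvd.mul_left dvd_rfl _)
        · obtain ⟨h1, h2, v, hv, h3, h4⟩ := stage_grp_props hsub hq (by omega) (hy ▸ hb) hi hp
          rw [hy] at hp h3 h4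
          exact Or.inr ⟨i, hi, hp, h1, h2, _, Finset.mem_union_right _ (Finset.mem_image.2
            ⟨(i, v), Finset.mem_product.2 ⟨Finset.mem_range.2 hi, Finset.mem_range.2 hv⟩, rfl⟩),
            h3, h4⟩)
      Finset.subset_union_left hy.le (by omega) hi
  have hin1 : ∀ i < r * E.length, ∀ p ∈ grpE n Λ E.length sub S q (lo + i * (n * q * S + 2))
      (ew n E.length Λ y b i) (Λ ^ (y + 1)) (E.getD (i % E.length) []), p ∈ P :=
    fun i hi p hp => hin p (grpE_mem_stage hi (by rw [hy]; exact hp))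
  have hlev : ∀ i < r * E.length, lo + i * (n * q * S + 2) + n * q * S + 2 ≤ y := fun i hi => by
    have := idx_le (lo := lo) (S := n * q * S + 2) hi
    omega
  -- two special jobs in nested clusters
  obtain ⟨a, ha, v, hve, κ, hκ, h2⟩ : ∃ a < E.length, ∃ v ∈ E.getD a [], ∃ κ < q,
      2 ≤ sk Λ E.length Q y b (c * n + v) +
        sk Λ E.length Q (lo + (c * E.length + a) * (n * q * S + 2) + n * q * S)
          (ew n E.length Λ y b (c * E.length + a) + v * Λ ^ (y + 1)) κ := by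
    by_cases hA2 : ∃ v < n, 2 ≤ sk Λ E.length Q y b (c * n + v)
    · obtain ⟨v, hv, h2⟩ := hA2
      obtain ⟨e, he, hve⟩ := hwf.cov v hv
      obtain ⟨a, ha, rfl⟩ := exists_idx he
      exact ⟨a, ha, v, hve, 0, by omega, by omega⟩
    · push Not at hA2
      let S1 : Finset ℕ := (Finset.range n).filter fun v => 1 ≤ sk Λ E.length Q y b (c * n + v)
      have hS1 : k ≤ S1.card := by
        refine hck.trans ?_
        rw [Finset.card_filter]
        refine Finset.sum_le_sum fun v hv => ?_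
        have := hA2 v (Finset.mem_range.1 hv)
        split_ifs <;> omega
      obtain ⟨e, he, hS⟩ : ∃ e ∈ E, ∀ v ∈ e, v ∈ S1 := by
        by_contra hcon
        push Not at hcon
        have := hno S1 (Finset.filter_subset _ _) hcon
        omega
      obtain ⟨a, ha, rfl⟩ := exists_idx he
      have hi := cv_lt hc ha
      have hl := hlev _ hi
      have hin2 := hin1 _ hi
      have hctx2 := hctx1 _ hi
      rw [cv_mod ha] at hin2 hctx2
      rw [← add_assoc] at hctx2
      obtain ⟨v, hve, κ, hκ, h4⟩ := edge_group hA hsub hq hd h3 hin2 hctx2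
        (fun w hw => (pow_dvd_pow Λ hl).trans (hF1d w hw))
        (lt_of_le_of_lt (Nat.add_le_add_left (Nat.mul_le_mul_left _ (by omega)) _) hq')
        (ew_dvd hb hl) (pow_dvd_pow Λ (by omega)) ((pow_dvd_pow Λ (by omega)).trans hT)
        ((Nat.pow_le_pow_right hΛ (by omega)).trans hJ) (hwf.ne _ he) (hwf.lt _ he)
      have h5 := (Finset.mem_filter.1 (hS v hve)).2
      exact ⟨a, ha, v, hve, κ, hκ, by omega⟩
  have he : E.getD a [] ∈ E := by simp [List.getD_eq_getElem?_getD, ha]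
  have hv := hwf.lt _ he v hve
  have hi := cv_lt hc ha
  have hl := hlev _ hi
  have hin2 := hin1 _ hi
  have hctx2 := hctx1 _ hi
  rw [cv_mod ha] at hin2 hctx2
  rw [← add_assoc] at hctx2
  have h4 := edge_step hsub hno' hq hd h3 hin2 hctx2
    (fun w hw => (pow_dvd_pow Λ hl).trans (hF1d w hw)) (by omega)
    (ew_dvd hb hl) (pow_dvd_pow Λ (by omega)) ((pow_dvd_pow Λ (by omega)).trans hT)
    ((Nat.pow_le_pow_right hΛ (by omega)).trans hJ) hv hve hκ
  have hcv := cv_lt hc hv
  have h5 := span_step (Λ := Λ) (d := E.length) (y := y) (w := b) (κ := c * n + v)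
    (w' := ew n E.length Λ y b (c * E.length + a) + v * Λ ^ (y + 1))
    (h' := lo + (c * E.length + a) * (n * q * S + 2) + n * q * S + 2) Q hd h3 hl (by omega)
    (by rw [ew_eq, cv_div ha]; omega) (by
      rw [ew_eq, cv_div ha, cv_mod ha]
      have a1 := Nat.pow_le_pow_right hΛ hl
      have a2 : (a + 1) * Λ ^ y ≤ Λ * Λ ^ y := Nat.mul_le_mul_right _ (by omega)
      have a3 : (c * n + v + 2) * Λ ^ (y + 1) = (c * n + v + 1) * Λ ^ (y + 1) + Λ * Λ ^ y := by ring
      rw [add_mul, one_mul] at a2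
      omega)
  omega

end stage

theorem le_ph2 (n m G D φ : ℕ) : φ ≤ ph2 n m G D φ := by
  unfold ph2 ph1
  omega

theorem le_iter_ph2 (n m G D j φ : ℕ) : φ ≤ (ph2 n m G D)^[j] φ := by
  induction j generalizing φ with
  | zero => exact le_rfl
  | succ j ih => exact (le_ph2 n m G D φ).trans (ih _)

theorem blk_no {n k Λ : ℕ} {E : List (List ℕ)} (hA : Amb P K D T J Q) (hwf : WF n E k)
    (hno : NoIS n E k) (hd : 2 * E.length + 1 ≤ Λ) (h3 : 3 ≤ Λ) (j φ : ℕ)
    (hφ : (ph2 n E.length (K + D) D)^[j] φ < Λ) :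
    SubOK Λ (szX n E.length (K + D) D j φ) (blkX n E k (K + D) D Λ j φ) ∧
      NoProp P K D T J Q Λ (szX n E.length (K + D) D j φ) φ (2 * j)
        (blkX n E k (K + D) D Λ j φ) := by
  induction j generalizing φ with
  | zero =>
    refine ⟨fun lo b _ p hp => by simp [blkX] at hp, fun lo b F _ _ _ _ _ _ _ => ?_⟩
    simpa using hA.span_le (by omega) _ _
  | succ j ih =>
    rw [Function.iterate_succ_apply] at hφ
    obtain ⟨h1, h2⟩ := ih _ hφ
    have h4 := (le_iter_ph2 n E.length (K + D) D j _).trans_lt hφ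
    have hm : 0 < E.length := by
      obtain ⟨e, he, -⟩ := hwf.cov 0 hwf.npos
      exact List.length_pos_of_mem he
    have hq : qq n E.length (K + D) D φ + 1 ≤ Λ := by
      have : 1 * qq n E.length (K + D) D φ ≤ n * qq n E.length (K + D) D φ :=
        Nat.mul_le_mul_right _ hwf.npos
      unfold ph2 at h4
      omega
    have hr : rr (K + D) D φ * n + 1 ≤ Λ := by
      have : rr (K + D) D φ * 1 * n ≤ rr (K + D) D φ * E.length * n :=
        Nat.mul_le_mul_right _ (Nat.mul_le_mul_left _ hm)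
      rw [mul_one] at this
      unfold ph2 ph1 at h4
      omega
    exact ⟨stage_subOK h1 hq (by omega) hr,
      stage_step hA hwf hno h1 h2 hq hd h3 hr (Nat.lt_succ_self _) (Nat.lt_succ_self _) le_rfl⟩

/-- the NO leaf -/
theorem no_25 : NoStmt := by
  intro D n E k hwf hno Q hf hA hB hZ hc
  have hamb : Amb (pts D n E k) (D + 3) D (2 * lam D n E ^ top D n E) (lam D n E ^ top D n E) Q :=
    ⟨hf, hA, hB, hZ, by simpa [instA] using hc⟩
  have hG : D + 3 + D = 2 * D + 3 := by ring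
  obtain ⟨-, h⟩ := blk_no (Λ := lam D n E) hamb hwf hno (by unfold lam; omega)
    (by unfold lam; omega) (D + 2) 0 (by rw [hG]; unfold lam; omega)
  rw [hG] at h
  have := h 0 (lam D n E ^ top D n E) ∅ (fun p hp => hp) (fun p hp => Or.inl hp) (by simp) (by simp)
    (by rw [zero_add]; exact dvd_rfl) (by rw [zero_add]; exact Dvd.intro_left 2 rfl)
    (by rw [zero_add]; exact le_rfl)
  omega

end Crest.Agent.T318.C25
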