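import Crest.Agent.T318.Defs_25

/-!
# Row 318: the YES leaf of `Defs_25` (helper15)
-/

set_option autoImplicit false

namespace Crest.Agent.T318.C25

namespace Yes15

open Finset

/-! ### nested Hall -/

theorem exists_max_ms {α : Type} (s : Multiset α) (f : α → ℕ) (h : s ≠ 0) :
    ∃ a ∈ s, ∀ b ∈ s, f b ≤ f a := by
  classical
  obtain ⟨a, ha, h'⟩ := Finset.exists_max_image s.toFinset f (Multiset.toFinset_nonempty.2 h)
  exact ⟨a, Multiset.mem_toFinset.1 ha, fun b hb => h' b (Multiset.mem_toFinset.2 hb)⟩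

theorem hall (N : ℕ) : ∀ (R : Multiset (ℕ × ℕ)) (B : Multiset ℕ), Multiset.card R = N →
    Multiset.card B = N →
    (∀ θ : ℕ, R.countP (fun r => θ ≤ r.1 + r.2) ≤ B.countP (fun b => θ ≤ b)) →
    ∃ Q : Multiset (ℕ × ℕ × ℕ), (∀ q ∈ Q, q.1 + q.2.2 ≤ q.2.1) ∧
      Q.map (fun q => (q.1, q.2.2)) = R ∧ Q.map (fun q => q.2.1) = B := by
  induction N with
  | zero =>
    intro R B hR hB _
    refine ⟨0, by simp, ?_, ?_⟩
    · simp [Multiset.card_eq_zero.1 hR]
    · simp [Multiset.card_eq_zero.1 hB]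
  | succ N ih =>
    intro R B hR hB h
    have hR0 : R ≠ 0 := by rintro rfl; simp at hR
    have hB0 : B ≠ 0 := by rintro rfl; simp at hB
    obtain ⟨r0, hr0, hrmax⟩ := exists_max_ms R (fun r => r.1 + r.2) hR0
    obtain ⟨b0, hb0, hbmax⟩ := exists_max_ms B (fun b => b) hB0
    obtain ⟨R', rfl⟩ := Multiset.exists_cons_of_mem hr0
    obtain ⟨B', rfl⟩ := Multiset.exists_cons_of_mem hb0
    have hle : r0.1 + r0.2 ≤ b0 := by
      have h1 := h (r0.1 + r0.2)
      have h2 : 0 < Multiset.countP (fun r : ℕ × ℕ => r0.1 + r0.2 ≤ r.1 + r.2) (r0 ::ₘ R') :=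
        Multiset.countP_pos.2 ⟨r0, hr0, le_rfl⟩
      obtain ⟨b, hb, hb'⟩ := Multiset.countP_pos.1 (h2.trans_le h1)
      exact hb'.trans (hbmax b hb)
    obtain ⟨Q, hQ, h1, h2⟩ := ih R' B' (by simpa using hR) (by simpa using hB) (by
      intro θ
      by_cases hθ : θ ≤ r0.1 + r0.2
      · have := h θ
        rw [Multiset.countP_cons_of_pos (p := fun r : ℕ × ℕ => θ ≤ r.1 + r.2) _ hθ,
          Multiset.countP_cons_of_pos (p := fun b => θ ≤ b) _ (hθ.trans hle)] at this
        omega
      · have : Multiset.countP (fun r : ℕ × ℕ => θ ≤ r.1 + r.2) R' = 0 := by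
          refine Multiset.countP_eq_zero.2 (fun r hr hr' => hθ ?_)
          exact hr'.trans (hrmax r (Multiset.mem_cons_of_mem hr))
        omega)
    refine ⟨(r0.1, b0, r0.2) ::ₘ Q, ?_, ?_, ?_⟩
    · intro q hq
      rcases Multiset.mem_cons.1 hq with rfl | hq
      · exact hle
      · exact hQ q hq
    · simp [h1]
    · simp [h2]

/-! ### loads, supports, relabelling -/

/-- number of intervals `[t, t + z)` containing `x` -/
def load (R : Multiset (ℕ × ℕ)) (x : ℕ) : ℕ := R.countP (fun r => r.1 ≤ x ∧ x < r.1 + r.2)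

/-- all intervals lie in `[lo, hi]` -/
def Supp (R : Multiset (ℕ × ℕ)) (lo hi : ℕ) : Prop := ∀ r ∈ R, lo ≤ r.1 ∧ r.1 + r.2 ≤ hi

/-- `R` redistributes the jobs of the `μ`-fold of `P` -/
def Rel (μ : ℕ) (P R : Multiset (ℕ × ℕ)) : Prop :=
  R.map Prod.fst = μ • P.map Prod.fst ∧ R.map Prod.snd = μ • P.map Prod.snd

theorem load_add (R R' : Multiset (ℕ × ℕ)) (x : ℕ) : load (R + R') x = load R x + load R' x :=
  Multiset.countP_add _ _ _

theorem load_sum {ι : Type} (s : Finset ι) (R : ι → Multiset (ℕ × ℕ)) (x : ℕ) :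
    load (∑ i ∈ s, R i) x = ∑ i ∈ s, load (R i) x := by
  classical
  induction s using Finset.induction_on with
  | empty => simp [load]
  | insert a s ha ih => rw [Finset.sum_insert ha, Finset.sum_insert ha, load_add, ih]

theorem load_replicate (c : ℕ) (r : ℕ × ℕ) (x : ℕ) :
    load (Multiset.replicate c r) x = if r.1 ≤ x ∧ x < r.1 + r.2 then c else 0 := by
  unfold load
  induction c with
  | zero => simp
  | succ c ih =>
    rw [Multiset.replicate_succ]
    by_cases h : r.1 ≤ x ∧ x < r.1 + r.2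
    · rw [Multiset.countP_cons_of_pos (p := fun r : ℕ × ℕ => r.1 ≤ x ∧ x < r.1 + r.2) _ h, ih,
        if_pos h, if_pos h]
    · rw [Multiset.countP_cons_of_neg (p := fun r : ℕ × ℕ => r.1 ≤ x ∧ x < r.1 + r.2) _ h, ih,
        if_neg h, if_neg h]

theorem Supp.of_load {R : Multiset (ℕ × ℕ)} {lo hi x : ℕ} (h : Supp R lo hi)
    (hx : load R x ≠ 0) : lo ≤ x ∧ x < hi := by
  obtain ⟨r, hr, h1, h2⟩ := Multiset.countP_pos.1 (Nat.pos_of_ne_zero hx)
  obtain ⟨h3, h4⟩ := h r hr
  omega

theorem Supp.mono {R : Multiset (ℕ × ℕ)} {lo hi lo' hi' : ℕ} (h : Supp R lo hi) (h1 : lo' ≤ lo)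
    (h2 : hi ≤ hi') : Supp R lo' hi' := fun r hr => ⟨h1.trans (h r hr).1, (h r hr).2.trans h2⟩

theorem Supp.add {R R' : Multiset (ℕ × ℕ)} {lo hi : ℕ} (h : Supp R lo hi) (h' : Supp R' lo hi) :
    Supp (R + R') lo hi := by
  intro r hr
  rcases Multiset.mem_add.1 hr with hr | hr
  · exact h r hr
  · exact h' r hr

theorem Supp.sum {ι : Type} {s : Finset ι} {R : ι → Multiset (ℕ × ℕ)} {lo hi : ℕ}
    (h : ∀ i ∈ s, Supp (R i) lo hi) : Supp (∑ i ∈ s, R i) lo hi := by
  intro r hr
  obtain ⟨i, hi, hr⟩ := Multiset.mem_sum.1 hr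
  exact h i hi r hr

theorem Rel.add {μ : ℕ} {P R P' R' : Multiset (ℕ × ℕ)} (h : Rel μ P R) (h' : Rel μ P' R') :
    Rel μ (P + P') (R + R') := by
  refine ⟨?_, ?_⟩
  · rw [Multiset.map_add, Multiset.map_add, h.1, h'.1, nsmul_add]
  · rw [Multiset.map_add, Multiset.map_add, h.2, h'.2, nsmul_add]

theorem map_sum' {ι α β : Type} (s : Finset ι) (R : ι → Multiset α) (f : α → β) :
    (∑ i ∈ s, R i).map f = ∑ i ∈ s, (R i).map f := by
  classical
  induction s using Finset.induction_on with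
  | empty => simp
  | insert a s ha ih => rw [Finset.sum_insert ha, Finset.sum_insert ha, Multiset.map_add, ih]

theorem Rel.sum {ι : Type} {μ : ℕ} {s : Finset ι} {P R : ι → Multiset (ℕ × ℕ)}
    (h : ∀ i ∈ s, Rel μ (P i) (R i)) : Rel μ (∑ i ∈ s, P i) (∑ i ∈ s, R i) := by
  refine ⟨?_, ?_⟩
  · rw [map_sum', map_sum', Finset.smul_sum]
    exact Finset.sum_congr rfl (fun i hi => (h i hi).1)
  · rw [map_sum', map_sum', Finset.smul_sum]
    exact Finset.sum_congr rfl (fun i hi => (h i hi).2)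

theorem coe_flatMap_range {α : Type} (N : ℕ) (f : ℕ → List α) :
    (((List.range N).flatMap f : List α) : Multiset α) = ∑ i ∈ range N, (f i : Multiset α) := by
  induction N with
  | zero => simp
  | succ N ih =>
    rw [List.range_succ, List.flatMap_append, Finset.sum_range_succ, ← ih, ← Multiset.coe_add]
    simp

theorem coe_flatMap_filter {α : Type} (N : ℕ) (p : ℕ → Prop) [DecidablePred p] (f : ℕ → List α) :
    ((((List.range N).filter (fun i => decide (p i))).flatMap f : List α) : Multiset α) =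
      ∑ i ∈ (range N).filter p, (f i : Multiset α) := by
  induction N with
  | zero => simp
  | succ N ih =>
    rw [List.range_succ, List.filter_append, List.flatMap_append, ← Multiset.coe_add, ih,
      Finset.range_add_one, Finset.filter_insert]
    by_cases h : p N
    · rw [if_pos h, Finset.sum_insert (by simp)]
      simp [h, add_comm]
    · rw [if_neg h]
      simp [h]

theorem coe_map_range {α : Type} (N : ℕ) (f : ℕ → α) :
    (((List.range N).map f : List α) : Multiset α) = ∑ i ∈ range N, ({f i} : Multiset α) := by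
  induction N with
  | zero => simp
  | succ N ih =>
    rw [List.range_succ, List.map_append, Finset.sum_range_succ, ← ih, ← Multiset.coe_add]
    simp

/-! ### anchors -/

/-- anchors with `c κ` special and `μ - c κ` default jobs -/
def ancR (Λ d y w q μ : ℕ) (c : ℕ → ℕ) : Multiset (ℕ × ℕ) :=
  ∑ κ ∈ range (q + 1),
    (Multiset.replicate (c κ) (w + κ * Λ ^ (y + 1) + d * Λ ^ y, sig Λ d y) +
      Multiset.replicate (μ - c κ) (w + κ * Λ ^ (y + 1) + d * Λ ^ y, Λ ^ y))

theorem ancR_fst (Λ d y w q μ : ℕ) (c : ℕ → ℕ) (hc : ∀ κ, c κ ≤ μ) (sp : ℕ → Bool) :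
    (ancR Λ d y w q μ c).map Prod.fst = μ • ((anc Λ d y w q sp : List (ℕ × ℕ)) :
      Multiset (ℕ × ℕ)).map Prod.fst := by
  unfold ancR anc
  rw [coe_map_range, map_sum', map_sum', Finset.smul_sum]
  refine Finset.sum_congr rfl (fun κ _ => ?_)
  rw [Multiset.map_add, Multiset.map_replicate, Multiset.map_replicate, Multiset.map_singleton,
    ← Multiset.replicate_add, Nat.add_sub_cancel' (hc κ), Multiset.nsmul_singleton]

theorem sum_replicate {ι α : Type} (s : Finset ι) (c : ι → ℕ) (a : α) :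
    ∑ i ∈ s, Multiset.replicate (c i) a = Multiset.replicate (∑ i ∈ s, c i) a := by
  classical
  induction s using Finset.induction_on with
  | empty => simp
  | insert i s hi ih => rw [Finset.sum_insert hi, Finset.sum_insert hi, ih, Multiset.replicate_add]

theorem ancR_snd (Λ d y w q μ : ℕ) (c : ℕ → ℕ) :
    (ancR Λ d y w q μ c).map Prod.snd =
      Multiset.replicate (∑ κ ∈ range (q + 1), c κ) (sig Λ d y) +
        Multiset.replicate (∑ κ ∈ range (q + 1), (μ - c κ)) (Λ ^ y) := by
  unfold ancR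
  rw [map_sum', ← sum_replicate, ← sum_replicate, ← Finset.sum_add_distrib]
  refine Finset.sum_congr rfl (fun κ _ => ?_)
  rw [Multiset.map_add, Multiset.map_replicate, Multiset.map_replicate]

theorem anc_snd (Λ d y w q μ : ℕ) (sp : ℕ → Bool) :
    μ • ((anc Λ d y w q sp : List (ℕ × ℕ)) : Multiset (ℕ × ℕ)).map Prod.snd =
      (ancR Λ d y w q μ (fun κ => if sp κ then μ else 0)).map Prod.snd := by
  unfold ancR anc
  rw [coe_map_range, map_sum', map_sum', Finset.smul_sum]
  refine Finset.sum_congr rfl (fun κ _ => ?_)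
  rw [Multiset.map_add, Multiset.map_replicate, Multiset.map_replicate, Multiset.map_singleton,
    Multiset.nsmul_singleton]
  by_cases h : sp κ = true <;> simp [h]

/-- a family of windows of one level: only the total number of special jobs matters -/
theorem rel_anc {ι : Type} (s : Finset ι) (Λ d y q μ : ℕ) (w : ι → ℕ) (c : ι → ℕ → ℕ)
    (sp : ι → ℕ → Bool) (hc : ∀ i ∈ s, ∀ κ, c i κ ≤ μ)
    (htot : ∑ i ∈ s, ∑ κ ∈ range (q + 1), c i κ =
      ∑ i ∈ s, ∑ κ ∈ range (q + 1), (if sp i κ then μ else 0)) :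
    Rel μ (∑ i ∈ s, ((anc Λ d y (w i) q (sp i) : List (ℕ × ℕ)) : Multiset (ℕ × ℕ)))
      (∑ i ∈ s, ancR Λ d y (w i) q μ (c i)) := by
  refine ⟨?_, ?_⟩
  · rw [map_sum', map_sum', Finset.smul_sum]
    exact Finset.sum_congr rfl (fun i hi => ancR_fst _ _ _ _ _ _ _ (hc i hi) _)
  · rw [map_sum', map_sum', Finset.smul_sum]
    simp only [anc_snd, ancR_snd, Finset.sum_add_distrib, sum_replicate]
    rw [htot]
    congr 2
    have key : ∀ c' : ι → ℕ → ℕ, (∀ i ∈ s, ∀ κ, c' i κ ≤ μ) →
        ∑ i ∈ s, ∑ κ ∈ range (q + 1), (μ - c' i κ) + ∑ i ∈ s, ∑ κ ∈ range (q + 1), c' i κ =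
          ∑ _i ∈ s, ∑ _κ ∈ range (q + 1), μ := by
      intro c' hc'
      rw [← Finset.sum_add_distrib]
      refine Finset.sum_congr rfl (fun i hi => ?_)
      rw [← Finset.sum_add_distrib]
      exact Finset.sum_congr rfl (fun κ _ => Nat.sub_add_cancel (hc' i hi κ))
    have h1 := key c hc
    have h2 := key (fun i κ => if sp i κ then μ else 0) (fun i _ κ => by split_ifs <;> simp)
    omega

theorem idx_le {a b V z : ℕ} (h1 : a * V ≤ z) (h2 : z < (b + 1) * V) : a ≤ b := by
  have := Nat.lt_of_mul_lt_mul_right (h1.trans_lt h2)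
  omega

theorem hV_of {Λ d : ℕ} (y : ℕ) (hd : 2 * d + 1 ≤ Λ) :
    2 * (d * Λ ^ y) + Λ ^ y ≤ Λ ^ (y + 1) := by
  have : (2 * d + 1) * Λ ^ y ≤ Λ * Λ ^ y := Nat.mul_le_mul_right _ hd
  rw [pow_succ]
  nlinarith

theorem sig_eq (Λ d y : ℕ) : sig Λ d y = Λ ^ (y + 1) + d * Λ ^ y + Λ ^ y := by
  unfold sig
  ring

theorem ancR_supp (Λ d y w q μ : ℕ) (c : ℕ → ℕ) (hd : 2 * d + 1 ≤ Λ) (hq : c q = 0) :
    Supp (ancR Λ d y w q μ c) w (w + (q + 1) * Λ ^ (y + 1)) := by
  have hV := hV_of y hd
  refine Supp.sum (fun κ hκ => ?_)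
  have hκ' : κ ≤ q := Nat.lt_succ_iff.1 (Finset.mem_range.1 hκ)
  refine Supp.add ?_ ?_
  · intro r hr
    obtain ⟨h0, rfl⟩ := Multiset.mem_replicate.1 hr
    have hκq : κ + 1 ≤ q := by
      rcases hκ'.lt_or_eq with h | h
      · exact h
      · exact absurd (h ▸ hq) h0
    have := Nat.mul_le_mul_right (Λ ^ (y + 1)) hκq
    rw [add_mul, one_mul] at this
    simp only [sig_eq, add_mul, one_mul]
    omega
  · intro r hr
    obtain ⟨_, rfl⟩ := Multiset.mem_replicate.1 hr
    have := Nat.mul_le_mul_right (Λ ^ (y + 1)) hκ'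
    simp only [add_mul, one_mul]
    omega

theorem ancR_load (Λ d y w q μ : ℕ) (c : ℕ → ℕ) (x : ℕ) :
    load (ancR Λ d y w q μ c) x = ∑ κ ∈ range (q + 1),
      ((if w + κ * Λ ^ (y + 1) + d * Λ ^ y ≤ x ∧
          x < w + κ * Λ ^ (y + 1) + d * Λ ^ y + sig Λ d y then c κ else 0) +
        (if w + κ * Λ ^ (y + 1) + d * Λ ^ y ≤ x ∧
          x < w + κ * Λ ^ (y + 1) + d * Λ ^ y + Λ ^ y then μ - c κ else 0)) := by
  unfold ancR
  rw [load_sum]
  refine Finset.sum_congr rfl (fun κ _ => ?_)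
  rw [load_add, load_replicate, load_replicate]

theorem ancR_load_le (Λ d y w q μ M : ℕ) (c : ℕ → ℕ) (hd : 2 * d + 1 ≤ Λ) (hc : ∀ κ, c κ ≤ μ)
    (hM : ∀ κ, c κ ≤ M) (x : ℕ) : load (ancR Λ d y w q μ c) x ≤ μ + M := by
  have hV := hV_of y hd
  have hVpos : 0 < Λ ^ (y + 1) := pow_pos (by omega) _
  rw [ancR_load, sig_eq]
  generalize Λ ^ (y + 1) = V at *
  generalize Λ ^ y = U at *
  obtain ⟨κ', h1, h2⟩ : ∃ κ', κ' * V ≤ x - w ∧ x - w < (κ' + 1) * V := by
    refine ⟨(x - w) / V, Nat.div_mul_le_self _ _, ?_⟩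
    rw [add_mul, one_mul]
    exact Nat.lt_div_mul_add hVpos
  calc _ ≤ ∑ κ ∈ range (q + 1), ((if κ = κ' then μ else 0) + (if κ = κ' - 1 then M else 0)) := by
        refine Finset.sum_le_sum (fun κ _ => ?_)
        have hcκ := hc κ
        have hMκ := hM κ
        by_cases hA : w + κ * V + d * U ≤ x
        · have hle : κ ≤ κ' := idx_le (V := V) (z := x - w) (by omega) h2
          by_cases hκ : κ = κ'
          · rw [if_pos hκ]
            split_ifs <;> omega
          · have hB : ¬ (x < w + κ * V + d * U + U) := by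
              intro hB
              have : κ' ≤ κ := idx_le (V := V) (z := x - w) h1 (by
                rw [add_mul, one_mul]; omega)
              omega
            rw [if_neg (fun h : _ ∧ x < w + κ * V + d * U + U => hB h.2), if_neg hκ]
            by_cases hC : x < w + κ * V + d * U + (V + d * U + U)
            · have : κ' ≤ κ + 1 := idx_le (V := V) (z := x - w) h1 (by
                simp only [add_mul, one_mul]; omega)
              rw [if_pos ⟨hA, hC⟩, if_pos (by omega)]
              omega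
            · rw [if_neg (fun h : _ ∧ _ => hC h.2)]
              omega
        · rw [if_neg (fun h : _ ∧ _ => hA h.1), if_neg (fun h : _ ∧ _ => hA h.1)]
          omega
    _ ≤ μ + M := by
        rw [Finset.sum_add_distrib, Finset.sum_ite_eq', Finset.sum_ite_eq']
        split_ifs <;> omega

theorem ancR_load_sub (Λ d y w q μ : ℕ) (c : ℕ → ℕ) (hd : 2 * d + 1 ≤ Λ) (x κ0 : ℕ)
    (h1 : w + (κ0 + 1) * Λ ^ (y + 1) ≤ x) (h2 : x < w + (κ0 + 1) * Λ ^ (y + 1) + d * Λ ^ y) :
    load (ancR Λ d y w q μ c) x ≤ c κ0 := by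
  have hV := hV_of y hd
  rw [ancR_load, sig_eq]
  generalize Λ ^ (y + 1) = V at *
  generalize Λ ^ y = U at *
  calc _ ≤ ∑ κ ∈ range (q + 1), (if κ = κ0 then c κ0 else 0) := by
        refine Finset.sum_le_sum (fun κ _ => ?_)
        by_cases hA : w + κ * V + d * U ≤ x
        · have hle : κ ≤ κ0 := idx_le (V := V) (z := κ * V) le_rfl (by omega)
          have hB : ¬ (x < w + κ * V + d * U + U) := by
            intro hB
            have := Nat.mul_le_mul_right V hle
            rw [add_mul, one_mul] at h1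
            omega
          rw [if_neg (fun h : _ ∧ x < w + κ * V + d * U + U => hB h.2)]
          by_cases hC : x < w + κ * V + d * U + (V + d * U + U)
          · have : κ0 + 1 ≤ κ + 1 := idx_le (V := V) (z := (κ0 + 1) * V) le_rfl (by
              simp only [add_mul, one_mul] at h1 ⊢; omega)
            have hκ : κ = κ0 := by omega
            rw [if_pos ⟨hA, hC⟩, if_pos hκ, hκ]
            omega
          · rw [if_neg (fun h : _ ∧ _ => hC h.2)]
            omega
        · rw [if_neg (fun h : _ ∧ _ => hA h.1), if_neg (fun h : _ ∧ _ => hA h.1)]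
          omega
    _ ≤ c κ0 := by
        rw [Finset.sum_ite_eq']
        split_ifs <;> omega

/-! ### blocks -/

/-- the `μ`-fold of `P` can be scheduled inside `[lo, hi]` with load at most `B` -/
def Blk (μ : ℕ) (P : List (ℕ × ℕ)) (lo hi B : ℕ) : Prop :=
  ∃ R, Rel μ (P : Multiset (ℕ × ℕ)) R ∧ Supp R lo hi ∧ ∀ x, load R x ≤ B

/-- all sub-blocks are schedulable -/
def SubOK (μ Λ : ℕ) (sub : ℕ → ℕ → List (ℕ × ℕ)) (S B : ℕ) : Prop :=
  ∀ lo b, Blk μ (sub lo b) b (b + Λ ^ (lo + S)) B

theorem idx_eq {a b V w x U : ℕ} (hU : U ≤ V) (h1 : w + a * V ≤ x) (h2 : x < w + a * V + U)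
    (h3 : w + b * V ≤ x) (h4 : x < w + b * V + U) : a = b := by
  have e1 : a ≤ b := idx_le (V := V) (z := a * V) le_rfl (by rw [add_mul, one_mul]; omega)
  have e2 : b ≤ a := idx_le (V := V) (z := b * V) le_rfl (by rw [add_mul, one_mul]; omega)
  omega

theorem headD_mem {e : List ℕ} (he : e ≠ []) : e.headD 0 ∈ e := by
  cases e with
  | nil => exact absurd rfl he
  | cons a l => simp

theorem grpE_ok (μ n Λ d : ℕ) (sub : ℕ → ℕ → List (ℕ × ℕ)) (S q lo w0 st B : ℕ) (e : List ℕ)
    (yv : ℕ → ℕ) (hsub : SubOK μ Λ sub S B) (hB : μ ≤ B) (he : e ≠ []) (hlt : ∀ v ∈ e, v < n)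
    (hy : ∑ v ∈ (range n).filter (fun v => v ∈ e), yv v = μ) (hq : q + 1 ≤ Λ)
    (hd : 2 * d + 1 ≤ Λ) (hd1 : 1 ≤ d) (hst : Λ ^ (lo + n * q * S + 2) ≤ st) :
    ∃ R, Rel μ ((grpE n Λ d sub S q lo w0 st e : List (ℕ × ℕ)) : Multiset (ℕ × ℕ)) R ∧
      (∀ r ∈ R, ∃ v < n, w0 + v * st ≤ r.1 ∧
        r.1 + r.2 ≤ w0 + v * st + Λ ^ (lo + n * q * S + 2)) ∧
      ∀ x, load R x = 0 ∨ ∃ v ∈ e, w0 + v * st ≤ x ∧
        x < w0 + v * st + Λ ^ (lo + n * q * S + 2) ∧ load R x ≤ B + yv v := by
  classical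
  choose Rs hRs using hsub
  set y := lo + n * q * S with hydef
  have hΛ : 1 ≤ Λ := by omega
  set Vs := (range n).filter (fun v => v ∈ e) with hVs
  set Is := (range (n * q)).filter (fun i => i / q ∈ e) with hIs
  set c : ℕ → ℕ → ℕ := fun v κ => if κ < q then yv v else 0 with hc
  set bs : ℕ → ℕ := fun i => w0 + i / q * st + (i % q + 1) * Λ ^ (y + 1) with hbs
  have hyle : ∀ v ∈ Vs, yv v ≤ μ := fun v hv =>
    hy ▸ Finset.single_le_sum (f := yv) (fun _ _ => Nat.zero_le _) hv
  have hcy : ∀ v κ, c v κ ≤ yv v := by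
    intro v κ
    simp only [hc]
    split_ifs <;> omega
  have hcμ : ∀ v ∈ Vs, ∀ κ, c v κ ≤ μ := fun v hv κ => (hcy v κ).trans (hyle v hv)
  have hW : (q + 1) * Λ ^ (y + 1) ≤ Λ ^ (y + 2) := by
    rw [pow_succ Λ (y + 1), mul_comm (Λ ^ (y + 1))]
    exact Nat.mul_le_mul_right _ hq
  have hUV : Λ ^ y ≤ Λ ^ (y + 1) := Nat.pow_le_pow_right hΛ (by omega)
  have hUd : Λ ^ y ≤ d * Λ ^ y := Nat.le_mul_of_pos_left _ hd1
  -- supports
  have hsA : ∀ v, Supp (ancR Λ d y (w0 + v * st) q μ (c v)) (w0 + v * st)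
      (w0 + v * st + Λ ^ (y + 2)) := fun v =>
    (ancR_supp Λ d y (w0 + v * st) q μ (c v) hd (by simp [hc])).mono le_rfl (by omega)
  have hsS : ∀ i ∈ Is, Supp (Rs (lo + i * S) (bs i)) (bs i) (bs i + Λ ^ y) := by
    intro i hi
    have hi' : i + 1 ≤ n * q := Finset.mem_range.1 (Finset.mem_filter.1 hi).1
    refine (hRs (lo + i * S) (bs i)).2.1.mono le_rfl (Nat.add_le_add_left ?_ _)
    refine Nat.pow_le_pow_right hΛ ?_
    have := Nat.mul_le_mul_right S hi'
    rw [add_mul, one_mul] at this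
    omega
  have hbs1 : ∀ i ∈ Is, i / q ∈ Vs ∧ i % q < q ∧ w0 + i / q * st ≤ bs i ∧
      bs i + Λ ^ y ≤ w0 + i / q * st + Λ ^ (y + 2) := by
    intro i hi
    obtain ⟨hi1, hi2⟩ := Finset.mem_filter.1 hi
    have hi' : i < n * q := Finset.mem_range.1 hi1
    have hq0 : 0 < q := Nat.pos_of_ne_zero (by rintro rfl; simp at hi')
    have hm : i % q < q := Nat.mod_lt _ hq0
    refine ⟨Finset.mem_filter.2 ⟨Finset.mem_range.2 (hlt _ hi2), hi2⟩, hm, ?_, ?_⟩
    · simp only [hbs]; omega
    · have := Nat.mul_le_mul_right (Λ ^ (y + 1)) (show i % q + 1 ≤ q from hm)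
      simp only [hbs]
      rw [add_mul q, one_mul] at hW
      omega
  refine ⟨∑ v ∈ Vs, ancR Λ d y (w0 + v * st) q μ (c v) + ∑ i ∈ Is, Rs (lo + i * S) (bs i),
    ?_, ?_, ?_⟩
  · unfold grpE
    rw [← Multiset.coe_add, coe_flatMap_filter, coe_flatMap_filter]
    refine Rel.add ?_ (Rel.sum (fun i _ => (hRs _ _).1))
    refine rel_anc Vs Λ d y q μ (fun v => w0 + v * st) c
      (fun v κ => decide (κ < q ∧ v = e.headD 0)) hcμ ?_
    have e1 : ∀ v, ∑ κ ∈ range (q + 1), c v κ = q * yv v := by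
      intro v
      rw [Finset.sum_range_succ, Finset.sum_congr rfl (g := fun _ => yv v)
        (fun κ hκ => by simp [hc, Finset.mem_range.1 hκ])]
      simp [hc]
    have e2 : ∀ v, ∑ κ ∈ range (q + 1),
        (if decide (κ < q ∧ v = e.headD 0) = true then μ else 0) =
        if v = e.headD 0 then q * μ else 0 := by
      intro v
      rw [Finset.sum_range_succ, Finset.sum_congr rfl (g := fun _ => if v = e.headD 0 then μ else 0)
        (fun κ hκ => by simp only [Finset.mem_range.1 hκ, true_and, decide_eq_true_eq])]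
      split_ifs <;> simp_all
    simp only [e1, e2]
    rw [← Finset.mul_sum, hy, Finset.sum_ite_eq', if_pos]
    exact Finset.mem_filter.2 ⟨Finset.mem_range.2 (hlt _ (headD_mem he)), headD_mem he⟩
  · intro r hr
    rcases Multiset.mem_add.1 hr with hr | hr
    · obtain ⟨v, hv, hr⟩ := Multiset.mem_sum.1 hr
      exact ⟨v, Finset.mem_range.1 (Finset.mem_filter.1 hv).1, hsA v r hr⟩
    · obtain ⟨i, hi, hr⟩ := Multiset.mem_sum.1 hr
      obtain ⟨h1, _, h3, h4⟩ := hbs1 i hi
      obtain ⟨h5, h6⟩ := hsS i hi r hr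
      exact ⟨i / q, Finset.mem_range.1 (Finset.mem_filter.1 h1).1, by omega, by omega⟩
  · intro x
    rw [load_add, load_sum, load_sum]
    by_cases hx : ∃ v ∈ Vs, w0 + v * st ≤ x ∧ x < w0 + v * st + Λ ^ (y + 2)
    · obtain ⟨v0, hv0, hx1, hx2⟩ := hx
      refine Or.inr ⟨v0, (Finset.mem_filter.1 hv0).2, hx1, hx2, ?_⟩
      have eA : ∑ v ∈ Vs, load (ancR Λ d y (w0 + v * st) q μ (c v)) x =
          load (ancR Λ d y (w0 + v0 * st) q μ (c v0)) x := by
        refine Finset.sum_eq_single_of_mem v0 hv0 (fun v _ hne => ?_)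
        by_contra h0
        obtain ⟨h1, h2⟩ := (hsA v).of_load h0
        exact hne (idx_eq hst h1 h2 hx1 hx2)
      rw [eA]
      by_cases h2 : ∃ i ∈ Is, load (Rs (lo + i * S) (bs i)) x ≠ 0
      · obtain ⟨i0, hi0, hl0⟩ := h2
        have key : ∀ i ∈ Is, load (Rs (lo + i * S) (bs i)) x ≠ 0 → i / q = v0 ∧
            w0 + v0 * st + (i % q + 1) * Λ ^ (y + 1) ≤ x ∧
            x < w0 + v0 * st + (i % q + 1) * Λ ^ (y + 1) + Λ ^ y := by
          intro i hi hl
          obtain ⟨h1, h2⟩ := (hsS i hi).of_load hl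
          obtain ⟨_, _, h3, h4⟩ := hbs1 i hi
          have hv : i / q = v0 := idx_eq hst (h3.trans h1) (h2.trans_le h4) hx1 hx2
          simp only [hbs, hv] at h1 h2
          exact ⟨hv, h1, h2⟩
        obtain ⟨k1, k2, k3⟩ := key i0 hi0 hl0
        have eS : ∑ i ∈ Is, load (Rs (lo + i * S) (bs i)) x =
            load (Rs (lo + i0 * S) (bs i0)) x := by
          refine Finset.sum_eq_single_of_mem i0 hi0 (fun i hi hne => ?_)
          by_contra h0
          obtain ⟨l1, l2, l3⟩ := key i hi h0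
          have := idx_eq hUV l2 l3 k2 k3
          apply hne
          rw [← Nat.div_add_mod i q, ← Nat.div_add_mod i0 q, l1, k1]
          omega
        have hA := ancR_load_sub Λ d y (w0 + v0 * st) q μ (c v0) hd x (i0 % q) k2 (by omega)
        have := hcy v0 (i0 % q)
        have hS := (hRs (lo + i0 * S) (bs i0)).2.2 x
        omega
      · push Not at h2
        rw [Finset.sum_eq_zero h2]
        have := ancR_load_le Λ d y (w0 + v0 * st) q μ (yv v0) (c v0) hd (hcμ v0 hv0) (hcy v0) x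
        omega
    · left
      have z1 : ∑ i ∈ Is, load (Rs (lo + i * S) (bs i)) x = 0 := by
        refine Finset.sum_eq_zero (fun i hi => ?_)
        by_contra h0
        obtain ⟨h1, h2⟩ := (hsS i hi).of_load h0
        obtain ⟨h5, _, h3, h4⟩ := hbs1 i hi
        exact hx ⟨i / q, h5, h3.trans h1, h2.trans_le h4⟩
      have z2 : ∑ v ∈ Vs, load (ancR Λ d y (w0 + v * st) q μ (c v)) x = 0 := by
        refine Finset.sum_eq_zero (fun v hv => ?_)
        by_contra h0
        exact hx ⟨v, hv, (hsA v).of_load h0⟩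
      rw [z1, z2]

theorem sum_range_mod (r n : ℕ) (f : ℕ → ℕ) :
    ∑ κ ∈ range (r * n), f (κ % n) = r * ∑ v ∈ range n, f v := by
  induction r with
  | zero => simp
  | succ r ih =>
    rw [add_mul, one_mul, Finset.sum_range_add, ih, add_mul, one_mul]
    congr 1
    refine Finset.sum_congr rfl (fun v hv => ?_)
    rw [add_comm, Nat.add_mul_mod_self_right, Nat.mod_eq_of_lt (Finset.mem_range.1 hv)]

theorem stage_ok (μ n : ℕ) (E : List (List ℕ)) (k Λ : ℕ) (sub : ℕ → ℕ → List (ℕ × ℕ))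
    (S r q lo b B : ℕ) (xx : ℕ → ℕ) (yy : ℕ → ℕ → ℕ) (hwf : WF n E k) (hfr : Frac n E k μ xx yy)
    (hsub : SubOK μ Λ sub S B) (hB : μ ≤ B) (hq : q + 1 ≤ Λ) (hr : r * n + 1 ≤ Λ)
    (hd : 2 * E.length + 1 ≤ Λ) :
    Blk μ (stage n E k Λ sub S r q lo b) b
      (b + Λ ^ (lo + r * E.length * (n * q * S + 2) + 2)) (B + μ) := by
  classical
  have hn := hwf.npos
  have hm : 1 ≤ E.length := by
    obtain ⟨e, he, _⟩ := hwf.cov 0 hn
    exact List.length_pos_of_mem he
  set m := E.length with hmdef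
  set Y := lo + r * m * (n * q * S + 2) with hY
  have hΛ : 1 ≤ Λ := by omega
  have hgetD : ∀ i, E.getD (i % m) [] ∈ E := by
    intro i
    have : i % m < E.length := Nat.mod_lt _ hm
    rw [List.getD_eq_getElem _ _ this]
    exact List.getElem_mem this
  have hUV : Λ ^ Y ≤ Λ ^ (Y + 1) := Nat.pow_le_pow_right hΛ (by omega)
  have hV := hV_of Y hd
  have hlev : ∀ i < r * m, Λ ^ (lo + i * (n * q * S + 2) + n * q * S + 2) ≤ Λ ^ Y := by
    intro i hi
    refine Nat.pow_le_pow_right hΛ ?_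
    have := Nat.mul_le_mul_right (n * q * S + 2) (show i + 1 ≤ r * m from hi)
    rw [add_mul, one_mul] at this
    omega
  set w0 : ℕ → ℕ := fun i => b + (i / m * n + 1) * Λ ^ (Y + 1) + i % m * Λ ^ Y with hw0
  have hE : ∀ i, i < r * m → ∃ R, Rel μ ((grpE n Λ m sub S q (lo + i * (n * q * S + 2)) (w0 i)
      (Λ ^ (Y + 1)) (E.getD (i % m) []) : List (ℕ × ℕ)) : Multiset (ℕ × ℕ)) R ∧
      Supp R b (b + Λ ^ (Y + 2)) ∧
      ∀ x, load R x = 0 ∨ ∃ v < n, b + (i / m * n + v + 1) * Λ ^ (Y + 1) + i % m * Λ ^ Y ≤ x ∧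
        x < b + (i / m * n + v + 1) * Λ ^ (Y + 1) + i % m * Λ ^ Y + Λ ^ Y ∧
        load R x + xx v ≤ B + μ := by
    intro i hi
    have him : i % m < m := Nat.mod_lt _ hm
    obtain ⟨R, h1, h2, h3⟩ := grpE_ok μ n Λ m sub S q (lo + i * (n * q * S + 2)) (w0 i)
      (Λ ^ (Y + 1)) B (E.getD (i % m) []) (yy (i % m)) hsub hB (hwf.ne _ (hgetD i))
      (hwf.lt _ (hgetD i)) (hfr.sumy _ him) hq hd hm ((hlev i hi).trans hUV)
    have hl := hlev i hi
    refine ⟨R, h1, ?_, ?_⟩
    · intro ρ hρ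
      obtain ⟨v, hv, g1, g2⟩ := h2 ρ hρ
      have hc : i / m + 1 ≤ r := Nat.div_lt_of_lt_mul (by rwa [mul_comm] at hi)
      have a1 : i / m * n + v + 1 ≤ r * n := by
        have := Nat.mul_le_mul_right n hc
        rw [add_mul, one_mul] at this
        omega
      have a2 := Nat.mul_le_mul_right (Λ ^ (Y + 1)) a1
      have a3 := Nat.mul_le_mul_right (Λ ^ Y) (show i % m + 1 ≤ m from him)
      have a4 : (r * n + 1) * Λ ^ (Y + 1) ≤ Λ ^ (Y + 2) := by
        rw [pow_succ Λ (Y + 1), mul_comm (Λ ^ (Y + 1))]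
        exact Nat.mul_le_mul_right _ hr
      simp only [hw0, add_mul, one_mul] at g1 g2 a2 a3 a4
      omega
    · intro x
      rcases h3 x with h | ⟨v, hv, g1, g2, g3⟩
      · exact Or.inl h
      · refine Or.inr ⟨v, hwf.lt _ (hgetD i) v hv, ?_, ?_, ?_⟩
        · simp only [hw0, add_mul, one_mul] at g1 ⊢
          omega
        · simp only [hw0, add_mul, one_mul] at g2 hl ⊢
          omega
        · have := hfr.le _ him v hv
          omega
  choose! RE hRE using hE
  set c : ℕ → ℕ := fun κ => if κ < r * n then xx (κ % n) else 0 with hc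
  have hcμ : ∀ κ, c κ ≤ μ := by
    intro κ
    simp only [hc]
    split_ifs
    · exact hfr.xle _ (Nat.mod_lt _ hn)
    · exact Nat.zero_le _
  refine ⟨ancR Λ m Y b (r * n) μ c + ∑ i ∈ range (r * m), RE i, ?_, ?_, ?_⟩
  · unfold stage
    rw [← Multiset.coe_add, coe_flatMap_range]
    refine Rel.add ?_ (Rel.sum (fun i hi => (hRE i (Finset.mem_range.1 hi)).1))
    have := rel_anc (ι := Unit) Finset.univ Λ m Y (r * n) μ (fun _ => b) (fun _ => c)
      (fun _ κ => decide (κ < r * n ∧ κ % n < k)) (fun _ _ => hcμ) (by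
        simp only [Finset.univ_unique, Finset.sum_singleton]
        rw [Finset.sum_range_succ, Finset.sum_range_succ,
          Finset.sum_congr rfl (g := fun κ => xx (κ % n))
            (fun κ hκ => by simp [hc, Finset.mem_range.1 hκ]),
          Finset.sum_congr rfl (s₁ := range (r * n))
            (f := fun κ => if decide (κ < r * n ∧ κ % n < k) = true then μ else 0)
            (g := fun κ => if κ % n < k then μ else 0)
            (fun κ hκ => by simp only [Finset.mem_range.1 hκ, true_and, decide_eq_true_eq]),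
          sum_range_mod r n xx, sum_range_mod r n (fun v => if v < k then μ else 0), hfr.sumx]
        have e : ∑ v ∈ range n, (if v < k then μ else 0) = μ * k := by
          rw [← Finset.sum_filter, Finset.sum_const, smul_eq_mul, mul_comm]
          congr 1
          have : (range n).filter (fun v => v < k) = range k := by
            ext v
            simp only [Finset.mem_filter, Finset.mem_range]
            have := hwf.kle
            omega
          rw [this, Finset.card_range]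
        rw [e]
        simp [hc])
    simpa only [Finset.univ_unique, Finset.sum_singleton] using this
  · refine Supp.add ?_ (Supp.sum (fun i hi => (hRE i (Finset.mem_range.1 hi)).2.1))
    refine (ancR_supp Λ m Y b (r * n) μ c hd (by simp [hc])).mono le_rfl ?_
    have a4 : (r * n + 1) * Λ ^ (Y + 1) ≤ Λ ^ (Y + 2) := by
      rw [pow_succ Λ (Y + 1), mul_comm (Λ ^ (Y + 1))]
      exact Nat.mul_le_mul_right _ hr
    omega
  · intro x
    rw [load_add, load_sum]
    by_cases h2 : ∃ i ∈ range (r * m), load (RE i) x ≠ 0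
    · obtain ⟨i0, hi0, hl0⟩ := h2
      have hi0' := Finset.mem_range.1 hi0
      obtain ⟨v0, hv0, k1, k2, k3⟩ := ((hRE i0 hi0').2.2 x).resolve_left hl0
      have hmU : ∀ i, i % m * Λ ^ Y + Λ ^ Y ≤ m * Λ ^ Y := by
        intro i
        have a3 := Nat.mul_le_mul_right (Λ ^ Y) (show i % m + 1 ≤ m from Nat.mod_lt _ hm)
        rwa [add_mul, one_mul] at a3
      have eS : ∑ i ∈ range (r * m), load (RE i) x = load (RE i0) x := by
        refine Finset.sum_eq_single_of_mem i0 hi0 (fun i hi hne => ?_)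
        by_contra h0
        obtain ⟨v, hv, l1, l2, _⟩ := ((hRE i (Finset.mem_range.1 hi)).2.2 x).resolve_left h0
        have m1 := hmU i
        have m2 := hmU i0
        have e1 : i / m * n + v + 1 = i0 / m * n + v0 + 1 :=
          idx_eq (w := b) (x := x) (V := Λ ^ (Y + 1)) (U := m * Λ ^ Y) (by omega) (by omega)
            (by omega) (by omega) (by omega)
        have e2 : i / m = i0 / m :=
          idx_eq (w := 0) (x := i / m * n + v) (V := n) (U := n) le_rfl (by omega) (by omega)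
            (by omega) (by omega)
        rw [e1] at l1 l2
        have e3 : i % m = i0 % m := idx_eq le_rfl l1 l2 k1 k2
        apply hne
        rw [← Nat.div_add_mod i m, ← Nat.div_add_mod i0 m, e2, e3]
      have m2 := hmU i0
      have hA := ancR_load_sub Λ m Y b (r * n) μ c hd x (i0 / m * n + v0) (by omega) (by omega)
      have hcv : c (i0 / m * n + v0) ≤ xx v0 := by
        simp only [hc]
        split_ifs
        · rw [add_comm, Nat.add_mul_mod_self_right, Nat.mod_eq_of_lt hv0]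
        · exact Nat.zero_le _
      omega
    · push Not at h2
      rw [Finset.sum_eq_zero h2]
      have := ancR_load_le Λ m Y b (r * n) μ μ c hd hcμ hcμ x
      omega

theorem le_ph2 (n m G D φ : ℕ) : φ ≤ ph2 n m G D φ := by
  unfold ph2 ph1
  omega

theorem le_ph2_iter (n m G D j : ℕ) : ∀ φ, φ ≤ (ph2 n m G D)^[j] φ := by
  induction j with
  | zero => intro φ; exact le_rfl
  | succ j ih => intro φ; exact (le_ph2 n m G D φ).trans (ih _)

theorem blkX_ok (μ n : ℕ) (E : List (List ℕ)) (k G D Λ : ℕ) (xx : ℕ → ℕ) (yy : ℕ → ℕ → ℕ)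
    (hwf : WF n E k) (hfr : Frac n E k μ xx yy) (hd : 2 * E.length + 1 ≤ Λ) (j : ℕ) :
    ∀ φ, (ph2 n E.length G D)^[j] φ < Λ →
      SubOK μ Λ (blkX n E k G D Λ j φ) (szX n E.length G D j φ) (μ * (j + 1)) := by
  have hn := hwf.npos
  have hm : 1 ≤ E.length := by
    obtain ⟨e, he, _⟩ := hwf.cov 0 hn
    exact List.length_pos_of_mem he
  induction j with
  | zero =>
    intro φ _ lo b
    change Blk μ [] _ _ _
    exact ⟨0, ⟨by simp, by simp⟩, by simp [Supp], by simp [load]⟩
  | succ j ih =>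
    intro φ hφ lo b
    rw [Function.iterate_succ_apply] at hφ
    have h2 : ph2 n E.length G D φ < Λ := (le_ph2_iter _ _ _ _ _ _).trans_lt hφ
    have hq : qq n E.length G D φ + 1 ≤ Λ := by
      have : qq n E.length G D φ ≤ n * qq n E.length G D φ := Nat.le_mul_of_pos_left _ hn
      unfold ph2 at h2
      omega
    have hr : rr G D φ * n + 1 ≤ Λ := by
      have : rr G D φ * n ≤ rr G D φ * E.length * n :=
        Nat.mul_le_mul_right _ (Nat.le_mul_of_pos_right _ hm)
      unfold ph2 ph1 at h2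
      omega
    have := stage_ok μ n E k Λ _ _ (rr G D φ) (qq n E.length G D φ) lo b _ xx yy hwf hfr
      (ih _ hφ) (Nat.le_mul_of_pos_right _ (by omega)) hq hr hd
    rw [show μ * (j + 1 + 1) = μ * (j + 1) + μ by ring]
    exact this

end Yes15

open Yes15 in
/-- the YES leaf -/
theorem yes_15 : YesStmt := by
  intro D n E k μ x y hwf hfr
  have hd : 2 * E.length + 1 ≤ lam D n E := by unfold lam; omega
  have hφ : (ph2 n E.length (2 * D + 3) D)^[D + 2] 0 < lam D n E := by unfold lam; omega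
  obtain ⟨R, ⟨hR1, hR2⟩, hsupp, hload⟩ := blkX_ok μ n E k (2 * D + 3) D (lam D n E) x y hwf hfr hd
    (D + 2) 0 hφ 0 (lam D n E ^ top D n E)
  rw [zero_add] at hsupp
  change Supp R (lam D n E ^ top D n E) (lam D n E ^ top D n E + lam D n E ^ top D n E) at hsupp
  change R.map Prod.fst = μ • ((pts D n E k : List (ℕ × ℕ)) : Multiset (ℕ × ℕ)).map Prod.fst at hR1
  change R.map Prod.snd = μ • ((pts D n E k : List (ℕ × ℕ)) : Multiset (ℕ × ℕ)).map Prod.snd at hR2
  set T := lam D n E ^ top D n E with hT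
  have eA : μ • (instA D n E k : Multiset ℕ) =
      Multiset.replicate (μ * (D + 3)) 0 + R.map Prod.fst := by
    rw [hR1, instA, ← Multiset.coe_add, nsmul_add, Multiset.coe_replicate,
      Multiset.nsmul_replicate, Multiset.map_coe]
  have eB : μ • (instB D n E k : Multiset ℕ) =
      Multiset.replicate (μ * (D + 3)) (2 * T) + R.map Prod.fst := by
    rw [hR1, instB, ← Multiset.coe_add, nsmul_add, Multiset.coe_replicate,
      Multiset.nsmul_replicate, Multiset.map_coe]
  have eZ : μ • (instZ D n E k : Multiset ℕ) =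
      Multiset.replicate (μ * (D + 3)) T + R.map Prod.snd := by
    rw [hR2, instZ, ← Multiset.coe_add, nsmul_add, Multiset.coe_replicate,
      Multiset.nsmul_replicate, Multiset.map_coe]
  have hrep : ∀ {α : Type} (p : α → Prop) [DecidablePred p] (c : ℕ) (a : α),
      (Multiset.replicate c a).countP p = if p a then c else 0 := by
    intro α p _ c a
    induction c with
    | zero => simp
    | succ c ih =>
      rw [Multiset.replicate_succ]
      by_cases h : p a
      · rw [Multiset.countP_cons_of_pos _ h, ih, if_pos h, if_pos h]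
      · rw [Multiset.countP_cons_of_neg _ h, ih, if_neg h, if_neg h]
  obtain ⟨Q, hQ, h1, h2⟩ := hall (μ * (D + 3) + Multiset.card R)
    (Multiset.replicate (μ * (D + 3)) (0, T) + R)
    (Multiset.replicate (μ * (D + 3)) (2 * T) + R.map Prod.fst) (by simp) (by simp) (by
      intro θ
      rw [Multiset.countP_add, Multiset.countP_add, hrep, hrep, Multiset.countP_map,
        ← Multiset.countP_eq_card_filter]
      by_cases hθ : θ ≤ T
      · have e1 : R.countP (fun r => θ ≤ r.1) = Multiset.card R :=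
          Multiset.countP_eq_card.2 (fun r hr => hθ.trans (hsupp r hr).1)
        have e2 := Multiset.countP_le_card (fun r : ℕ × ℕ => θ ≤ r.1 + r.2) R
        rw [e1, if_pos (show θ ≤ 2 * T by omega)]
        split_ifs <;> omega
      · rw [if_neg (show ¬ θ ≤ ((0, T) : ℕ × ℕ).1 + ((0, T) : ℕ × ℕ).2 by simpa using hθ)]
        by_cases hθ2 : θ ≤ 2 * T
        · rw [if_pos hθ2]
          have hl := hload (θ - 1)
          have e3 : ∀ R' : Multiset (ℕ × ℕ), R'.countP (fun r => θ ≤ r.1 + r.2) ≤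
              load R' (θ - 1) + R'.countP (fun r => θ ≤ r.1) := by
            intro R'
            unfold load
            induction R' using Multiset.induction_on with
            | empty => simp
            | cons a s ih =>
              rw [Multiset.countP_cons, Multiset.countP_cons, Multiset.countP_cons]
              split_ifs <;> omega
          have := e3 R
          have e4 : μ * (D + 2 + 1) = μ * (D + 3) := rfl
          omega
        · have : R.countP (fun r => θ ≤ r.1 + r.2) = 0 :=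
            Multiset.countP_eq_zero.2 (fun r hr hr' => by
              have := (hsupp r hr).2
              omega)
          omega)
  refine ⟨Q, hQ, ?_, ?_, ?_⟩
  · rw [eA]
    have := congrArg (Multiset.map Prod.fst) h1
    rw [Multiset.map_map, Multiset.map_add, Multiset.map_replicate] at this
    exact this
  · rw [eB, h2]
  · rw [eZ]
    have := congrArg (Multiset.map Prod.snd) h1
    rw [Multiset.map_map, Multiset.map_add, Multiset.map_replicate] at this
    exact this

end Crest.Agent.T318.C25
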