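import Crest.Agent.T318.Pack_21
import Crest.Agent.T318.PackDefsPT_21
import Crest.Prelude.Def_BitEnc

/-!
# Row 318: `CoreHard → S0493` (helper21)
-/

set_option autoImplicit false

namespace Crest.Agent.T318

open Crest.Enc Crest.BinPacking Crest.Agent.Lib.PT Pack21

namespace Pack21

theorem ptf_natCode {α : Type} [PTCode α] {f : α → ℕ} (hf : PTF f) :
    PTF fun a => natCode (f a) := by
  unfold natCode
  refine PTF.append (PTF.flatten (PTF.map (PTF.natBits hf) ?_)) (PTF.const _)
  exact PTF.listCons (PTF.const _) (PTF.listCons PTF.snd (PTF.const _))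

theorem ptf_ratCode {α : Type} [PTCode α] {f : α → ℚ} (hf : PTF f) :
    PTF fun a => ratCode (f a) := by
  unfold ratCode
  exact PTF.listCons (PTF.intIsNeg hf.ratNum)
    (PTF.append (ptf_natCode hf.ratNum.intNatAbs) (ptf_natCode hf.ratDen))

theorem ptf_frac {α : Type} [PTCode α] {T a : α → ℕ} (hT : PTF T) (ha : PTF a) :
    PTF fun x => (a x : ℚ) / (100 * (T x : ℚ)) :=
  PTF.ratDiv ha.ratNatCast (PTF.ratMul (PTF.const _) hT.ratNatCast)

theorem ptf_sizes {α : Type} [PTCode α] {A E Z : α → List ℕ} (hA : PTF A) (hE : PTF E)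
    (hZ : PTF Z) : PTF fun x => sizes (A x) (E x) (Z x) := by
  have hT : PTF fun x => bnd (A x) (E x) (Z x) := by
    unfold bnd
    exact PTF.natAdd (PTF.natAdd (PTF.natAdd hA.natListSum hE.natListSum) hZ.natListSum)
      (PTF.const _)
  have hT' : PTF fun p : α × ℕ => bnd (A p.1) (E p.1) (Z p.1) := hT.comp PTF.fst
  unfold sizes
  refine PTF.append (PTF.map hA ?_) (PTF.append (PTF.map hE ?_) (PTF.map hZ ?_))
  · exact PTF.ratAdd (PTF.const _) (ptf_frac hT' PTF.snd)
  · exact PTF.ratSub (PTF.const _) (ptf_frac hT' PTF.snd)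
  · exact PTF.ratAdd (PTF.const _) (ptf_frac hT' PTF.snd)

end Pack21

/-- **S0493 from the core** -/
theorem s0493_of_core (h : CoreHard) (c : ℕ) (L : Set (List Bool))
    (hL : Crest.Complexity.InNP L) :
    ∃ f : List Bool → List Bool, Crest.Complexity.PolyTime f ∧
      ∀ x : List Bool, ∃ (sizes : List ℚ) (B : ℕ),
        f x = natCode sizes.length ++ (sizes.map ratCode).flatten ++ natCode B ∧
        (∀ a ∈ sizes, 1 / 6 < a ∧ a ≤ 1) ∧
        (x ∈ L → PacksInto (fun i : Fin sizes.length => sizes.get i) B) ∧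
        (x ∉ L → ¬ PacksInto (fun i : Fin sizes.length => sizes.get i) (B + c)) := by
  obtain ⟨A, E, Z, hA, hE, hZ, H⟩ := h (8 * c) L hL
  have hS := ptf_sizes hA hE hZ
  refine ⟨fun x => natCode (sizes (A x) (E x) (Z x)).length ++
      ((sizes (A x) (E x) (Z x)).map ratCode).flatten ++ natCode (A x).length,
    PTF.polyTime ?_, fun x => ⟨sizes (A x) (E x) (Z x), (A x).length, rfl,
      fun a ha => sizes_range ha, fun hx => ?_, fun hx hp => ?_⟩⟩
  · exact PTF.append (PTF.append (ptf_natCode (PTU.length hS).toPTF)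
      (PTF.flatten (PTF.map hS (ptf_ratCode PTF.snd)))) (ptf_natCode (PTU.length hA).toPTF)
  · exact packs_of_myes ((H x).2.2.1 hx) _ (img_get _)
  · exact (H x).2.2.2 hx (near_of_packs (H x).1 (H x).2.1 _ (img_get _) c hp)

end Crest.Agent.T318
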