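import Crest.Agent.T318.Defs_25
import Crest.Agent.Lib.PT.ListFns2

/-!
# Row 318: the instance generator of `Defs_25` is computable in polynomial time (helper15)
-/

set_option autoImplicit false

namespace Crest.Agent.T318.C25

open Crest.Agent.Lib.PT

namespace Gen15

variable {γ α : Type} [PTCode γ] [PTCode α]

/-- `flatMap` over a list of bounded indices, the index being available in unary -/
theorem flatMap_bdd {l : γ → List ℕ} {N : γ → ℕ} {f : γ → ℕ → List α} (hl : PTF l) (hN : PTU N)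
    (hb : ∀ c, ∀ i ∈ l c, i ≤ N c) (hf : PTF (fun p : γ × Un => f p.1 p.2.val)) :
    PTF (fun c => (l c).flatMap (f c)) := by
  have h1 : PTU (fun p : γ × ℕ => min p.2 (N p.1)) :=
    PTF.natMinUn PTF.snd (PTU.comp hN PTF.fst)
  have h2 : PTF (fun p : γ × ℕ => (p.1, Un.mk (min p.2 (N p.1)))) :=
    PTF.prodMk PTF.fst (PTF.unMk h1)
  have h3 : PTF₂ (fun (c : γ) (i : ℕ) => f c (min i (N c))) := PTF.comp hf h2
  refine (PTF.flatMap hl h3).of_eq (fun c => ?_)
  refine List.flatMap_congr (fun i hi => ?_)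
  rw [min_eq_left (hb c i hi)]

theorem sig_pt {Λ d y : γ → ℕ} (hΛ : PTF Λ) (hd : PTF d) (hy : PTU y) :
    PTF (fun c => sig (Λ c) (d c) (y c)) := by
  unfold sig
  exact PTF.natAdd (PTF.natPow hΛ (PTU.succ hy))
    (PTF.natMul (PTF.natAdd hd (PTF.const 1)) (PTF.natPow hΛ hy))

theorem anc_pt {Λ d y w q : γ → ℕ} {sp : γ → ℕ → Bool} (hΛ : PTF Λ) (hd : PTF d) (hy : PTU y)
    (hw : PTF w) (hq : PTU q) (hsp : PTF₂ sp) :
    PTF (fun c => anc (Λ c) (d c) (y c) (w c) (q c) (sp c)) := by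
  unfold anc
  refine PTF.tabulate (PTU.succ hq) ?_
  have hΛ' : PTF (fun p : γ × ℕ => Λ p.1) := PTF.comp hΛ PTF.fst
  have hd' : PTF (fun p : γ × ℕ => d p.1) := PTF.comp hd PTF.fst
  have hy' : PTU (fun p : γ × ℕ => y p.1) := PTU.comp hy PTF.fst
  have hw' : PTF (fun p : γ × ℕ => w p.1) := PTF.comp hw PTF.fst
  refine PTF.prodMk ?_ ?_
  · exact PTF.natAdd (PTF.natAdd hw' (PTF.natMul PTF.snd (PTF.natPow hΛ' (PTU.succ hy'))))
      (PTF.natMul hd' (PTF.natPow hΛ' hy'))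
  · exact PTF.ite (PTF.toPTPred hsp) (sig_pt hΛ' hd' hy') (PTF.natPow hΛ' hy')

/-- a family of blocks computable from the context, the level (unary) and the base (binary) -/
def SubPT (sub : γ → ℕ → ℕ → List (ℕ × ℕ)) : Prop :=
  PTF (fun p : γ × Un × ℕ => sub p.1 p.2.1.val p.2.2)

theorem SubPT.app {δ : Type} [PTCode δ] {sub : γ → ℕ → ℕ → List (ℕ × ℕ)} (h : SubPT sub)
    {f : δ → γ} {lo b : δ → ℕ} (hf : PTF f) (hlo : PTU lo) (hb : PTF b) :
    PTF (fun c => sub (f c) (lo c) (b c)) :=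
  PTF.comp (g := fun p : γ × Un × ℕ => sub p.1 p.2.1.val p.2.2)
    (f := fun c => (f c, Un.mk (lo c), b c)) h
    (PTF.prodMk hf (PTF.prodMk (PTF.unMk hlo) hb))

theorem SubPT.comp {δ : Type} [PTCode δ] {sub : γ → ℕ → ℕ → List (ℕ × ℕ)} (h : SubPT sub)
    {f : δ → γ} (hf : PTF f) : SubPT (fun c => sub (f c)) :=
  h.app (f := fun p : δ × Un × ℕ => f p.1) (lo := fun p => p.2.1.val) (b := fun p => p.2.2)
    (PTF.comp hf PTF.fst) (PTU.val (PTF.comp PTF.fst PTF.snd)) (PTF.comp PTF.snd PTF.snd)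

theorem headD_pt {e : γ → List ℕ} (he : PTF e) : PTF (fun c => (e c).headD 0) := by
  refine (PTF.optionGetD (PTF.head? he) (PTF.const 0)).of_eq (fun c => ?_)
  cases e c <;> rfl

theorem grpE_pt {n Λ d S q lo w0 st : γ → ℕ} {sub : γ → ℕ → ℕ → List (ℕ × ℕ)} {e : γ → List ℕ}
    (hn : PTU n) (hΛ : PTF Λ) (hd : PTF d) (hsub : SubPT sub) (hS : PTU S) (hq : PTU q)
    (hlo : PTU lo) (hw0 : PTF w0) (hst : PTF st) (he : PTF e) :
    PTF (fun c => grpE (n c) (Λ c) (d c) (sub c) (S c) (q c) (lo c) (w0 c) (st c) (e c)) := by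
  unfold grpE
  have hy : PTU (fun c => lo c + n c * q c * S c) := PTU.add hlo (PTU.mul (PTU.mul hn hq) hS)
  refine PTF.append ?_ ?_
  · refine PTF.flatMap (PTF.filter (PTF.range hn) ?_) ?_
    · exact (PTPred.mem PTF.snd (PTF.comp he PTF.fst)).toPTF
    · refine anc_pt (γ := γ × ℕ) (PTF.comp hΛ PTF.fst) (PTF.comp hd PTF.fst)
        (PTU.comp hy PTF.fst)
        (PTF.natAdd (PTF.comp hw0 PTF.fst) (PTF.natMul PTF.snd (PTF.comp hst PTF.fst)))
        (PTU.comp hq PTF.fst) ?_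
      refine PTPred.toPTF (p := fun p : (γ × ℕ) × ℕ => p.2 < q p.1.1 ∧ p.1.2 = (e p.1.1).headD 0)
        (PTPred.and ?_ ?_)
      · exact PTPred.natLt PTF.snd (PTF.comp hq.toPTF (PTF.comp PTF.fst PTF.fst))
      · exact PTPred.natEq (PTF.comp PTF.snd PTF.fst)
          (headD_pt (PTF.comp he (PTF.comp PTF.fst PTF.fst)))
  · refine flatMap_bdd (N := fun c => n c * q c) (PTF.filter (PTF.range (PTU.mul hn hq)) ?_)
      (PTU.mul hn hq) ?_ ?_
    · exact (PTPred.mem (PTF.natDiv PTF.snd (PTF.comp hq.toPTF PTF.fst))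
        (PTF.comp he PTF.fst)).toPTF
    · intro c i hi
      exact (List.mem_range.1 (List.mem_filter.1 hi).1).le
    · have hi : PTU (fun p : γ × Un => p.2.val) := PTU.val PTF.snd
      have hq' : PTF (fun p : γ × Un => q p.1) := PTF.comp hq.toPTF PTF.fst
      refine hsub.app PTF.fst
        (PTU.add (PTU.comp hlo PTF.fst) (PTU.mul hi (PTU.comp hS PTF.fst))) ?_
      refine PTF.natAdd (PTF.natAdd (PTF.comp hw0 PTF.fst)
        (PTF.natMul (PTF.natDiv hi.toPTF hq') (PTF.comp hst PTF.fst))) ?_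
      exact PTF.natMul (PTF.natAdd (PTF.natMod hi.toPTF hq') (PTF.const 1))
        (PTF.natPow (PTF.comp hΛ PTF.fst) (PTU.succ (PTU.comp hy PTF.fst)))

theorem mod_ptu {i m : γ → ℕ} (hi : PTU i) (hm : PTU m) : PTU (fun c => i c % m c) :=
  (PTF.natMinUn (PTF.natMod hi.toPTF hm.toPTF) hi).of_eq
    (fun _ => min_eq_left (Nat.mod_le _ _))

theorem stage_pt {n k Λ S r q lo b : γ → ℕ} {E : γ → List (List ℕ)}
    {sub : γ → ℕ → ℕ → List (ℕ × ℕ)}
    (hn : PTU n) (hE : PTF E) (hk : PTF k) (hΛ : PTF Λ) (hsub : SubPT sub) (hS : PTU S)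
    (hr : PTU r) (hq : PTU q) (hlo : PTU lo) (hb : PTF b) :
    PTF (fun c => stage (n c) (E c) (k c) (Λ c) (sub c) (S c) (r c) (q c) (lo c) (b c)) := by
  unfold stage
  have hm : PTU (fun c => (E c).length) := PTU.length hE
  have hT : PTU (fun c => n c * q c * S c + 2) :=
    PTU.add (PTU.mul (PTU.mul hn hq) hS) (PTU.const 2)
  have hy : PTU (fun c => lo c + r c * (E c).length * (n c * q c * S c + 2)) :=
    PTU.add hlo (PTU.mul (PTU.mul hr hm) hT)
  refine PTF.append ?_ ?_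
  · refine anc_pt hΛ hm.toPTF hy hb (PTU.mul hr hn) ?_
    refine PTPred.toPTF (p := fun p : γ × ℕ => p.2 < r p.1 * n p.1 ∧ p.2 % n p.1 < k p.1)
      (PTPred.and ?_ ?_)
    · exact PTPred.natLt PTF.snd (PTF.comp (PTU.mul hr hn).toPTF PTF.fst)
    · exact PTPred.natLt (PTF.natMod PTF.snd (PTF.comp hn.toPTF PTF.fst)) (PTF.comp hk PTF.fst)
  · refine flatMap_bdd (N := fun c => r c * (E c).length) (PTF.range (PTU.mul hr hm))
      (PTU.mul hr hm) (fun c i hi => (List.mem_range.1 hi).le) ?_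
    have hi : PTU (fun p : γ × Un => p.2.val) := PTU.val PTF.snd
    have hm' : PTU (fun p : γ × Un => (E p.1).length) := PTU.length (PTF.comp hE PTF.fst)
    have hΛ' : PTF (fun p : γ × Un => Λ p.1) := PTF.comp hΛ PTF.fst
    have hy' : PTU (fun p : γ × Un =>
        lo p.1 + r p.1 * (E p.1).length * (n p.1 * q p.1 * S p.1 + 2)) := PTU.comp hy PTF.fst
    have hT' := PTU.comp hT (PTF.fst (α := γ) (β := Un))
    refine grpE_pt (γ := γ × Un) (PTU.comp hn PTF.fst) hΛ' hm'.toPTF (hsub.comp PTF.fst)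
      (PTU.comp hS PTF.fst) (PTU.comp hq PTF.fst)
      (PTU.add (PTU.comp hlo PTF.fst) (PTU.mul hi hT')) ?_
      (PTF.natPow hΛ' (PTU.succ hy')) ?_
    · refine PTF.natAdd (PTF.natAdd (PTF.comp hb PTF.fst) (PTF.natMul (PTF.natAdd
        (PTF.natMul (PTF.natDiv hi.toPTF hm'.toPTF) (PTF.comp hn.toPTF PTF.fst)) (PTF.const 1))
        (PTF.natPow hΛ' (PTU.succ hy')))) ?_
      exact PTF.natMul (PTF.natMod hi.toPTF hm'.toPTF) (PTF.natPow hΛ' hy')
    · exact PTF.getD (mod_ptu hi hm') (PTF.comp hE PTF.fst) (PTF.const [])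

section par

variable {n m φ : γ → ℕ} (G D : ℕ)

theorem rr_pt (hφ : PTU φ) : PTU (fun c => rr G D (φ c)) := by
  unfold rr
  exact PTU.succ (PTU.add (PTU.const D) (PTU.mul (PTU.const G) (PTU.succ hφ)))

theorem ph1_pt (hn : PTU n) (hm : PTU m) (hφ : PTU φ) :
    PTU (fun c => ph1 (n c) (m c) G D (φ c)) := by
  unfold ph1
  exact PTU.add hφ (PTU.mul (PTU.mul (rr_pt G D hφ) hm) hn)

theorem qq_pt (hn : PTU n) (hm : PTU m) (hφ : PTU φ) :
    PTU (fun c => qq (n c) (m c) G D (φ c)) := by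
  unfold qq
  exact PTU.succ (PTU.add (PTU.const D)
    (PTU.mul (PTU.const G) (PTU.add (ph1_pt G D hn hm hφ) hn)))

theorem ph2_pt (hn : PTU n) (hm : PTU m) (hφ : PTU φ) :
    PTU (fun c => ph2 (n c) (m c) G D (φ c)) := by
  unfold ph2
  exact PTU.add (ph1_pt G D hn hm hφ) (PTU.mul hn (qq_pt G D hn hm hφ))

theorem ph2_iter_pt (hn : PTU n) (hm : PTU m) (j : ℕ) :
    ∀ {φ : γ → ℕ}, PTU φ → PTU (fun c => (ph2 (n c) (m c) G D)^[j] (φ c)) := by
  induction j with
  | zero => intro φ hφ; exact hφ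
  | succ j ih =>
    intro φ hφ
    exact ih (ph2_pt G D hn hm hφ)

theorem szX_pt (hn : PTU n) (hm : PTU m) (j : ℕ) :
    ∀ {φ : γ → ℕ}, PTU φ → PTU (fun c => szX (n c) (m c) G D j (φ c)) := by
  induction j with
  | zero => intro φ _; exact PTU.const 0
  | succ j ih =>
    intro φ hφ
    refine PTU.of_eq (f := fun c => rr G D (φ c) * m c *
      (n c * qq (n c) (m c) G D (φ c) * szX (n c) (m c) G D j (ph2 (n c) (m c) G D (φ c)) + 2) + 2)
      ?_ (fun c => rfl)
    exact PTU.add (PTU.mul (PTU.mul (rr_pt G D hφ) hm)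
      (PTU.add (PTU.mul (PTU.mul hn (qq_pt G D hn hm hφ)) (ih (ph2_pt G D hn hm hφ)))
        (PTU.const 2))) (PTU.const 2)

end par

theorem blkX_pt {n k Λ : γ → ℕ} {E : γ → List (List ℕ)} (G D : ℕ)
    (hn : PTU n) (hE : PTF E) (hk : PTF k) (hΛ : PTF Λ) (j : ℕ) :
    ∀ {φ : γ → ℕ}, PTU φ → SubPT (fun c => blkX (n c) (E c) (k c) G D (Λ c) j (φ c)) := by
  have hm : PTU (fun c => (E c).length) := PTU.length hE
  induction j with
  | zero => intro φ _; exact PTF.const []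
  | succ j ih =>
    intro φ hφ
    have h2 := ph2_pt G D hn hm hφ
    have hf : PTF (fun p : γ × Un × ℕ => p.1) := PTF.fst
    have a1 := PTU.comp (szX_pt G D hn hm j h2) hf
    have a2 := PTU.comp (rr_pt G D hφ) hf
    have a3 := PTU.comp (qq_pt G D hn hm hφ) hf
    have a4 : PTU (fun p : γ × Un × ℕ => p.2.1.val) := PTU.val (PTF.comp PTF.fst PTF.snd)
    have a5 : PTF (fun p : γ × Un × ℕ => p.2.2) := PTF.comp PTF.snd PTF.snd
    exact stage_pt (PTU.comp hn hf) (PTF.comp hE hf) (PTF.comp hk hf)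
      (PTF.comp hΛ hf) ((ih h2).comp hf) a1 a2 a3 a4 a5

section inst

variable (D : ℕ) {n k : γ → ℕ} {E : γ → List (List ℕ)}

theorem lam_pt (hn : PTU n) (hE : PTF E) : PTU (fun c => lam D (n c) (E c)) := by
  unfold lam
  have hm : PTU (fun c => (E c).length) := PTU.length hE
  exact PTU.add (PTU.add (ph2_iter_pt _ D hn hm _ (PTU.const 0)) (PTU.mul (PTU.const 2) hm))
    (PTU.const 3)

theorem top_pt (hn : PTU n) (hE : PTF E) : PTU (fun c => top D (n c) (E c)) := by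
  unfold top
  exact szX_pt _ D hn (PTU.length hE) _ (PTU.const 0)

theorem pts_pt (hn : PTU n) (hk : PTF k) (hE : PTF E) :
    PTF (fun c => pts D (n c) (E c) (k c)) := by
  unfold pts
  exact (blkX_pt (2 * D + 3) D hn hE hk (lam_pt D hn hE).toPTF (D + 2) (PTU.const 0)).app
    (f := fun c => c) PTF.id (PTU.const 0)
    (PTF.natPow (lam_pt D hn hE).toPTF (top_pt D hn hE))

end inst

end Gen15

open Gen15 in
/-- the instance map is computable in polynomial time (`k` may be given in binary) -/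
theorem gen_15' (D : ℕ) {g : Type} [PTCode g] {n k : g → ℕ} {E : g → List (List ℕ)}
    (hn : PTU n) (hk : PTF k) (hE : PTF E) :
    PTF (fun c => instA D (n c) (E c) (k c)) ∧ PTF (fun c => instB D (n c) (E c) (k c)) ∧
      PTF (fun c => instZ D (n c) (E c) (k c)) := by
  have hp := pts_pt D hn hk hE
  have hT : PTF (fun c => lam D (n c) (E c) ^ top D (n c) (E c)) :=
    PTF.natPow (lam_pt D hn hE).toPTF (top_pt D hn hE)
  have h1 : PTF (fun c => (pts D (n c) (E c) (k c)).map Prod.fst) :=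
    PTF.map (f := fun _ p => p.1) hp (PTF.comp PTF.fst PTF.snd)
  have h2 : PTF (fun c => (pts D (n c) (E c) (k c)).map Prod.snd) :=
    PTF.map (f := fun _ p => p.2) hp (PTF.comp PTF.snd PTF.snd)
  refine ⟨?_, ?_, ?_⟩
  · unfold instA
    exact PTF.append (PTF.const _) h1
  · unfold instB
    exact PTF.append (PTF.replicate (PTU.const _) (PTF.natMul (PTF.const 2) hT)) h1
  · unfold instZ
    exact PTF.append (PTF.replicate (PTU.const _) hT) h2

/-- the instance map is computable in polynomial time -/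
theorem gen_15 (D : ℕ) {g : Type} [PTCode g] {n k : g → ℕ} {E : g → List (List ℕ)}
    (hn : PTU n) (hk : PTU k) (hE : PTF E) :
    PTF (fun c => instA D (n c) (E c) (k c)) ∧ PTF (fun c => instB D (n c) (E c) (k c)) ∧
      PTF (fun c => instZ D (n c) (E c) (k c)) :=
  gen_15' D hn hk.toPTF hE

end Crest.Agent.T318.C25
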