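import Crest.Agent.T318.Tableau_17

/-!
# Cook–Levin: every NP language reduces in polynomial time to satisfiability of clause lists
-/

set_option autoImplicit false

namespace Crest.Agent.T318.CL

open Crest.Agent.Lib.PT

theorem ptf_flatMap_const {γ α β : Type} [PTCode γ] [PTCode β] (L : List α) {f : γ → α → List β}
    (hf : ∀ a, PTF (fun c => f c a)) : PTF (fun c => L.flatMap (f c)) := by
  induction L with
  | nil => exact PTF.const []
  | cons a L ih => exact (PTF.append (hf a) ih).of_eq (fun c => by simp)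

theorem ptf_vr {γ : Type} [PTCode γ] {B t k i v : γ → ℕ} (hB : PTF B) (ht : PTF t) (hk : PTF k)
    (hi : PTF i) (hv : PTF v) : PTF (fun c => vr (B c) (t c) (k c) (i c) (v c)) :=
  PTF.natAdd (PTF.natMul (PTF.natAdd (PTF.natMul (PTF.natAdd (PTF.natMul ht hB) hk) hB) hi) hB) hv

theorem ptf_cel {γ : Type} [PTCode γ] {B t k i : γ → ℕ} (hB : PTF B) (ht : PTF t) (hk : PTF k)
    (hi : PTF i) (v : Option Bool) : PTF (fun c => cel (B c) (t c) (k c) (i c) v) :=
  ptf_vr hB ht hk hi (PTF.const _)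

theorem ptf_succ {γ : Type} [PTCode γ] {t : γ → ℕ} (ht : PTF t) : PTF (fun c => t c + 1) :=
  PTF.natAdd ht (PTF.const 1)

theorem ptf_lit {γ : Type} [PTCode γ] {t : γ → ℕ} (ht : PTF t) (b : Bool) :
    PTF (fun c => (t c, b)) := PTF.prodMk ht (PTF.const b)

theorem ptf_l1 {γ α : Type} [PTCode γ] [PTCode α] {a : γ → α} (ha : PTF a) :
    PTF (fun c => [a c]) := PTF.listCons ha (PTF.const [])

theorem ptf_l2 {γ α : Type} [PTCode γ] [PTCode α] {a b : γ → α} (ha : PTF a) (hb : PTF b) :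
    PTF (fun c => [a c, b c]) := PTF.listCons ha (ptf_l1 hb)

theorem ptf_l3 {γ α : Type} [PTCode γ] [PTCode α] {a b d : γ → α} (ha : PTF a) (hb : PTF b)
    (hd : PTF d) : PTF (fun c => [a c, b c, d c]) := PTF.listCons ha (ptf_l2 hb hd)

section

variable {Λ : Type} (M : Λ → Ins Λ) (ι : Λ → ℕ) (K : ℕ) (Ls : List Λ) (l₀ : Λ)
variable {γ : Type} [PTCode γ]

theorem ptf_lab {B t : γ → ℕ} (hB : PTF B) (ht : PTF t) (l : Λ) :
    PTF (fun c => lab ι K (B c) (t c) l) :=
  ptf_vr hB ht (PTF.const _) (PTF.const _) (PTF.const _)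

theorem ptf_cellCl {B t i : γ → ℕ} (hB : PTF B) (ht : PTF t) (hi : PTF i) (l : Λ) (k : ℕ)
    (v : Option Bool) (a : Act) : PTF (fun c => cellCl ι K (B c) (t c) l k (i c) v a) := by
  have hl := ptf_lit (ptf_lab ι K hB ht l) false
  rcases a with _ | _ | b
  · exact ptf_l1 (ptf_l3 hl (ptf_lit (ptf_cel hB ht (PTF.const k) hi v) false)
      (ptf_lit (ptf_cel hB (ptf_succ ht) (PTF.const k) hi v) true))
  · exact ptf_l1 (ptf_l3 hl (ptf_lit (ptf_cel hB ht (PTF.const k) (ptf_succ hi) v) false)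
      (ptf_lit (ptf_cel hB (ptf_succ ht) (PTF.const k) hi v) true))
  · exact ptf_l2 (ptf_l2 hl
      (ptf_lit (ptf_cel hB (ptf_succ ht) (PTF.const k) (PTF.const 0) (some b)) true))
      (ptf_l3 hl (ptf_lit (ptf_cel hB ht (PTF.const k) hi v) false)
        (ptf_lit (ptf_cel hB (ptf_succ ht) (PTF.const k) (ptf_succ hi) v) true))

theorem ptf_transCl {B S t : γ → ℕ} (hB : PTF B) (hS : PTU S) (ht : PTF t) (l : Λ) :
    PTF (fun c => transCl M ι K (B c) (S c) (t c) l) := by
  unfold transCl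
  refine PTF.append (ptf_flatMap_const vals fun v => ?_)
    (ptf_flatMap_const (List.range (K + 1)) fun k => ptf_flatMap_const vals fun v => ?_)
  · exact ptf_l1 (ptf_l3 (ptf_lit (ptf_lab ι K hB ht l) false)
      (ptf_lit (ptf_cel hB ht (PTF.const _) (PTF.const 0) v) false)
      (ptf_lit (ptf_lab ι K hB (ptf_succ ht) _) true))
  · exact PTF.flatMap (PTF.range hS)
      (ptf_cellCl ι K (PTF.comp hB PTF.fst) (PTF.comp ht PTF.fst) PTF.snd l k v _)

theorem ptf_initCl {B S m : γ → ℕ} {z : γ → List Bool} (hB : PTF B) (hS : PTU S) (hz : PTF z)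
    (hm : PTU m) : PTF (fun c => initCl ι K l₀ (B c) (S c) (z c) (m c)) := by
  unfold initCl
  have hzl : PTF (fun c => (z c).length) := (PTU.length hz).toPTF
  refine PTF.append (PTF.append (PTF.append (PTF.append ?_ ?_) ?_) ?_) ?_
  · exact ptf_l1 (ptf_l1 (ptf_lit (ptf_lab ι K hB (PTF.const 0) l₀) true))
  · refine PTF.map (PTF.zip (PTF.range (PTU.length hz)) hz) ?_
    exact ptf_l1 (ptf_lit (ptf_vr (PTF.comp hB PTF.fst) (PTF.const 0) (PTF.const 0)
      (PTF.comp PTF.fst PTF.snd)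
      (PTF.cond (PTF.comp PTF.snd PTF.snd) (PTF.const 2) (PTF.const 1))) true)
  · refine PTF.map (PTF.range hm) ?_
    have h := PTF.natAdd (PTF.comp hzl PTF.fst) (PTF.snd (α := γ) (β := ℕ))
    exact ptf_l2 (ptf_lit (ptf_cel (PTF.comp hB PTF.fst) (PTF.const 0) (PTF.const 0) h _) true)
      (ptf_lit (ptf_cel (PTF.comp hB PTF.fst) (PTF.const 0) (PTF.const 0) h _) true)
  · refine PTF.map (PTF.range hS) ?_
    have h := PTF.natAdd (PTF.natAdd (PTF.comp hzl PTF.fst) (PTF.comp hm.toPTF PTF.fst))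
      (PTF.snd (α := γ) (β := ℕ))
    exact ptf_l1 (ptf_lit (ptf_cel (PTF.comp hB PTF.fst) (PTF.const 0) (PTF.const 0) h _) true)
  · refine ptf_flatMap_const (List.range K) fun k => PTF.map (PTF.range hS) ?_
    exact ptf_l1 (ptf_lit (ptf_cel (PTF.comp hB PTF.fst) (PTF.const 0) (PTF.const (k + 1))
      PTF.snd _) true)

theorem ptf_form {B T m : γ → ℕ} {z : γ → List Bool} (hB : PTF B) (hT : PTU T) (hz : PTF z)
    (hm : PTU m) : PTF (fun c => form M ι K Ls l₀ (B c) (T c) (z c) (m c)) := by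
  unfold form finCl
  refine PTF.append (PTF.append (ptf_initCl ι K l₀ hB hT.succ hz hm) ?_) ?_
  · refine PTF.flatMap (PTF.range hT) ?_
    exact ptf_flatMap_const (γ := γ × ℕ) Ls
      (f := fun p l => transCl M ι K (B p.1) (T p.1 + 1) p.2 l) fun l =>
      ptf_transCl M ι K (PTF.comp hB PTF.fst) (PTU.comp hT.succ PTF.fst) PTF.snd l
  · exact ptf_l2 (ptf_l1 (ptf_lit (ptf_cel hB hT.toPTF (PTF.const 0) (PTF.const 0) _) false))
      (ptf_l1 (ptf_lit (ptf_cel hB hT.toPTF (PTF.const 0) (PTF.const 0) _) false))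

end

theorem pair_eq_append (x u : List Bool) : pair x u = pair x [] ++ u := by
  simp [pair]

end Crest.Agent.T318.CL

namespace Crest.Agent.T318

open Crest.Agent.Lib.PT CL

/-- **Cook–Levin.** -/
theorem cookLevin_17 (A : Set (List Bool)) (hA : Crest.Complexity.InNP A) :
    ∃ (n : List Bool → ℕ) (F : List Bool → List (List (ℕ × Bool))), PTU n ∧ PTF F ∧
      ∀ x, 0 < n x ∧ (∀ c ∈ F x, c ≠ [] ∧ ∀ l ∈ c, l.1 < n x) ∧
        (x ∈ A ↔ ∃ σ : ℕ → Bool, ∀ c ∈ F x, ∃ l ∈ c, σ l.1 = l.2) := by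
  classical
  obtain ⟨Λ, hΛ, M, l₀, m, T, hm, hT, hA⟩ := exists_flat A hA
  have := Fintype.ofFinite Λ
  let ι : Λ → ℕ := fun l => (Fintype.equivFin Λ l : ℕ)
  have hι : Function.Injective ι := fun a b h => (Fintype.equivFin Λ).injective (Fin.ext h)
  have hιlt : ∀ l, ι l < Fintype.card Λ := fun l => (Fintype.equivFin Λ l).2
  let K : ℕ := Finset.univ.sup fun l => (M l).k
  have hK : ∀ l, (M l).k ≤ K := fun l =>
    Finset.le_sup (f := fun l => (M l).k) (Finset.mem_univ l)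
  let Ls : List Λ := Finset.univ.toList
  have hLs : ∀ l, l ∈ Ls := fun l => by simp [Ls]
  have hz : PTF (fun x : List Bool => pair x []) :=
    PT.toPTF_list (PT.pair PT.id (PT.const []))
  let B : List Bool → ℕ := fun x => (pair x []).length + m x + T x + (K + Fintype.card Λ + 3)
  have hB : PTU B := PTU.add (PTU.add (PTU.add (PTU.length hz) hm) hT) (PTU.const _)
  have hB1 : ∀ x l, ι l < B x := fun x l => by have := hιlt l; simp only [B]; omega
  have hB2 : ∀ x, K + 1 < B x := fun x => by simp only [B]; omega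
  have hB3 : ∀ x, (pair x []).length + m x + T x + 2 < B x := fun x => by simp only [B]; omega
  refine ⟨fun x => B x * B x * B x * B x, fun x => form M ι K Ls l₀ (B x) (T x) (pair x []) (m x),
    PTU.mul (PTU.mul (PTU.mul hB hB) hB) hB, ptf_form M ι K Ls l₀ hB.toPTF hT hz hm,
    fun x => ⟨?_, shape M ι K Ls l₀ hK (hB1 x) (hB2 x) (hB3 x), ?_⟩⟩
  · have := hB2 x
    have : 0 < B x := by omega
    positivity
  · rw [hA x]
    constructor
    · rintro ⟨u, hu, h⟩
      rw [pair_eq_append] at h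
      exact complete M ι K Ls l₀ hι hK (hB1 x) (hB2 x) (hB3 x) hu h
    · rintro ⟨σ, hσ⟩
      obtain ⟨u, hu, h⟩ := sound M ι K Ls l₀ hK hLs hσ
      exact ⟨u, hu, by rw [pair_eq_append]; exact h⟩

end Crest.Agent.T318
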