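import Crest.Agent.Lib.PT.Alphabet

/-!
# A flat small-step machine for the programs of the polynomial-time library

Every program `c : Cmd` is compiled to a table of instructions; one instruction reads the top of one
stack, keeps / pops / pushes on that stack and jumps to a label depending on the symbol read.
-/

set_option autoImplicit false

namespace Crest.Agent.T318.CL

open Crest.Agent.Lib.PT Crest.Agent.Lib.PT.Cmd

/-- what an instruction does to its stack -/
inductive Act : Type
  | keep : Act
  | pop : Act
  | push (b : Bool) : Act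

/-- the effect of an action -/
def Act.app : Act → List Bool → List Bool
  | .keep, l => l
  | .pop, l => l.tail
  | .push b, l => b :: l

/-- an instruction -/
structure Ins (Λ : Type) where
  /-- the stack -/
  k : ℕ
  /-- the action -/
  act : Act
  /-- the next label, depending on the top symbol -/
  nx : Option Bool → Λ

/-- one step -/
def fstep {Λ : Type} (M : Λ → Ins Λ) (p : Λ × Store) : Λ × Store :=
  ((M p.1).nx (p.2 (M p.1).k).head?,
    Function.update p.2 (M p.1).k ((M p.1).act.app (p.2 (M p.1).k)))

/-- the instruction table of a program -/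
def flat {Λ : Type} : (c : Cmd) → (Lab c → Λ) → Λ → Lab c → Ins Λ
  | .skip, _, exit, _ => ⟨0, .keep, fun _ => exit⟩
  | .push k b, _, exit, _ => ⟨k, .push b, fun _ => exit⟩
  | .pop k, _, exit, _ => ⟨k, .pop, fun _ => exit⟩
  | .seq c d, emb, exit, l =>
      Sum.elim (fun a => flat c (fun x => emb (Sum.inl x)) (emb (Sum.inr (entry d))) a)
        (fun a => flat d (fun x => emb (Sum.inr x)) exit a) l
  | .ite k e c d, emb, exit, l =>
      Sum.elim
        (fun _ => ⟨k, .keep, fun v =>
          match v with
          | none => emb (Sum.inr (Sum.inl (entry e)))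
          | some true => emb (Sum.inr (Sum.inr (Sum.inl (entry c))))
          | some false => emb (Sum.inr (Sum.inr (Sum.inr (entry d))))⟩)
        (Sum.elim (fun a => flat e (fun x => emb (Sum.inr (Sum.inl x))) exit a)
          (Sum.elim (fun a => flat c (fun x => emb (Sum.inr (Sum.inr (Sum.inl x)))) exit a)
            (fun a => flat d (fun x => emb (Sum.inr (Sum.inr (Sum.inr x)))) exit a))) l
  | .loop k c, emb, exit, l =>
      Sum.elim
        (fun _ => ⟨k, .keep, fun v =>
          match v with
          | none => exit
          | some _ => emb (Sum.inr (entry c))⟩)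
        (fun a => flat c (fun x => emb (Sum.inr x)) (emb (Sum.inl ())) a) l

theorem iter_add {Λ : Type} (M : Λ → Ins Λ) (t t' : ℕ) (p : Λ × Store) :
    (fstep M)^[t + t'] p = (fstep M)^[t'] ((fstep M)^[t] p) := by
  rw [add_comm t t', Function.iterate_add_apply]

theorem fstep_keep {Λ : Type} (M : Λ → Ins Λ) (l : Λ) (s : Store) (k : ℕ) (f : Option Bool → Λ)
    (h : M l = ⟨k, .keep, f⟩) : (fstep M)^[1] (l, s) = (f (s k).head?, s) := by
  simp [fstep, h, Act.app]

theorem fsim {Λ : Type} {c : Cmd} {s s' : Store} {t : ℕ} (h : Exec c s s' t) :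
    ∀ (M : Λ → Ins Λ) (emb : Lab c → Λ) (exit : Λ), (∀ a, M (emb a) = flat c emb exit a) →
      (fstep M)^[t] (emb (entry c), s) = (exit, s') := by
  induction h with
  | skip s =>
    intro M emb exit hm
    simp [fstep, hm, flat, Act.app]
  | push k b s =>
    intro M emb exit hm
    simp [fstep, hm, flat, Act.app]
  | pop k s =>
    intro M emb exit hm
    simp [fstep, hm, flat, Act.app]
  | @seq c d s s' s'' t t' _ _ ih1 ih2 =>
    intro M emb exit hm
    have h1 := ih1 M (fun x => emb (Sum.inl x)) (emb (Sum.inr (entry d))) (fun a => hm (Sum.inl a))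
    have h2 := ih2 M (fun x => emb (Sum.inr x)) exit (fun a => hm (Sum.inr a))
    rw [iter_add]
    simp only [entry]
    rw [h1, h2]
  | @ite_nil k e c d s s' t hk _ ih =>
    intro M emb exit hm
    have h1 := ih M (fun x => emb (Sum.inr (Sum.inl x))) exit (fun a => hm (Sum.inr (Sum.inl a)))
    rw [iter_add]
    have : (fstep M)^[1] (emb (entry (Cmd.ite k e c d)), s) =
        (emb (Sum.inr (Sum.inl (entry e))), s) := by
      rw [fstep_keep M _ s k _ (hm _), hk]
      rfl
    rw [this, h1]
  | @ite_true k e c d s s' t l hk _ ih =>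
    intro M emb exit hm
    have h1 := ih M (fun x => emb (Sum.inr (Sum.inr (Sum.inl x)))) exit
      (fun a => hm (Sum.inr (Sum.inr (Sum.inl a))))
    rw [iter_add]
    have : (fstep M)^[1] (emb (entry (Cmd.ite k e c d)), s) =
        (emb (Sum.inr (Sum.inr (Sum.inl (entry c)))), s) := by
      rw [fstep_keep M _ s k _ (hm _), hk]
      rfl
    rw [this, h1]
  | @ite_false k e c d s s' t l hk _ ih =>
    intro M emb exit hm
    have h1 := ih M (fun x => emb (Sum.inr (Sum.inr (Sum.inr x)))) exit
      (fun a => hm (Sum.inr (Sum.inr (Sum.inr a))))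
    rw [iter_add]
    have : (fstep M)^[1] (emb (entry (Cmd.ite k e c d)), s) =
        (emb (Sum.inr (Sum.inr (Sum.inr (entry d)))), s) := by
      rw [fstep_keep M _ s k _ (hm _), hk]
      rfl
    rw [this, h1]
  | @loop_nil k c s hk =>
    intro M emb exit hm
    rw [fstep_keep M _ s k _ (hm _), hk]
    rfl
  | @loop_cons k c s s' s'' t t' hk _ _ ih1 ih2 =>
    intro M emb exit hm
    obtain ⟨b, l, hbl⟩ : ∃ b l, s k = b :: l := List.exists_cons_of_ne_nil hk
    have h1 := ih1 M (fun x => emb (Sum.inr x)) (emb (Sum.inl ())) (fun a => hm (Sum.inr a))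
    have h2 := ih2 M emb exit hm
    rw [iter_add, iter_add]
    have : (fstep M)^[1] (emb (entry (Cmd.loop k c)), s) = (emb (Sum.inr (entry c)), s) := by
      rw [fstep_keep M _ s k _ (hm _), hbl]
      rfl
    rw [this, h1]
    simp only [entry] at h2
    exact h2

/-- the whole machine of a program: label `none` is the idle final label -/
def mach (c : Cmd) : Option (Lab c) → Ins (Option (Lab c))
  | none => ⟨0, .keep, fun _ => none⟩
  | some a => flat c some none a

theorem mach_idle (c : Cmd) (s : Store) (t : ℕ) : (fstep (mach c))^[t] (none, s) = (none, s) := by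
  induction t with
  | zero => rfl
  | succ t ih =>
    rw [Function.iterate_succ_apply]
    have : fstep (mach c) (none, s) = (none, s) := by simp [fstep, mach, Act.app]
    rw [this, ih]

theorem mach_run {c : Cmd} {s s' : Store} {T : ℕ} (h : Run c s s' T) :
    (fstep (mach c))^[T] (some (entry c), s) = (none, s') := by
  obtain ⟨t, ht, h⟩ := h
  obtain ⟨d, rfl⟩ := Nat.exists_eq_add_of_le ht
  rw [iter_add, fsim h (mach c) some none (fun _ => rfl), mach_idle]

/-- Every NP language is accepted by a flat machine reading `pair x u` for a certificate `u` of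
prescribed polynomial length. -/
theorem exists_flat (A : Set (List Bool)) (hA : Crest.Complexity.InNP A) :
    ∃ (Λ : Type) (_ : Finite Λ) (M : Λ → Ins Λ) (l₀ : Λ) (m T : List Bool → ℕ), PTU m ∧ PTU T ∧
      ∀ x, (x ∈ A ↔ ∃ u : List Bool, u.length = m x ∧
        (((fstep M)^[T x] (l₀, init (pair x u))).2 0).head? = some true) := by
  obtain ⟨V, p, hV, hA⟩ := hA
  have hV' : PTF V := polyTimePred₂_iff.1 hV
  have h1 : PTF (fun q : Bits × Bits => V (q.1.val, fst q.2.val)) := by
    refine PTF.comp hV' (PTF.prodMk (PTF.bitsVal PTF.fst) ?_)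
    exact PTF.comp (PT.toPTF_list PT.fst) (PTF.bitsVal PTF.snd)
  obtain ⟨g, ⟨c, q, hc⟩, hg⟩ := h1
  have hg' : ∀ x u, g (pair x u) = [V (x, fst u)] := fun x u => hg (Bits.mk x, Bits.mk u)
  have hm : PTU (fun x : List Bool => 2 * p.eval x.length + 1) :=
    PTU.succ (PTU.mul (PTU.const 2) (PTU.eval p (PTU.length PTF.id)))
  refine ⟨Option (Lab c), inferInstance, mach c, some (entry c),
    fun x => 2 * p.eval x.length + 1,
    fun x => q.eval (2 * x.length + 1 + (2 * p.eval x.length + 1)), hm, ?_, fun x => ?_⟩
  · exact PTU.eval q (PTU.add (PTU.succ (PTU.mul (PTU.const 2) (PTU.length PTF.id))) hm)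
  · have key : ∀ u : List Bool, u.length = 2 * p.eval x.length + 1 →
        (((fstep (mach c))^[q.eval (2 * x.length + 1 + (2 * p.eval x.length + 1))]
          (some (entry c), init (pair x u))).2 0).head? = some (V (x, fst u)) := by
      intro u hu
      have := mach_run (hc (pair x u))
      rw [length_pair, hu] at this
      rw [this, hg']
      rfl
    rw [hA x]
    dsimp only
    constructor
    · rintro ⟨w, hw, hVw⟩
      refine ⟨pair w (List.replicate (2 * p.eval x.length - 2 * w.length) false), ?_, ?_⟩
      · rw [length_pair, List.length_replicate]; omega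
      · rw [key _ (by rw [length_pair, List.length_replicate]; omega), fst_pair, hVw]
    · rintro ⟨u, hu, hVu⟩
      rw [key u hu] at hVu
      refine ⟨fst u, ?_, by simpa using hVu⟩
      have := length_fst_add_snd u
      omega

end Crest.Agent.T318.CL
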