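import Mathlib

/-!
# Row 318: nested Hall lemma (matching starts with jobs to ends)
-/

set_option autoImplicit false

namespace Crest.Agent.T318

theorem nestedHall_17 (n : ℕ) : ∀ (R : Multiset (ℕ × ℕ)) (B : Multiset ℕ), R.card = n → B.card = n →
    (∀ th, R.countP (fun r => th ≤ r.1 + r.2) ≤ B.countP (fun b => th ≤ b)) →
    ∃ Q : Multiset (ℕ × ℕ × ℕ), (∀ q ∈ Q, q.1 + q.2.2 ≤ q.2.1) ∧
      Q.map (fun q => (q.1, q.2.2)) = R ∧ Q.map (fun q => q.2.1) = B := by
  induction n with
  | zero =>
    intro R B hR hB _
    rw [Multiset.card_eq_zero] at hR hB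
    subst hR hB
    exact ⟨0, by simp, by simp, by simp⟩
  | succ n ih =>
    intro R B hR hB h
    have hRne : R ≠ 0 := by rintro rfl; simp at hR
    have hBne : B ≠ 0 := by rintro rfl; simp at hB
    obtain ⟨r, hr, hrmax⟩ := Multiset.exists_max_image (fun r : ℕ × ℕ => r.1 + r.2) hRne
    obtain ⟨b, hb, hbmax⟩ := Multiset.exists_max_image (fun b : ℕ => b) hBne
    obtain ⟨R', rfl⟩ := Multiset.exists_cons_of_mem hr
    obtain ⟨B', rfl⟩ := Multiset.exists_cons_of_mem hb
    have hrb : r.1 + r.2 ≤ b := by
      have h1 := h (r.1 + r.2)
      have h2 : 0 < (r ::ₘ R').countP (fun s => r.1 + r.2 ≤ s.1 + s.2) :=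
        Multiset.countP_pos.2 ⟨r, Multiset.mem_cons_self _ _, le_rfl⟩
      obtain ⟨b', hb', hb''⟩ := Multiset.countP_pos.1 (lt_of_lt_of_le h2 h1)
      exact hb''.trans (hbmax b' hb')
    obtain ⟨Q, hQ1, hQ2, hQ3⟩ := ih R' B' (by simpa using hR) (by simpa using hB) (by
      intro th
      by_cases h1 : th ≤ r.1 + r.2
      · have := h th
        simp only [Multiset.countP_cons, h1, h1.trans hrb, if_true] at this
        omega
      · have : R'.countP (fun s => th ≤ s.1 + s.2) = 0 := by
          rw [Multiset.countP_eq_zero]
          intro s hs h2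
          exact h1 (h2.trans (hrmax s (Multiset.mem_cons_of_mem hs)))
        omega)
    refine ⟨(r.1, b, r.2) ::ₘ Q, ?_, by simp [hQ2], by simp [hQ3]⟩
    intro q hq
    rcases Multiset.mem_cons.1 hq with rfl | hq
    · exact hrb
    · exact hQ1 q hq

theorem loadHall_17 (R : Multiset (ℕ × ℕ)) (K top T : ℕ) (hlow : ∀ r ∈ R, top ≤ r.1)
    (hT : ∀ r ∈ R, r.1 + r.2 ≤ T) (hTop : top ≤ T)
    (hload : ∀ x, R.countP (fun r => r.1 ≤ x ∧ x < r.1 + r.2) ≤ K) :
    ∃ Q : Multiset (ℕ × ℕ × ℕ), (∀ q ∈ Q, q.1 + q.2.2 ≤ q.2.1) ∧
      Q.map (fun q => q.1) = Multiset.replicate K 0 + R.map Prod.fst ∧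
      Q.map (fun q => q.2.1) = Multiset.replicate K T + R.map Prod.fst ∧
      Q.map (fun q => q.2.2) = Multiset.replicate K top + R.map Prod.snd := by
  obtain ⟨Q, h1, h2, h3⟩ := nestedHall_17 (K + R.card) (Multiset.replicate K (0, top) + R)
    (Multiset.replicate K T + R.map Prod.fst) (by simp) (by simp) (by
      intro th
      rw [Multiset.countP_add, Multiset.countP_add, Multiset.countP_map]
      by_cases h1 : th ≤ top
      · have e1 : (Multiset.replicate K T).countP (fun b => th ≤ b) = K := by
          rw [Multiset.countP_eq_card.2, Multiset.card_replicate]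
          intro b hb
          rw [Multiset.eq_of_mem_replicate hb]; omega
        have e2 : (R.filter fun r => th ≤ r.1) = R :=
          Multiset.filter_eq_self.2 fun r hr => h1.trans (hlow r hr)
        have e3 := Multiset.countP_le_card (fun r : ℕ × ℕ => th ≤ r.1 + r.2)
          (Multiset.replicate K (0, top))
        have e4 := Multiset.countP_le_card (fun r : ℕ × ℕ => th ≤ r.1 + r.2) R
        rw [e1, e2]
        rw [Multiset.card_replicate] at e3
        omega
      · have e1 : (Multiset.replicate K ((0, top) : ℕ × ℕ)).countP
            (fun r => th ≤ r.1 + r.2) = 0 := by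
          rw [Multiset.countP_eq_zero]
          intro r hr
          rw [Multiset.eq_of_mem_replicate hr]
          simpa using h1
        rw [e1, zero_add]
        by_cases h2 : th ≤ T
        · have e2 : (Multiset.replicate K T).countP (fun b => th ≤ b) = K := by
            rw [Multiset.countP_eq_card.2, Multiset.card_replicate]
            intro b hb
            rw [Multiset.eq_of_mem_replicate hb]; omega
          rw [e2]
          have e3 := hload (th - 1)
          have e4 : R.countP (fun r => th ≤ r.1 + r.2) ≤
              R.countP (fun r => r.1 ≤ th - 1 ∧ th - 1 < r.1 + r.2) +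
                (R.filter fun r => th ≤ r.1).card := by
            rw [← Multiset.countP_eq_card_filter]
            clear hlow hT hload e3
            induction R using Multiset.induction_on with
            | empty => simp
            | cons r R ih =>
              simp only [Multiset.countP_cons]
              split_ifs <;> omega
          omega
        · have e2 : R.countP (fun r => th ≤ r.1 + r.2) = 0 := by
            rw [Multiset.countP_eq_zero]
            intro r hr
            have := hT r hr
            omega
          omega)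
  refine ⟨Q, h1, ?_, h3, ?_⟩
  · have := congrArg (Multiset.map Prod.fst) h2
    simpa [Multiset.map_map] using this
  · have := congrArg (Multiset.map Prod.snd) h2
    simpa [Multiset.map_map] using this

end Crest.Agent.T318
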