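import Crest.Agent.T318.PackDefsPT_21

/-!
# Row 318, line B (modular template version): definitions and leaf statements (helper14)

Layers: CNF → block problem `(k, labs, V)` → gadget `(P, I)` → `step` / `inst` → `MYes` / `¬ Near`.
Triples are `(a, b, z)` = (start, end, job), feasible iff `a + z ≤ b` (see `PackDefs_21`).
-/

set_option autoImplicit false

namespace Crest.Agent.T318.B14

open Crest.Agent.Lib.PT

/-- an instance: starts, ends, jobs and a bound for all entries -/
abbrev Inst : Type := List ℕ × List ℕ × List ℕ × ℕ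

/-- a gadget: the list of sites and an instance -/
abbrev Gad : Type := List ℕ × Inst

/-- well-formed instance -/
structure WF (I : Inst) : Prop where
  lenE : I.2.1.length = I.1.length
  lenZ : I.2.2.1.length = I.1.length
  leA : ∀ a ∈ I.1, a ≤ I.2.2.2
  leE : ∀ e ∈ I.2.1, e ≤ I.2.2.2
  posZ : ∀ z ∈ I.2.2.1, 1 ≤ z
  leZ : ∀ z ∈ I.2.2.1, z ≤ I.2.2.2

/-- `m`-fold perfect matching of an instance -/
def IYes (m : ℕ) (I : Inst) : Prop := MYes m I.1 I.2.1 I.2.2.1

/-- every partial matching missing at most `l` starts has, at some time `x`, load at least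
`g` more than the height `#starts ≤ x - #ends ≤ x` -/
def NOw (g l : ℕ) (I : Inst) : Prop :=
  ∀ Q : Multiset (ℕ × ℕ × ℕ), Feas Q →
    Q.map (fun q => q.1) ≤ (I.1 : Multiset ℕ) →
    Q.map (fun q => q.2.1) ≤ (I.2.1 : Multiset ℕ) →
    Q.map (fun q => q.2.2) ≤ (I.2.2.1 : Multiset ℕ) →
    I.1.length ≤ Multiset.card Q + l →
    ∃ x, x ≤ I.2.2.2 ∧
      I.1.countP (fun a => decide (a ≤ x)) + g ≤
        Q.countP (fun q => q.1 ≤ x ∧ x < q.2.1) + I.2.1.countP (fun e => decide (e ≤ x))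

/-- well-formed gadget: distinct sites, no start or end at a site, height at most `1` at sites -/
structure GWF (G : Gad) : Prop where
  wf : WF G.2
  nodup : G.1.Nodup
  le : ∀ p ∈ G.1, p ≤ G.2.2.2.2
  notA : ∀ p ∈ G.1, p ∉ G.2.1
  notE : ∀ p ∈ G.1, p ∉ G.2.2.1
  ht : ∀ p ∈ G.1, G.2.1.countP (fun a => decide (a ≤ p)) ≤
    G.2.2.1.countP (fun e => decide (e ≤ p)) + 1

/-- whenever all but `l` jobs of the gadget are hosted by intervals (arbitrary starts, ends at an
end or at a site of the gadget), some site is strictly inside two of them -/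
def GNo (l : ℕ) (G : Gad) : Prop :=
  ∀ Q : Multiset (ℕ × ℕ × ℕ), Feas Q →
    Q.map (fun q => q.2.2) ≤ (G.2.2.2.1 : Multiset ℕ) →
    G.2.2.2.1.length ≤ Multiset.card Q + l →
    (∀ q ∈ Q, q.2.1 ∈ G.2.2.1 ∨ q.2.1 ∈ G.1) →
    ∃ p ∈ G.1, 2 ≤ Q.countP (fun q => q.1 < p ∧ p < q.2.1)

/-- put a copy of the template `C`, scaled by `β ^ j` (`β = W + 1`), at the site number `j` of the
gadget, which is scaled by `τ = β ^ J` (`J` = number of sites) -/
def step (G : Gad) (C : Inst) : Inst :=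
  (G.2.1.map (fun a => (C.2.2.2 + 1) ^ G.1.length * a) ++
      (List.range G.1.length).flatMap (fun j => C.1.map fun a =>
        (C.2.2.2 + 1) ^ G.1.length * G.1.getD j 0 + (C.2.2.2 + 1) ^ j * a),
    G.2.2.1.map (fun e => (C.2.2.2 + 1) ^ G.1.length * e) ++
      (List.range G.1.length).flatMap (fun j => C.2.1.map fun e =>
        (C.2.2.2 + 1) ^ G.1.length * G.1.getD j 0 + (C.2.2.2 + 1) ^ j * e),
    G.2.2.2.1.map (fun z => (C.2.2.2 + 1) ^ G.1.length * z) ++
      (List.range G.1.length).flatMap (fun j => C.2.2.1.map fun z => (C.2.2.2 + 1) ^ j * z),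
    (C.2.2.2 + 1) ^ G.1.length * (G.2.2.2.2 + 1))

/-- the nested instance of depth `g` and leak `l` built from a family of gadgets -/
def inst (gad : ℕ → Gad) : ℕ → ℕ → Inst
  | 0, _ => ([], [], [], 0)
  | g + 1, l => step (gad l) (inst gad g (2 * l + 2 * ((gad l).1.length * (g + 1))))

/-! ### block problems -/

/-- `m` families of pairwise disjoint blocks `{j, j+1} ⊆ {0, …, k-1}` whose labels dominate the
`m`-fold list of job labels -/
def BYes (m k : ℕ) (labs V : List ℕ) : Prop :=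
  ∃ Bs : List (List ℕ), Bs.length = m ∧
    (∀ B ∈ Bs, B.length = V.length ∧ (∀ j ∈ B, j + 2 ≤ k) ∧ B.Pairwise (fun i j => i + 2 ≤ j)) ∧
    Multiset.Rel (fun v w => v ≤ w) (m • (V : Multiset ℕ))
      ((Bs.flatten.map fun j => labs.getD j 0 : List ℕ) : Multiset ℕ)

/-- no family of disjoint blocks hosts all but `l` of the job labels -/
def BNo (l k : ℕ) (labs V : List ℕ) : Prop :=
  ∀ R : Multiset (ℕ × ℕ), (∀ r ∈ R, r.1 + 2 ≤ k ∧ r.2 ≤ labs.getD r.1 0) →
    R.map (fun r => r.2) ≤ (V : Multiset ℕ) → V.length ≤ Multiset.card R + l →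
    (∀ s, R.countP (fun r => r.1 ≤ s ∧ s ≤ r.1 + 1) ≤ 1) → False

/-- unit distance of the sites -/
def bS (labs : List ℕ) : ℕ := 3 * labs.sum + 4

/-- position of the start after site `j - 1`; `bq (j + 3) = bq j + 3 * bS + 3 * lab j` -/
def bq (labs : List ℕ) (j : ℕ) : ℕ :=
  j * bS labs + 3 * ∑ i ∈ Finset.range j, if (j - i) % 3 = 0 then labs.getD i 0 else 0

/-- the gadget of a block problem: site `s` at `bq (s+1) - 1`, starts `bq i`, ends
`bq (i+2) - 2` (`s, i < k`), long jobs `3 S + 3 v - 2` and short jobs `1` -/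
def bgad (k : ℕ) (labs V : List ℕ) : Gad :=
  ((List.range k).map (fun s => bq labs (s + 1) - 1),
    (List.range k).map (bq labs),
    (List.range k).map (fun i => bq labs (i + 2) - 2),
    V.map (fun v => 3 * bS labs + 3 * v - 2) ++ List.replicate (k - V.length) 1,
    bq labs (k + 1) + 3 * bS labs + 3 * V.sum)

/-! ### from a CNF formula to a block problem

`n` variables, clause list `F`, amplification parameter `s`.  Every variable owns a track of
`2 r + 1` sites, `r = s * m * s` slots; slot `t` has index `t / s < s * m` (round `t / s / m`,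
clause `t / s % m`); the two blocks `2 t`, `2 t + 1` of the slot are the phases `false`, `true`. -/

/-- slots per track -/
def cr (F : List (List (ℕ × Bool))) (s : ℕ) : ℕ := s * F.length * s

/-- number of sites -/
def ck (n : ℕ) (F : List (List (ℕ × Bool))) (s : ℕ) : ℕ := n * (2 * cr F s + 1)

/-- label of the block `j` -/
def clab (F : List (List (ℕ × Bool))) (s j : ℕ) : ℕ :=
  if j % (2 * cr F s + 1) = 2 * cr F s then 0
  else 2 * (j % (2 * cr F s + 1) / 2 / s) +
    (if (j / (2 * cr F s + 1), decide (j % (2 * cr F s + 1) % 2 = 1)) ∈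
        F.getD (j % (2 * cr F s + 1) / 2 / s % F.length) [] then 2 else 1)

/-- list of block labels -/
def clabs (n : ℕ) (F : List (List (ℕ × Bool))) (s : ℕ) : List ℕ :=
  (List.range (ck n F s)).map (clab F s)

/-- list of job labels -/
def cV (n : ℕ) (F : List (List (ℕ × Bool))) (s : ℕ) : List ℕ :=
  (List.range (s * F.length)).flatMap fun i =>
    List.replicate s (2 * i + 2) ++ List.replicate ((n - 1) * s) (2 * i + 1)

/-- the gadget of a CNF formula for the leak `l` -/
def cgad (n : ℕ) (F : List (List (ℕ × Bool))) (l : ℕ) : Gad :=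
  bgad (ck n F (3 * n + 6 * l + 1)) (clabs n F (3 * n + 6 * l + 1)) (cV n F (3 * n + 6 * l + 1))

/-- `m` assignments that satisfy every clause `m` times in total -/
def CYes (m n : ℕ) (F : List (List (ℕ × Bool))) : Prop :=
  ∃ αs : List (ℕ → Bool), αs.length = m ∧
    ∀ c ∈ F, m ≤ (αs.map fun α => (List.range n).countP fun x => decide ((x, α x) ∈ c)).sum

/-- unsatisfiable formula -/
def CNo (F : List (List (ℕ × Bool))) : Prop :=
  ∀ α : ℕ → Bool, ∃ c ∈ F, ∀ x, (x, α x) ∉ c

/-! ### the leaves -/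

/-- leaf L1 -/
def StepNoStmt : Prop :=
  ∀ (G : Gad) (C : Inst) (g l : ℕ), GWF G → WF C → GNo l G →
    NOw g (2 * l + 2 * (G.1.length * (g + 1))) C → NOw (g + 1) l (step G C)

/-- leaf L2a -/
def StepWFStmt : Prop := ∀ (G : Gad) (C : Inst), GWF G → WF C → WF (step G C)

/-- leaf L2b -/
def StepYesStmt : Prop :=
  ∀ (G : Gad) (C : Inst) (m : ℕ), IYes m G.2 → IYes m C → IYes m (step G C)

/-- leaf L2c -/
def NotNearStmt : Prop :=
  ∀ (I : Inst) (D : ℕ), WF I → NOw (D + 1) D I → ¬ Near D I.1 I.2.1 I.2.2.1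

/-- leaf L3a -/
def GadWFStmt : Prop :=
  ∀ (k : ℕ) (labs V : List ℕ), V.length ≤ k → GWF (bgad k labs V)

/-- leaf L3b -/
def GadYesStmt : Prop :=
  ∀ (m k : ℕ) (labs V : List ℕ), V.length ≤ k → BYes m k labs V → IYes m (bgad k labs V).2

/-- leaf L4 -/
def GadNoStmt : Prop :=
  ∀ (l k : ℕ) (labs V : List ℕ), 2 * V.length ≤ k →
    BNo (3 * l + (k - 2 * V.length)) k labs V → GNo l (bgad k labs V)

/-- leaf L5 -/
def CnfNoStmt : Prop :=
  ∀ (n : ℕ) (F : List (List (ℕ × Bool))) (s l : ℕ), 1 ≤ n → n + 2 * l < s → CNo F →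
    BNo l (ck n F s) (clabs n F s) (cV n F s)

/-- leaf L6 -/
def CnfYesStmt : Prop :=
  ∀ (m n : ℕ) (F : List (List (ℕ × Bool))) (s : ℕ), 1 ≤ n → CYes m n F →
    BYes m (ck n F s) (clabs n F s) (cV n F s)

/-- leaf L7a -/
def PTStepStmt : Prop := PTF (fun p : Gad × Inst => step p.1 p.2)

/-- leaf L7b -/
def PTGadStmt : Prop :=
  ∀ {γ : Type} [PTCode γ] (n l : γ → ℕ) (F : γ → List (List (ℕ × Bool))),
    PTU n → PTU l → PTF F → PTF (fun c => cgad (n c) (F c) (l c))

/-- Cook–Levin in the form of note 34 (helper17) -/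
def CookLevinStmt : Prop :=
  ∀ A : Set (List Bool), Crest.Complexity.InNP A →
    ∃ (n : List Bool → ℕ) (F : List Bool → List (List (ℕ × Bool))), PTU n ∧ PTF F ∧
      ∀ x, (∀ c ∈ F x, c ≠ [] ∧ ∀ l ∈ c, l.1 < n x) ∧
        (x ∈ A ↔ ∃ s : ℕ → Bool, ∀ c ∈ F x, ∃ l ∈ c, s l.1 = l.2)

end Crest.Agent.T318.B14
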