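import Crest.Agent.T318.Defs_25

/-!
# Row 318, NO side, part A: counting, the crossing bound and the group lemma
-/

set_option autoImplicit false

namespace Crest.Agent.T318.C25

/-! ### counting in multisets -/

open Classical in
/-- number of elements of `s` with `p` -/
noncomputable def cnt {α : Type} (p : α → Prop) (s : Multiset α) : ℕ := Multiset.countP p s

section cnt

variable {α β : Type}

theorem cnt_zero (p : α → Prop) : cnt p (0 : Multiset α) = 0 := by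
  classical
  simp [cnt]

theorem cnt_add (p : α → Prop) (s t : Multiset α) : cnt p (s + t) = cnt p s + cnt p t := by
  classical
  simp [cnt]

theorem cnt_cons_pos {p : α → Prop} {a : α} (h : p a) (s : Multiset α) :
    cnt p (a ::ₘ s) = cnt p s + 1 := by
  classical
  unfold cnt
  exact Multiset.countP_cons_of_pos s h

theorem cnt_cons_neg {p : α → Prop} {a : α} (h : ¬ p a) (s : Multiset α) :
    cnt p (a ::ₘ s) = cnt p s := by
  classical
  unfold cnt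
  exact Multiset.countP_cons_of_neg s h

theorem cnt_le_card (p : α → Prop) (s : Multiset α) : cnt p s ≤ Multiset.card s := by
  classical
  unfold cnt
  exact Multiset.countP_le_card _ _

theorem cnt_mono (p : α → Prop) {s t : Multiset α} (h : s ≤ t) : cnt p s ≤ cnt p t := by
  obtain ⟨u, rfl⟩ := Multiset.le_iff_exists_add.1 h
  rw [cnt_add]; omega

theorem cnt_le_of_le (p : α → Prop) {s t : Multiset α} (h : s ≤ t) {D : ℕ}
    (hD : Multiset.card t ≤ Multiset.card s + D) : cnt p t ≤ cnt p s + D := by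
  obtain ⟨u, rfl⟩ := Multiset.le_iff_exists_add.1 h
  rw [cnt_add]
  have := cnt_le_card p u
  rw [Multiset.card_add] at hD
  omega

theorem cnt_map (p : β → Prop) (f : α → β) (s : Multiset α) :
    cnt p (s.map f) = cnt (fun a => p (f a)) s := by
  induction s using Multiset.induction_on with
  | empty => simp [cnt_zero]
  | cons a s ih =>
    rw [Multiset.map_cons]
    by_cases h : p (f a)
    · rw [cnt_cons_pos h, cnt_cons_pos (p := fun a => p (f a)) h, ih]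
    · rw [cnt_cons_neg h, cnt_cons_neg (p := fun a => p (f a)) h, ih]

theorem cnt_or {p p1 p2 : α → Prop} {s : Multiset α} (h : ∀ a ∈ s, p a → p1 a ∨ p2 a) :
    cnt p s ≤ cnt p1 s + cnt p2 s := by
  induction s using Multiset.induction_on with
  | empty => simp [cnt_zero]
  | cons a s ih =>
    have ih' := ih fun b hb => h b (Multiset.mem_cons_of_mem hb)
    have ha := h a (Multiset.mem_cons_self a s)
    by_cases h0 : p a <;> by_cases h1 : p1 a <;> by_cases h2 : p2 a <;>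
      simp only [cnt_cons_pos, cnt_cons_neg, h0, h1, h2, not_false_eq_true] <;>
      first | omega | (exfalso; tauto)

theorem cnt_disj {p p1 p2 : α → Prop} {s : Multiset α} (h1 : ∀ a ∈ s, p1 a → p a)
    (h2 : ∀ a ∈ s, p2 a → p a) (h3 : ∀ a ∈ s, p1 a → p2 a → False) :
    cnt p1 s + cnt p2 s ≤ cnt p s := by
  induction s using Multiset.induction_on with
  | empty => simp [cnt_zero]
  | cons a s ih =>
    have ih' := ih (fun b hb => h1 b (Multiset.mem_cons_of_mem hb))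
      (fun b hb => h2 b (Multiset.mem_cons_of_mem hb))
      (fun b hb => h3 b (Multiset.mem_cons_of_mem hb))
    have ha1 := h1 a (Multiset.mem_cons_self a s)
    have ha2 := h2 a (Multiset.mem_cons_self a s)
    have ha3 := h3 a (Multiset.mem_cons_self a s)
    by_cases h0 : p a <;> by_cases h1 : p1 a <;> by_cases h2 : p2 a <;>
      simp only [cnt_cons_pos, cnt_cons_neg, h0, h1, h2, not_false_eq_true] <;>
      first | omega | (exfalso; tauto)

theorem cnt_imp {p p1 : α → Prop} {s : Multiset α} (h : ∀ a ∈ s, p a → p1 a) :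
    cnt p s ≤ cnt p1 s := by
  have h1 := cnt_disj (p := p1) (p1 := p) (p2 := fun _ => False) h (fun _ _ h => h.elim)
    (fun _ _ _ h => h)
  omega

theorem cnt_eq_zero {p : α → Prop} {s : Multiset α} (h : ∀ a ∈ s, ¬ p a) : cnt p s = 0 := by
  induction s using Multiset.induction_on with
  | empty => simp [cnt_zero]
  | cons a s ih =>
    rw [cnt_cons_neg (h a (Multiset.mem_cons_self a s))]
    exact ih fun b hb => h b (Multiset.mem_cons_of_mem hb)

theorem cnt_eq_card {p : α → Prop} {s : Multiset α} (h : ∀ a ∈ s, p a) :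
    cnt p s = Multiset.card s := by
  induction s using Multiset.induction_on with
  | empty => simp [cnt_zero]
  | cons a s ih =>
    rw [cnt_cons_pos (h a (Multiset.mem_cons_self a s)), Multiset.card_cons,
      ih fun b hb => h b (Multiset.mem_cons_of_mem hb)]

theorem cnt_le_sum {ι : Type} (F : Finset ι) (f : ι → α → Prop) {p : α → Prop} {s : Multiset α}
    (h : ∀ a ∈ s, p a → ∃ i ∈ F, f i a) : cnt p s ≤ ∑ i ∈ F, cnt (f i) s := by
  classical
  induction F using Finset.induction_on generalizing p with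
  | empty =>
    rw [cnt_eq_zero fun a ha hp => by simpa using h a ha hp]
    exact Nat.zero_le _
  | insert i F hi ih =>
    rw [Finset.sum_insert hi]
    have h1 := cnt_or (p := p) (p1 := f i) (p2 := fun a => ∃ j ∈ F, f j a) (s := s)
      fun a ha hp => by simpa using h a ha hp
    have h2 := ih (p := fun a => ∃ j ∈ F, f j a) fun a _ hp => hp
    omega

theorem card_le_cnt {p : α → Prop} {s : Multiset α} (S : Finset α)
    (h : ∀ a ∈ S, a ∈ s ∧ p a) : S.card ≤ cnt p s := by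
  have h1 : S.val ≤ s := (Multiset.le_iff_subset S.nodup).2 fun a ha => (h a ha).1
  have h2 := cnt_mono p h1
  rw [cnt_eq_card fun a ha => (h a ha).2] at h2
  exact h2

end cnt

/-! ### the ambient family of triples -/

/-- `Q` is an almost perfect feasible family for the points `P`, `K` machines, final time `T` and
initial job length `J` -/
structure Amb (P : List (ℕ × ℕ)) (K D T J : ℕ) (Q : Multiset (ℕ × ℕ × ℕ)) : Prop where
  feas : ∀ q ∈ Q, q.1 + q.2.2 ≤ q.2.1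
  hA : Q.map (fun q => q.1) ≤ ((List.replicate K 0 ++ P.map Prod.fst : List ℕ) : Multiset ℕ)
  hB : Q.map (fun q => q.2.1) ≤ ((List.replicate K T ++ P.map Prod.fst : List ℕ) : Multiset ℕ)
  hZ : Q.map (fun q => q.2.2) ≤ ((List.replicate K J ++ P.map Prod.snd : List ℕ) : Multiset ℕ)
  hc : K + P.length ≤ Multiset.card Q + D

theorem cnt_rep_append (p : ℕ → Prop) (K a : ℕ) (P : List (ℕ × ℕ)) (f : ℕ × ℕ → ℕ) :
    cnt p ((List.replicate K a ++ P.map f : List ℕ) : Multiset ℕ) =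
      cnt p (Multiset.replicate K a) + cnt (fun x => p (f x)) (P : Multiset (ℕ × ℕ)) := by
  rw [← Multiset.coe_add, cnt_add, ← Multiset.map_coe, cnt_map, Multiset.coe_replicate]

theorem cnt_rep_le (p : ℕ → Prop) (K a : ℕ) : cnt p (Multiset.replicate K a) ≤ K := by
  have := cnt_le_card p (Multiset.replicate K a)
  simpa using this

theorem cnt_rep_eq {p : ℕ → Prop} (K : ℕ) {a : ℕ} (h : p a) :
    cnt p (Multiset.replicate K a) = K := by
  rw [cnt_eq_card fun b hb => by rw [Multiset.eq_of_mem_replicate hb]; exact h]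
  simp

section amb

variable {P : List (ℕ × ℕ)} {K D T J : ℕ} {Q : Multiset (ℕ × ℕ × ℕ)}

theorem Amb.startLe (h : Amb P K D T J Q) (p : ℕ → Prop) :
    cnt (fun q => p q.1) Q ≤ K + cnt (fun x => p x.1) (P : Multiset (ℕ × ℕ)) := by
  have h1 := cnt_mono p h.hA
  rw [cnt_map, cnt_rep_append] at h1
  have := cnt_rep_le p K 0
  omega

theorem Amb.endGe (h : Amb P K D T J Q) (p : ℕ → Prop) :
    cnt (fun x => p x.1) (P : Multiset (ℕ × ℕ)) ≤ cnt (fun q => p q.2.1) Q + D := by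
  have h1 := cnt_le_of_le p h.hB (D := D) (by simpa using h.hc)
  rw [cnt_map, cnt_rep_append] at h1
  omega

theorem Amb.jobGe (h : Amb P K D T J Q) (p : ℕ → Prop) (hJ : p J) :
    K + cnt (fun x => p x.2) (P : Multiset (ℕ × ℕ)) ≤ cnt (fun q => p q.2.2) Q + D := by
  have h1 := cnt_le_of_le p h.hZ (D := D) (by simpa using h.hc)
  rw [cnt_map, cnt_rep_append, cnt_rep_eq K hJ] at h1
  omega

theorem Amb.endMem (h : Amb P K D T J Q) {q : ℕ × ℕ × ℕ} (hq : q ∈ Q) :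
    q.2.1 = T ∨ ∃ p ∈ P, p.1 = q.2.1 := by
  have h1 : q.2.1 ∈ Q.map (fun q => q.2.1) := Multiset.mem_map_of_mem _ hq
  have h2 := Multiset.mem_of_le h.hB h1
  simp only [Multiset.mem_coe, List.mem_append, List.mem_replicate, List.mem_map] at h2
  rcases h2 with h2 | h2
  · exact Or.inl h2.2
  · exact Or.inr h2

/-- at most `K + D` triples cross a time -/
theorem Amb.cross (h : Amb P K D T J Q) (x : ℕ) :
    cnt (fun q => q.1 ≤ x ∧ x < q.2.1) Q ≤ K + D := by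
  have h1 := h.startLe (fun a => a ≤ x)
  have h2 := h.endGe (fun a => a ≤ x)
  have h3 := cnt_disj (p := fun q : ℕ × ℕ × ℕ => q.1 ≤ x) (p1 := fun q => q.1 ≤ x ∧ x < q.2.1)
    (p2 := fun q => q.2.1 ≤ x) (s := Q) (fun _ _ h => h.1)
    (fun q hq h' => by have := h.feas q hq; omega) (fun _ _ h h' => by omega)
  omega

end amb

/-! ### windows -/

/-- the point `p` does not use the levels in `[lo, hi)` -/
def Out (Λ lo hi : ℕ) (F : Finset ℕ) (p : ℕ × ℕ) : Prop :=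
  (Λ ^ hi ≤ p.2 ∧ Λ ^ hi ∣ p.1) ∨ ∃ w ∈ F, w ≤ p.1 ∧ p.1 < w + Λ ^ lo

/-- the time `t` lies in a cluster of a window with base in `W` -/
def InW (Λ d y q : ℕ) (W : Finset ℕ) (t : ℕ) : Prop :=
  ∃ w ∈ W, ∃ κ ≤ q, ∃ ρ < (d + 1) * Λ ^ y, t = w + κ * Λ ^ (y + 1) + ρ

/-- number of triples with a special job of level `y` that span the cluster `κ + 1` of the window
with base `w` -/
noncomputable def sk (Λ d : ℕ) (Q : Multiset (ℕ × ℕ × ℕ)) (y w κ : ℕ) : ℕ :=
  cnt (fun q => q.2.2 = sig Λ d y ∧ q.1 < w + (κ + 1) * Λ ^ (y + 1) ∧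
    w + (κ + 2) * Λ ^ (y + 1) ≤ q.2.1) Q

/-- number of triples with a job of level `≥ h` that span the window `[w, w + Λ ^ h)` -/
noncomputable def span (Λ : ℕ) (Q : Multiset (ℕ × ℕ × ℕ)) (w h : ℕ) : ℕ :=
  cnt (fun q => Λ ^ h ≤ q.2.2 ∧ q.1 < w ∧ w + Λ ^ h ≤ q.2.1) Q

theorem eq_of_dvd_of_mem {Y w w' b : ℕ} (hw : Y ∣ w) (hw' : Y ∣ w') (h1 : w ≤ b) (h2 : b < w + Y)
    (h3 : w' ≤ b) (h4 : b < w' + Y) : w = w' := by
  obtain ⟨u, rfl⟩ := hw
  obtain ⟨u', rfl⟩ := hw'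
  have a1 : Y * u < Y * (u' + 1) := by rw [mul_add, mul_one]; omega
  have a2 : Y * u' < Y * (u + 1) := by rw [mul_add, mul_one]; omega
  have b1 := Nat.lt_of_mul_lt_mul_left a1
  have b2 := Nat.lt_of_mul_lt_mul_left a2
  have : u = u' := by omega
  rw [this]

theorem sig_lt {Λ d y : ℕ} (hd : 2 * d + 1 ≤ Λ) (h3 : 3 ≤ Λ) : sig Λ d y < Λ ^ (y + 2) := by
  unfold sig
  have hU : 0 < Λ ^ y := by positivity
  have e1 : Λ ^ (y + 1) = Λ * Λ ^ y := by ring
  have e2 : Λ ^ (y + 2) = Λ * Λ ^ (y + 1) := by ring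
  have hV : 0 < Λ ^ (y + 1) := by positivity
  have h1 : (d + 1) * Λ ^ y ≤ Λ ^ (y + 1) := by
    rw [e1]; exact Nat.mul_le_mul_right _ (by omega)
  have h2 : 3 * Λ ^ (y + 1) ≤ Λ ^ (y + 2) := by
    rw [e2]; exact Nat.mul_le_mul_right _ h3
  omega

theorem Out.mono {Λ lo hi lo' hi' : ℕ} {F F' : Finset ℕ} {p : ℕ × ℕ} (h : Out Λ lo hi F p)
    (hΛ : 0 < Λ) (h1 : lo ≤ lo') (h2 : hi' ≤ hi) (hF : F ⊆ F') : Out Λ lo' hi' F' p := by
  rcases h with ⟨a, b⟩ | ⟨w, hw, a, b⟩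
  · exact Or.inl ⟨(Nat.pow_le_pow_right hΛ h2).trans a, (pow_dvd_pow Λ h2).trans b⟩
  · have := Nat.pow_le_pow_right hΛ h1
    exact Or.inr ⟨w, hF hw, a, by omega⟩

section group

variable {P : List (ℕ × ℕ)} {K D T J : ℕ} {Q : Multiset (ℕ × ℕ × ℕ)}

/-- the group lemma -/
theorem Amb.group (h : Amb P K D T J Q) {Λ d lo y q : ℕ} {F W : Finset ℕ} (hlo : lo ≤ y)
    (hF : ∀ w ∈ F, Λ ^ (y + 2) ∣ w) (hW : ∀ w ∈ W, Λ ^ (y + 2) ∣ w) (hT : Λ ^ (y + 2) ∣ T)
    (hJ : Λ ^ (y + 2) ≤ J) (hq : q + 1 ≤ Λ) (hd : 2 * d + 1 ≤ Λ) (h3 : 3 ≤ Λ)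
    (hP : ∀ p ∈ P, Out Λ lo (y + 2) F p ∨ InW Λ d y q W p.1) :
    cnt (fun p => p.2 = sig Λ d y) (P : Multiset (ℕ × ℕ)) ≤
      ∑ w ∈ W, ∑ κ ∈ Finset.range q, sk Λ d Q y w κ + D + (K + D) * (F.card + W.card) := by
  have hsig := sig_lt (y := y) hd h3
  have hU : 0 < Λ ^ y := by positivity
  have e1 : Λ ^ (y + 1) = Λ * Λ ^ y := by ring
  have e2 : Λ ^ (y + 2) = Λ * Λ ^ (y + 1) := by ring
  have hV : 0 < Λ ^ (y + 1) := by positivity
  have hdU : (d + 1) * Λ ^ y ≤ Λ ^ (y + 1) := by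
    rw [e1]; exact Nat.mul_le_mul_right _ (by omega)
  have hqV : (q + 1) * Λ ^ (y + 1) ≤ Λ ^ (y + 2) := by
    rw [e2]; exact Nat.mul_le_mul_right _ hq
  have hlo' : Λ ^ lo ≤ Λ ^ y := Nat.pow_le_pow_right (by omega) hlo
  have hUV : Λ ^ y ≤ Λ ^ (y + 1) := Nat.pow_le_pow_right (by omega) (by omega)
  have hVY : Λ ^ (y + 1) ≤ Λ ^ (y + 2) := Nat.pow_le_pow_right (by omega) (by omega)
  have hsig' : sig Λ d y = Λ ^ (y + 1) + (d + 1) * Λ ^ y := rfl
  have hFW : ∀ w ∈ F ∪ W, Λ ^ (y + 2) ∣ w := fun w hw => by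
    rcases Finset.mem_union.1 hw with hw | hw
    · exact hF w hw
    · exact hW w hw
  unfold Out InW at hP
  generalize Λ ^ (y + 2) = Y at *
  -- jobs
  have a1 := h.jobGe (fun z => Y ≤ z ∨ z = sig Λ d y) (Or.inl hJ)
  have a2 := cnt_disj (p := fun x : ℕ × ℕ => Y ≤ x.2 ∨ x.2 = sig Λ d y) (p1 := fun x => Y ≤ x.2)
    (p2 := fun x => x.2 = sig Λ d y) (s := (P : Multiset (ℕ × ℕ))) (fun _ _ h => Or.inl h)
    (fun _ _ h => Or.inr h) (fun _ _ h h' => by omega)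
  -- split the hosts
  have a3 := cnt_or (p := fun q : ℕ × ℕ × ℕ => Y ≤ q.2.2 ∨ q.2.2 = sig Λ d y)
    (p1 := fun q => ¬ ∃ w ∈ F ∪ W, w ≤ q.1 ∧ q.1 < w + Y)
    (p2 := fun q => (Y ≤ q.2.2 ∨ q.2.2 = sig Λ d y) ∧ ∃ w ∈ F ∪ W, w ≤ q.1 ∧ q.1 < w + Y) (s := Q)
    fun q _ hq => by
      by_cases hh : ∃ w ∈ F ∪ W, w ≤ q.1 ∧ q.1 < w + Y
      · exact Or.inr ⟨hq, hh⟩
      · exact Or.inl hh
  have a4 := cnt_or
    (p := fun q : ℕ × ℕ × ℕ =>
      (Y ≤ q.2.2 ∨ q.2.2 = sig Λ d y) ∧ ∃ w ∈ F ∪ W, w ≤ q.1 ∧ q.1 < w + Y)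
    (p1 := fun q => ∃ w ∈ F ∪ W, q.1 ≤ w + Y - 1 ∧ w + Y - 1 < q.2.1)
    (p2 := fun q => q.2.2 = sig Λ d y ∧ ∃ w ∈ F ∪ W, w ≤ q.1 ∧ q.2.1 < w + Y) (s := Q)
    fun q hq ⟨h1, w, hw, h2, h3⟩ => by
      have := h.feas q hq
      by_cases hb : q.2.1 < w + Y
      · exact Or.inr ⟨by omega, w, hw, h2, hb⟩
      · exact Or.inl ⟨w, hw, by omega, by omega⟩
  -- starts outside all segments
  have a5 := h.startLe (fun a => ¬ ∃ w ∈ F ∪ W, w ≤ a ∧ a < w + Y)
  have a6 := cnt_imp (p := fun x : ℕ × ℕ => ¬ ∃ w ∈ F ∪ W, w ≤ x.1 ∧ x.1 < w + Y)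
    (p1 := fun x => Y ≤ x.2) (s := (P : Multiset (ℕ × ℕ))) fun p hp hn => by
      rcases hP p hp with (⟨h1, _⟩ | ⟨w, hw, h1, h2⟩) | ⟨w, hw, κ, hκ, ρ, hρ, ht⟩
      · exact h1
      · exact absurd ⟨w, Finset.mem_union_left _ hw, h1, by omega⟩ hn
      · refine absurd ⟨w, Finset.mem_union_right _ hw, by omega, ?_⟩ hn
        have : κ * Λ ^ (y + 1) ≤ q * Λ ^ (y + 1) := Nat.mul_le_mul_right _ hκ
        rw [add_mul, one_mul] at hqV
        omega
  -- crossing triples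
  have a7 := cnt_le_sum (F ∪ W) (fun w (q : ℕ × ℕ × ℕ) => q.1 ≤ w + Y - 1 ∧ w + Y - 1 < q.2.1)
    (p := fun q => ∃ w ∈ F ∪ W, q.1 ≤ w + Y - 1 ∧ w + Y - 1 < q.2.1) (s := Q) fun _ _ hq => hq
  have a8 : ∑ w ∈ F ∪ W, cnt (fun q : ℕ × ℕ × ℕ => q.1 ≤ w + Y - 1 ∧ w + Y - 1 < q.2.1) Q ≤
      (K + D) * (F.card + W.card) := by
    refine (Finset.sum_le_card_nsmul _ _ (K + D) fun w _ => h.cross _).trans ?_
    rw [smul_eq_mul, mul_comm]
    exact Nat.mul_le_mul_left _ (Finset.card_union_le _ _)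
  -- inner triples
  have a9 := cnt_le_sum (W ×ˢ Finset.range q)
    (fun (i : ℕ × ℕ) (q : ℕ × ℕ × ℕ) => q.2.2 = sig Λ d y ∧ q.1 < i.1 + (i.2 + 1) * Λ ^ (y + 1) ∧
      i.1 + (i.2 + 2) * Λ ^ (y + 1) ≤ q.2.1)
    (p := fun q => q.2.2 = sig Λ d y ∧ ∃ w ∈ F ∪ W, w ≤ q.1 ∧ q.2.1 < w + Y) (s := Q)
    fun t ht ⟨h1, w, hw, h2, h3⟩ => by
      have hf := h.feas t ht
      have hw' := hFW w hw
      have hnd : ¬ Y ∣ t.2.1 := fun hd' => by
        have := eq_of_dvd_of_mem hw' hd' (b := t.2.1) (by omega) h3 le_rfl (by omega)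
        omega
      rcases h.endMem ht with hb | ⟨p, hp, hb⟩
      · exact absurd (hb ▸ hT) hnd
      · rcases hP p hp with (⟨_, h4⟩ | ⟨w', hw2, h4, h5⟩) | ⟨w', hw2, κ, hκ, ρ, hρ, htt⟩
        · exact absurd (hb ▸ h4) hnd
        · have := eq_of_dvd_of_mem hw' (hF w' hw2) (b := t.2.1) (by omega) h3 (by omega) (by omega)
          omega
        · have hκ' : κ * Λ ^ (y + 1) ≤ q * Λ ^ (y + 1) := Nat.mul_le_mul_right _ hκ
          rw [add_mul, one_mul] at hqV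
          have := eq_of_dvd_of_mem hw' (hW w' hw2) (b := t.2.1) (by omega) h3 (by omega) (by omega)
          subst this
          have hκ2 : 2 ≤ κ := by
            by_contra hc
            have : κ * Λ ^ (y + 1) ≤ 1 * Λ ^ (y + 1) := Nat.mul_le_mul_right _ (by omega)
            omega
          obtain ⟨κ', rfl⟩ : ∃ κ', κ = κ' + 2 := ⟨κ - 2, by omega⟩
          refine ⟨(w, κ'), Finset.mem_product.2 ⟨hw2, Finset.mem_range.2 (by omega)⟩, h1, ?_, ?_⟩
          · have : (κ' + 2) * Λ ^ (y + 1) = (κ' + 1) * Λ ^ (y + 1) + Λ ^ (y + 1) := by ring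
            simp only
            omega
          · simp only
            omega
  rw [Finset.sum_product] at a9
  dsimp only at a9
  unfold sk
  omega

theorem Amb.span_le (h : Amb P K D T J Q) {Λ : ℕ} (hΛ : 0 < Λ) (w hi : ℕ) :
    span Λ Q w hi ≤ K + D := by
  refine le_trans (cnt_imp fun q _ hq => ?_) (h.cross w)
  have : 0 < Λ ^ hi := by positivity
  omega

end group

theorem span_step {Λ d y w κ w' h' : ℕ} (Q : Multiset (ℕ × ℕ × ℕ)) (hd : 2 * d + 1 ≤ Λ)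
    (h3 : 3 ≤ Λ) (hh : h' ≤ y) (hκ : κ + 2 ≤ Λ) (h1 : w + (κ + 1) * Λ ^ (y + 1) ≤ w')
    (h2 : w' + Λ ^ h' ≤ w + (κ + 2) * Λ ^ (y + 1)) :
    span Λ Q w (y + 2) + sk Λ d Q y w κ ≤ span Λ Q w' h' := by
  have hsig := sig_lt (y := y) hd h3
  have hsig' : sig Λ d y = Λ ^ (y + 1) + (d + 1) * Λ ^ y := rfl
  have e2 : Λ ^ (y + 2) = Λ * Λ ^ (y + 1) := by ring
  have hqV : (κ + 2) * Λ ^ (y + 1) ≤ Λ ^ (y + 2) := by
    rw [e2]; exact Nat.mul_le_mul_right _ hκ
  have hh1 : Λ ^ h' ≤ Λ ^ (y + 1) := Nat.pow_le_pow_right (by omega) (by omega)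
  have hh2 : Λ ^ h' ≤ Λ ^ (y + 2) := Nat.pow_le_pow_right (by omega) (by omega)
  unfold span sk
  refine cnt_disj (fun q _ hq => ?_) (fun q _ hq => ?_) (fun q _ hq hq' => ?_)
  · exact ⟨by omega, by omega, by omega⟩
  · exact ⟨by omega, by omega, by omega⟩
  · omega

end Crest.Agent.T318.C25
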