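import Crest.Agent.T318.NoA_25

/-!
# Row 318, NO side, part B: structure of the blocks
-/

set_option autoImplicit false

namespace Crest.Agent.T318.C25

/-- the block `sub lo b` uses levels `≥ lo` and lies in the window `[b, b + Λ ^ (lo + S))` -/
def SubOK (Λ S : ℕ) (sub : ℕ → ℕ → List (ℕ × ℕ)) : Prop :=
  ∀ lo b, Λ ^ (lo + S) ∣ b → ∀ p ∈ sub lo b,
    Λ ^ lo ≤ p.2 ∧ Λ ^ lo ∣ p.1 ∧ b ≤ p.1 ∧ p.1 < b + Λ ^ (lo + S)

theorem le_sig {Λ : ℕ} (d y : ℕ) : Λ ^ y ≤ sig Λ d y := by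
  unfold sig
  rw [add_mul, one_mul]
  omega

theorem anc_cases {Λ d y w q : ℕ} {sp : ℕ → Bool} {p : ℕ × ℕ} (hp : p ∈ anc Λ d y w q sp) :
    ∃ κ ≤ q, p.1 = w + κ * Λ ^ (y + 1) + d * Λ ^ y ∧ Λ ^ y ≤ p.2 := by
  unfold anc at hp
  obtain ⟨κ, hκ, rfl⟩ := List.mem_map.1 hp
  refine ⟨κ, by simpa [Nat.lt_succ_iff] using hκ, rfl, ?_⟩
  dsimp only
  split_ifs
  · exact le_sig d y
  · exact le_rfl

theorem mem_anc {Λ d y w q κ : ℕ} {sp : ℕ → Bool} (hκ : κ ≤ q) (hs : sp κ = true) :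
    (w + κ * Λ ^ (y + 1) + d * Λ ^ y, sig Λ d y) ∈ anc Λ d y w q sp := by
  unfold anc
  exact List.mem_map.2 ⟨κ, List.mem_range.2 (by omega), by simp [hs]⟩

theorem clu_lt {Λ d y q κ ρ : ℕ} (hκ : κ ≤ q) (hq : q + 1 ≤ Λ) (hρ : ρ < (d + 1) * Λ ^ y)
    (hd : d + 1 ≤ Λ) : κ * Λ ^ (y + 1) + ρ < Λ ^ (y + 2) := by
  have e1 : Λ ^ (y + 1) = Λ * Λ ^ y := by ring
  have e2 : Λ ^ (y + 2) = Λ * Λ ^ (y + 1) := by ring
  have h1 : (d + 1) * Λ ^ y ≤ Λ ^ (y + 1) := by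
    rw [e1]; exact Nat.mul_le_mul_right _ hd
  have h2 : (κ + 1) * Λ ^ (y + 1) ≤ Λ ^ (y + 2) := by
    rw [e2]; exact Nat.mul_le_mul_right _ (by omega)
  rw [add_mul, one_mul] at h2
  omega

theorem idx_le {lo i N S : ℕ} (hi : i < N) : lo + i * S + S ≤ lo + N * S := by
  have : (i + 1) * S ≤ N * S := Nat.mul_le_mul_right _ hi
  rw [add_mul, one_mul] at this
  omega

/-- passing from a group to one of its children -/
theorem ctx_step {Λ lo hi y S N i0 : ℕ} {F F' : Finset ℕ} {P G : List (ℕ × ℕ)}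
    {ch : ℕ → List (ℕ × ℕ)} (hΛ : 0 < Λ) (hP : ∀ p ∈ P, p ∈ G ∨ Out Λ lo hi F p)
    (hG : ∀ p ∈ G, (Λ ^ y ≤ p.2 ∧ Λ ^ y ∣ p.1) ∨ ∃ i < N, p ∈ ch i ∧ Λ ^ (lo + i * S) ≤ p.2 ∧
      Λ ^ (lo + i * S) ∣ p.1 ∧ ∃ w ∈ F', w ≤ p.1 ∧ p.1 < w + Λ ^ (lo + i * S + S))
    (hF : F ⊆ F') (hy : lo + N * S ≤ y) (hyh : y ≤ hi) (hi0 : i0 < N) :
    ∀ p ∈ P, p ∈ ch i0 ∨ Out Λ (lo + i0 * S) (lo + i0 * S + S) F' p := by
  intro p hp
  have h0 := idx_le (lo := lo) (S := S) hi0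
  rcases hP p hp with hg | ho
  · rcases hG p hg with ⟨h1, h2⟩ | ⟨i, hi, hc, h1, h2, w, hw, h3, h4⟩
    · exact Or.inr (Or.inl ⟨(Nat.pow_le_pow_right hΛ (by omega)).trans h1,
        (pow_dvd_pow Λ (by omega)).trans h2⟩)
    · rcases lt_trichotomy i i0 with hlt | rfl | hgt
      · have h5 := idx_le (lo := lo) (S := S) hlt
        have h6 := Nat.pow_le_pow_right hΛ h5
        exact Or.inr (Or.inr ⟨w, hw, h3, by omega⟩)
      · exact Or.inl hc
      · have h5 := idx_le (lo := lo) (S := S) hgt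
        exact Or.inr (Or.inl ⟨(Nat.pow_le_pow_right hΛ h5).trans h1,
          (pow_dvd_pow Λ h5).trans h2⟩)
  · exact Or.inr (ho.mono hΛ (by omega) (by omega) hF)

section edge

variable {n Λ d S q lo w0 st : ℕ} {sub : ℕ → ℕ → List (ℕ × ℕ)} {e : List ℕ}

theorem grpE_cases {p : ℕ × ℕ} (hp : p ∈ grpE n Λ d sub S q lo w0 st e) :
    (∃ v < n, v ∈ e ∧ ∃ κ ≤ q,
      p.1 = w0 + v * st + κ * Λ ^ (lo + n * q * S + 1) + d * Λ ^ (lo + n * q * S) ∧
        Λ ^ (lo + n * q * S) ≤ p.2) ∨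
    ∃ i < n * q, i / q ∈ e ∧
      p ∈ sub (lo + i * S) (w0 + i / q * st + (i % q + 1) * Λ ^ (lo + n * q * S + 1)) := by
  unfold grpE at hp
  rcases List.mem_append.1 hp with hp | hp
  · obtain ⟨v, hv, hp⟩ := List.mem_flatMap.1 hp
    have hv' := List.mem_filter.1 hv
    exact Or.inl ⟨v, List.mem_range.1 hv'.1, by simpa using hv'.2, anc_cases hp⟩
  · obtain ⟨i, hi, hp⟩ := List.mem_flatMap.1 hp
    have hi' := List.mem_filter.1 hi
    exact Or.inr ⟨i, List.mem_range.1 hi'.1, by simpa using hi'.2, hp⟩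

theorem anc_mem_grpE {κ : ℕ} (hv : e.headD 0 < n) (he : e.headD 0 ∈ e) (hκ : κ < q) :
    (w0 + e.headD 0 * st + κ * Λ ^ (lo + n * q * S + 1) + d * Λ ^ (lo + n * q * S),
      sig Λ d (lo + n * q * S)) ∈ grpE n Λ d sub S q lo w0 st e := by
  unfold grpE
  refine List.mem_append_left _ (List.mem_flatMap.2 ⟨e.headD 0, ?_, ?_⟩)
  · exact List.mem_filter.2 ⟨List.mem_range.2 hv, by simpa using he⟩
  · exact mem_anc hκ.le (by simp [hκ])

theorem sub_mem_grpE {i : ℕ} {p : ℕ × ℕ} (hi : i < n * q) (he : i / q ∈ e)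
    (hp : p ∈ sub (lo + i * S) (w0 + i / q * st + (i % q + 1) * Λ ^ (lo + n * q * S + 1))) :
    p ∈ grpE n Λ d sub S q lo w0 st e := by
  unfold grpE
  refine List.mem_append_right _ (List.mem_flatMap.2 ⟨i, ?_, hp⟩)
  exact List.mem_filter.2 ⟨List.mem_range.2 hi, by simpa using he⟩

theorem sub_base_dvd {i : ℕ} (hi : i < n * q) (hw0 : Λ ^ (lo + n * q * S + 2) ∣ w0)
    (hst : Λ ^ (lo + n * q * S + 2) ∣ st) {h : ℕ} (hh : h ≤ lo + n * q * S + 1) :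
    Λ ^ h ∣ w0 + i / q * st + (i % q + 1) * Λ ^ (lo + n * q * S + 1) := by
  have _ := hi
  refine dvd_add (dvd_add ((pow_dvd_pow Λ (by omega)).trans hw0)
    (Dvd.dvd.mul_left ((pow_dvd_pow Λ (by omega)).trans hst) _))
    (Dvd.dvd.mul_left (pow_dvd_pow Λ hh) _)

theorem div_lt_of_lt_mul' {i n q : ℕ} (hi : i < n * q) : i / q < n :=
  Nat.div_lt_of_lt_mul (by rwa [mul_comm] at hi)

theorem mod_lt_of_lt_mul' {i n q : ℕ} (hi : i < n * q) : i % q < q :=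
  Nat.mod_lt _ (Nat.pos_of_ne_zero fun h => by simp [h] at hi)

theorem grpE_props (hΛ : 0 < Λ) (hsub : SubOK Λ S sub) (hw0 : Λ ^ (lo + n * q * S + 2) ∣ w0)
    (hst : Λ ^ (lo + n * q * S + 2) ∣ st) {p : ℕ × ℕ} (hp : p ∈ grpE n Λ d sub S q lo w0 st e) :
    Λ ^ lo ≤ p.2 ∧ Λ ^ lo ∣ p.1 ∧ ∃ v < n, v ∈ e ∧ ∃ κ ≤ q, ∃ ρ < (d + 1) * Λ ^ (lo + n * q * S),
      p.1 = w0 + v * st + κ * Λ ^ (lo + n * q * S + 1) + ρ := by
  have hU : 0 < Λ ^ (lo + n * q * S) := by positivity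
  rcases grpE_cases hp with ⟨v, hv, hve, κ, hκ, h1, h2⟩ | ⟨i, hi, hie, hp⟩
  · refine ⟨(Nat.pow_le_pow_right hΛ (by omega)).trans h2, ?_, v, hv, hve, κ, hκ,
      d * Λ ^ (lo + n * q * S), by rw [add_mul, one_mul]; omega, h1⟩
    rw [h1]
    exact dvd_add (dvd_add (dvd_add ((pow_dvd_pow Λ (by omega)).trans hw0)
      (Dvd.dvd.mul_left ((pow_dvd_pow Λ (by omega)).trans hst) _))
      (Dvd.dvd.mul_left (pow_dvd_pow Λ (by omega)) _))
      (Dvd.dvd.mul_left (pow_dvd_pow Λ (by omega)) _)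
  · have h0 := idx_le (lo := lo) (S := S) hi
    obtain ⟨h1, h2, h3, h4⟩ := hsub _ _ (sub_base_dvd hi hw0 hst (by omega)) p hp
    have h5 := Nat.pow_le_pow_right hΛ h0
    refine ⟨(Nat.pow_le_pow_right hΛ (by omega)).trans h1, (pow_dvd_pow Λ (by omega)).trans h2,
      i / q, div_lt_of_lt_mul' hi, hie, i % q + 1, mod_lt_of_lt_mul' hi,
      p.1 - (w0 + i / q * st + (i % q + 1) * Λ ^ (lo + n * q * S + 1)), ?_, by omega⟩
    rw [add_mul d, one_mul]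
    omega

end edge

section stage

variable {n k Λ S r q lo b : ℕ} {sub : ℕ → ℕ → List (ℕ × ℕ)} {E : List (List ℕ)}

/-- base offset of the edge group number `i` -/
def ew (n m Λ y b i : ℕ) : ℕ := b + (i / m * n + 1) * Λ ^ (y + 1) + i % m * Λ ^ y

theorem stage_cases {p : ℕ × ℕ} (hp : p ∈ stage n E k Λ sub S r q lo b) :
    (∃ κ ≤ r * n, p.1 = b + κ * Λ ^ (lo + r * E.length * (n * q * S + 2) + 1) +
        E.length * Λ ^ (lo + r * E.length * (n * q * S + 2)) ∧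
        Λ ^ (lo + r * E.length * (n * q * S + 2)) ≤ p.2) ∨
    ∃ i < r * E.length, p ∈ grpE n Λ E.length sub S q (lo + i * (n * q * S + 2))
        (ew n E.length Λ (lo + r * E.length * (n * q * S + 2)) b i)
        (Λ ^ (lo + r * E.length * (n * q * S + 2) + 1)) (E.getD (i % E.length) []) := by
  unfold stage at hp
  rcases List.mem_append.1 hp with hp | hp
  · exact Or.inl (anc_cases hp)
  · obtain ⟨i, hi, hp⟩ := List.mem_flatMap.1 hp
    exact Or.inr ⟨i, List.mem_range.1 hi, hp⟩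

theorem anc_mem_stage {κ : ℕ} (hκ : κ < r * n) (hk : κ % n < k) :
    (b + κ * Λ ^ (lo + r * E.length * (n * q * S + 2) + 1) +
        E.length * Λ ^ (lo + r * E.length * (n * q * S + 2)),
      sig Λ E.length (lo + r * E.length * (n * q * S + 2))) ∈ stage n E k Λ sub S r q lo b := by
  unfold stage
  exact List.mem_append_left _ (mem_anc hκ.le (by simp [hκ, hk]))

theorem grpE_mem_stage {i : ℕ} {p : ℕ × ℕ} (hi : i < r * E.length)
    (hp : p ∈ grpE n Λ E.length sub S q (lo + i * (n * q * S + 2))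
        (ew n E.length Λ (lo + r * E.length * (n * q * S + 2)) b i)
        (Λ ^ (lo + r * E.length * (n * q * S + 2) + 1)) (E.getD (i % E.length) [])) :
    p ∈ stage n E k Λ sub S r q lo b := by
  unfold stage
  exact List.mem_append_right _ (List.mem_flatMap.2 ⟨i, List.mem_range.2 hi, hp⟩)

theorem ew_dvd {m y i h : ℕ} (hb : Λ ^ (y + 2) ∣ b) (hh : h ≤ y) : Λ ^ h ∣ ew n m Λ y b i := by
  unfold ew
  exact dvd_add (dvd_add ((pow_dvd_pow Λ (by omega)).trans hb)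
    (Dvd.dvd.mul_left (pow_dvd_pow Λ (by omega)) _)) (Dvd.dvd.mul_left (pow_dvd_pow Λ hh) _)

theorem ew_eq {m y i : ℕ} (v : ℕ) : ew n m Λ y b i + v * Λ ^ (y + 1) =
    b + (i / m * n + v + 1) * Λ ^ (y + 1) + i % m * Λ ^ y := by
  unfold ew
  ring

theorem cv_lt {c v r n : ℕ} (hc : c < r) (hv : v < n) : c * n + v < r * n := by
  have : (c + 1) * n ≤ r * n := Nat.mul_le_mul_right _ hc
  rw [add_mul, one_mul] at this
  omega

/-- the points of an edge group of a stage -/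
theorem stage_grp_props (hsub : SubOK Λ S sub) (hq : q + 1 ≤ Λ) (hd : E.length + 1 ≤ Λ)
    (hb : Λ ^ (lo + r * E.length * (n * q * S + 2) + 2) ∣ b) {i : ℕ} (hi : i < r * E.length)
    {p : ℕ × ℕ}
    (hp : p ∈ grpE n Λ E.length sub S q (lo + i * (n * q * S + 2))
        (ew n E.length Λ (lo + r * E.length * (n * q * S + 2)) b i)
        (Λ ^ (lo + r * E.length * (n * q * S + 2) + 1)) (E.getD (i % E.length) [])) :
    Λ ^ (lo + i * (n * q * S + 2)) ≤ p.2 ∧ Λ ^ (lo + i * (n * q * S + 2)) ∣ p.1 ∧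
      ∃ v < n, ew n E.length Λ (lo + r * E.length * (n * q * S + 2)) b i +
          v * Λ ^ (lo + r * E.length * (n * q * S + 2) + 1) ≤ p.1 ∧
        p.1 < ew n E.length Λ (lo + r * E.length * (n * q * S + 2)) b i +
          v * Λ ^ (lo + r * E.length * (n * q * S + 2) + 1) +
          Λ ^ (lo + i * (n * q * S + 2) + (n * q * S + 2)) := by
  have h0 := idx_le (lo := lo) (S := n * q * S + 2) hi
  obtain ⟨h1, h2, v, hv, -, κ, hκ, ρ, hρ, h3⟩ := grpE_props (by omega) hsub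
    (ew_dvd hb (by omega)) (pow_dvd_pow Λ (by omega)) hp
  have h4 := clu_lt hκ hq hρ hd
  refine ⟨h1, h2, v, hv, by omega, ?_⟩
  rw [← add_assoc]
  omega

theorem stage_props (hsub : SubOK Λ S sub) (hq : q + 1 ≤ Λ) (hd : E.length + 1 ≤ Λ)
    (hb : Λ ^ (lo + r * E.length * (n * q * S + 2) + 2) ∣ b) {p : ℕ × ℕ}
    (hp : p ∈ stage n E k Λ sub S r q lo b) :
    Λ ^ lo ≤ p.2 ∧ Λ ^ lo ∣ p.1 ∧
      ∃ κ ≤ r * n, ∃ ρ < (E.length + 1) * Λ ^ (lo + r * E.length * (n * q * S + 2)),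
        p.1 = b + κ * Λ ^ (lo + r * E.length * (n * q * S + 2) + 1) + ρ := by
  have hΛ : 0 < Λ := by omega
  have hU : 0 < Λ ^ (lo + r * E.length * (n * q * S + 2)) := by positivity
  rcases stage_cases hp with ⟨κ, hκ, h1, h2⟩ | ⟨i, hi, hp⟩
  · refine ⟨(Nat.pow_le_pow_right hΛ (by omega)).trans h2, ?_, κ, hκ,
      E.length * Λ ^ (lo + r * E.length * (n * q * S + 2)), by rw [add_mul, one_mul]; omega, h1⟩
    rw [h1]
    exact dvd_add (dvd_add ((pow_dvd_pow Λ (by omega)).trans hb)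
      (Dvd.dvd.mul_left (pow_dvd_pow Λ (by omega)) _))
      (Dvd.dvd.mul_left (pow_dvd_pow Λ (by omega)) _)
  · have h0 := idx_le (lo := lo) (S := n * q * S + 2) hi
    obtain ⟨h1, h2, v, hv, h3, h4⟩ := stage_grp_props hsub hq hd hb hi hp
    have h5 := Nat.pow_le_pow_right hΛ h0
    rw [ew_eq] at h3 h4
    have h6 : i % E.length + 1 ≤ E.length + 1 := by
      have := mod_lt_of_lt_mul' hi
      omega
    have h7 := Nat.mul_le_mul_right (Λ ^ (lo + r * E.length * (n * q * S + 2))) h6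
    have h8 := cv_lt (div_lt_of_lt_mul' hi) hv
    refine ⟨(Nat.pow_le_pow_right hΛ (by omega)).trans h1, (pow_dvd_pow Λ (by omega)).trans h2,
      i / E.length * n + v + 1, h8,
      p.1 - (b + (i / E.length * n + v + 1) * Λ ^ (lo + r * E.length * (n * q * S + 2) + 1)),
      ?_, by omega⟩
    rw [add_mul, one_mul] at h7
    omega

theorem stage_subOK (hsub : SubOK Λ S sub) (hq : q + 1 ≤ Λ) (hd : E.length + 1 ≤ Λ)
    (hr : r * n + 1 ≤ Λ) :
    SubOK Λ (r * E.length * (n * q * S + 2) + 2) (stage n E k Λ sub S r q) := by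
  intro lo b hb p hp
  rw [← add_assoc] at hb ⊢
  obtain ⟨h1, h2, κ, hκ, ρ, hρ, h3⟩ := stage_props hsub hq hd hb hp
  have h4 := clu_lt hκ hr hρ hd
  exact ⟨h1, h2, by omega, by omega⟩

end stage

end Crest.Agent.T318.C25
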