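import Mathlib

/-!
# Row 318: interface between the combinatorial core and the bin-packing statements (helper21)

An instance consists of three lists of natural numbers: starts `A`, ends `E`, jobs `Z`.
A triple `q = (a, b, z)` (start, end, job) is feasible when `a + z ≤ b`.
-/

set_option autoImplicit false

namespace Crest.Agent.T318

/-- all triples `(a, b, z)` of `Q` satisfy `a + z ≤ b` -/
def Feas (Q : Multiset (ℕ × ℕ × ℕ)) : Prop := ∀ q ∈ Q, q.1 + q.2.2 ≤ q.2.1

/-- the `m`-fold instance has a perfect matching into feasible triples -/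
def MYes (m : ℕ) (A E Z : List ℕ) : Prop :=
  ∃ Q : Multiset (ℕ × ℕ × ℕ), Feas Q ∧
    Q.map (fun q => q.1) = m • (A : Multiset ℕ) ∧
    Q.map (fun q => q.2.1) = m • (E : Multiset ℕ) ∧
    Q.map (fun q => q.2.2) = m • (Z : Multiset ℕ)

/-- the instance has a matching into feasible triples that misses at most `D` starts -/
def Near (D : ℕ) (A E Z : List ℕ) : Prop :=
  ∃ Q : Multiset (ℕ × ℕ × ℕ), Feas Q ∧
    Q.map (fun q => q.1) ≤ (A : Multiset ℕ) ∧
    Q.map (fun q => q.2.1) ≤ (E : Multiset ℕ) ∧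
    Q.map (fun q => q.2.2) ≤ (Z : Multiset ℕ) ∧
    A.length ≤ Q.card + D

/-- the core needed for S0492 -/
def CoreGap : Prop :=
  ∀ D : ℕ, ∃ (m : ℕ) (A E Z : List ℕ), 0 < m ∧ E.length = A.length ∧ Z.length = A.length ∧
    MYes m A E Z ∧ ¬ Near D A E Z

end Crest.Agent.T318
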