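import Crest.Agent.T318.PackDefs_21
import Crest.Prelude.Def_BinPacking

/-!
# Row 318: from three-class matchings to bin packing (helper21)

Sizes: start `a ↦ 11/20 + a/(100 T)`, end `b ↦ 1/4 - b/(100 T)`, job `z ↦ 1/5 + z/(100 T)`.
-/

set_option autoImplicit false

namespace Crest.Agent.T318.Pack21

open Crest.BinPacking Finset

/-! ### the multiset of values of a family -/

/-- the multiset of values of a finite family -/
def img {ι α : Type*} [Fintype ι] (a : ι → α) : Multiset α := (univ : Finset ι).val.map a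

theorem img_eq_sum {ι α : Type*} [Fintype ι] (a : ι → α) :
    img a = ∑ i, ({a i} : Multiset α) := by
  unfold img
  rw [Finset.sum, ← Multiset.sum_map_singleton (univ.val.map a), Multiset.map_map]
  rfl

theorem img_get {α : Type*} (l : List α) : img (fun i : Fin l.length => l.get i) = (l : Multiset α) := by
  unfold img
  rw [Fin.univ_val_map]
  congr 1
  exact List.ofFn_get l

theorem img_comp {ι α β : Type*} [Fintype ι] (a : ι → α) (f : α → β) :
    img (fun i => f (a i)) = (img a).map f := by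
  unfold img
  rw [Multiset.map_map]
  rfl

theorem img_sum {ι κ α : Type*} [Fintype ι] [Fintype κ] (a : ι → α) (b : κ → α) :
    img (Sum.elim a b) = img a + img b := by
  simp only [img_eq_sum, Fintype.sum_sum_type, Sum.elim_inl, Sum.elim_inr]

theorem card_img {ι α : Type*} [Fintype ι] (a : ι → α) :
    Multiset.card (img a) = Fintype.card ι := by
  unfold img
  rw [Multiset.card_map]
  rfl

theorem img_comp_le {ι κ α : Type*} [Fintype ι] [Fintype κ] (a : κ → α) (f : ι → κ)
    (hf : Function.Injective f) : img (fun i => a (f i)) ≤ img a := by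
  have h1 : img (fun i => a (f i)) = ((univ : Finset ι).map ⟨f, hf⟩).val.map a := by
    unfold img
    rw [Finset.map_val, Multiset.map_map]
    rfl
  rw [h1]
  exact Multiset.map_le_map (Finset.val_le_iff.2 (subset_univ _))

theorem count_img {ι α : Type*} [Fintype ι] [DecidableEq α] (a : ι → α) (x : α) :
    (img a).count x = Fintype.card {i // a i = x} := by
  unfold img
  rw [Multiset.count_map, Fintype.card_subtype]
  change Multiset.card _ = Multiset.card _
  congr 1
  rw [Finset.filter_val]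
  congr 1
  funext i
  exact propext eq_comm

theorem exists_equiv_of_img_eq {ι κ α : Type*} [Fintype ι] [Fintype κ] (a : ι → α) (b : κ → α)
    (h : img a = img b) : ∃ e : ι ≃ κ, ∀ i, b (e i) = a i := by
  classical
  have hc : ∀ x, Fintype.card {i // a i = x} = Fintype.card {k // b k = x} := fun x =>
    (count_img a x).symm.trans (h ▸ count_img b x)
  exact ⟨Equiv.ofFiberEquiv (fun x => Fintype.equivOfCardEq (hc x)),
    fun i => Equiv.ofFiberEquiv_map _ i⟩

theorem packsInto_of_img_eq {ι κ : Type*} [Fintype ι] [Fintype κ] {a : ι → ℚ} {b : κ → ℚ}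
    (h : img a = img b) {N : ℕ} (hb : PacksInto b N) : PacksInto a N := by
  classical
  obtain ⟨e, he⟩ := exists_equiv_of_img_eq a b h
  obtain ⟨g, hg⟩ := hb
  refine ⟨fun i => g (e i), fun β => le_of_eq_of_le ?_ (hg β)⟩
  refine Finset.sum_equiv e (fun i => by simp) (fun i _ => (he i).symm)

/-! ### the sizes -/

/-- size of a start -/
def sA (T a : ℕ) : ℚ := 11 / 20 + (a : ℚ) / (100 * T)
/-- size of an end -/
def sE (T b : ℕ) : ℚ := 1 / 4 - (b : ℚ) / (100 * T)
/-- size of a job -/
def sZ (T z : ℕ) : ℚ := 1 / 5 + (z : ℚ) / (100 * T)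

theorem frac_bounds {T a : ℕ} (hT : 0 < T) (ha : a ≤ T) :
    0 ≤ (a : ℚ) / (100 * T) ∧ (a : ℚ) / (100 * T) ≤ 1 / 100 := by
  have h1 : (0 : ℚ) < T := by exact_mod_cast hT
  have h2 : (a : ℚ) ≤ T := by exact_mod_cast ha
  refine ⟨by positivity, ?_⟩
  rw [div_le_div_iff₀ (by positivity) (by norm_num)]
  linarith

theorem sA_bounds {T a : ℕ} (hT : 0 < T) (ha : a ≤ T) : 55 / 100 ≤ sA T a ∧ sA T a ≤ 56 / 100 := by
  have := frac_bounds hT ha
  unfold sA
  constructor <;> linarith

theorem sE_bounds {T a : ℕ} (hT : 0 < T) (ha : a ≤ T) : 24 / 100 ≤ sE T a ∧ sE T a ≤ 25 / 100 := by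
  have := frac_bounds hT ha
  unfold sE
  constructor <;> linarith

theorem sZ_bounds {T a : ℕ} (hT : 0 < T) (ha : a ≤ T) : 20 / 100 ≤ sZ T a ∧ sZ T a ≤ 21 / 100 := by
  have := frac_bounds hT ha
  unfold sZ
  constructor <;> linarith

theorem fit_iff {T : ℕ} (hT : 0 < T) (a b z : ℕ) :
    sA T a + sE T b + sZ T z ≤ 1 ↔ a + z ≤ b := by
  have h1 : (0 : ℚ) < T := by exact_mod_cast hT
  have h2 : sA T a + sE T b + sZ T z = 1 + (((a : ℚ) + z) - b) / (100 * T) := by
    unfold sA sE sZ
    ring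
  rw [h2, add_le_iff_nonpos_right, div_nonpos_iff]
  constructor
  · rintro (⟨_, h⟩ | ⟨h, _⟩)
    · exfalso
      nlinarith
    · have : ((a + z : ℕ) : ℚ) ≤ b := by push_cast; linarith
      exact_mod_cast this
  · intro h
    have : ((a + z : ℕ) : ℚ) ≤ b := by exact_mod_cast h
    push_cast at this
    exact Or.inr ⟨by linarith, by positivity⟩

/-- the bound on all entries -/
def bnd (A E Z : List ℕ) : ℕ := A.sum + E.sum + Z.sum + 1

/-- the list of item sizes -/
def sizes (A E Z : List ℕ) : List ℚ :=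
  A.map (sA (bnd A E Z)) ++ (E.map (sE (bnd A E Z)) ++ Z.map (sZ (bnd A E Z)))

theorem bnd_pos (A E Z : List ℕ) : 0 < bnd A E Z := Nat.succ_pos _

theorem le_bnd_A {A E Z : List ℕ} {a : ℕ} (h : a ∈ A) : a ≤ bnd A E Z := by
  have := List.le_sum_of_mem h
  unfold bnd; omega

theorem le_bnd_E {A E Z : List ℕ} {a : ℕ} (h : a ∈ E) : a ≤ bnd A E Z := by
  have := List.le_sum_of_mem h
  unfold bnd; omega

theorem le_bnd_Z {A E Z : List ℕ} {a : ℕ} (h : a ∈ Z) : a ≤ bnd A E Z := by
  have := List.le_sum_of_mem h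
  unfold bnd; omega

theorem sizes_range {A E Z : List ℕ} {s : ℚ} (h : s ∈ sizes A E Z) : 1 / 6 < s ∧ s ≤ 1 := by
  unfold sizes at h
  simp only [List.mem_append, List.mem_map] at h
  rcases h with ⟨a, ha, rfl⟩ | ⟨a, ha, rfl⟩ | ⟨a, ha, rfl⟩
  · have := sA_bounds (bnd_pos A E Z) (le_bnd_A ha); constructor <;> linarith
  · have := sE_bounds (bnd_pos A E Z) (le_bnd_E ha); constructor <;> linarith
  · have := sZ_bounds (bnd_pos A E Z) (le_bnd_Z ha); constructor <;> linarith

theorem coe_sizes (A E Z : List ℕ) : (sizes A E Z : Multiset ℚ) =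
    (A : Multiset ℕ).map (sA (bnd A E Z)) + ((E : Multiset ℕ).map (sE (bnd A E Z)) +
      (Z : Multiset ℕ).map (sZ (bnd A E Z))) := by
  unfold sizes
  simp only [Multiset.map_coe, Multiset.coe_add]

/-! ### NO direction: a packing in few bins gives a near-perfect matching -/

theorem count_ineq (n1 n2 n3 : ℕ) (h : 55 * n1 + 24 * n2 + 20 * n3 ≤ 100) :
    6 * n1 + 2 * n2 + n3 ≤ 8 + (if 0 < n1 ∧ 0 < n2 ∧ 0 < n3 then 1 else 0) := by
  split_ifs with h1 <;> omega

theorem near_of_packs_aux {ιA ιE ιZ : Type} [Fintype ιA] [Fintype ιE] [Fintype ιZ]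
    (a : ιA → ℕ) (b : ιE → ℕ) (z : ιZ → ℕ) {T : ℕ} (hT : 0 < T) (ha : ∀ i, a i ≤ T)
    (hb : ∀ i, b i ≤ T) (hz : ∀ i, z i ≤ T) (B c : ℕ) (hA : Fintype.card ιA = B)
    (hE : Fintype.card ιE = B) (hZ : Fintype.card ιZ = B)
    (h : PacksInto (Sum.elim (fun i => sA T (a i))
      (Sum.elim (fun i => sE T (b i)) (fun i => sZ T (z i)))) (B + c)) :
    ∃ Q : Multiset (ℕ × ℕ × ℕ), Feas Q ∧ Q.map (fun q => q.1) ≤ img a ∧
      Q.map (fun q => q.2.1) ≤ img b ∧ Q.map (fun q => q.2.2) ≤ img z ∧
      B ≤ Q.card + 8 * c := by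
  classical
  obtain ⟨g, hg⟩ := h
  let FA : Fin (B + c) → Finset ιA := fun β => univ.filter fun i => g (Sum.inl i) = β
  let FE : Fin (B + c) → Finset ιE := fun β => univ.filter fun i => g (Sum.inr (Sum.inl i)) = β
  let FZ : Fin (B + c) → Finset ιZ := fun β => univ.filter fun i => g (Sum.inr (Sum.inr i)) = β
  have hsum : ∀ β, ∑ i ∈ FA β, sA T (a i) + ∑ i ∈ FE β, sE T (b i) + ∑ i ∈ FZ β, sZ T (z i) ≤ 1 := by
    intro β
    have := hg β
    rw [Finset.sum_filter, Fintype.sum_sum_type, Fintype.sum_sum_type] at this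
    simp only [Sum.elim_inl, Sum.elim_inr] at this
    simp only [FA, FE, FZ, Finset.sum_filter]
    linarith
  have lA : ∀ s : Finset ιA, (s.card : ℚ) * (55 / 100) ≤ ∑ i ∈ s, sA T (a i) := fun s => by
    have := Finset.card_nsmul_le_sum s (fun i => sA T (a i)) (55 / 100)
      (fun i _ => (sA_bounds hT (ha i)).1)
    simpa [nsmul_eq_mul] using this
  have lE : ∀ s : Finset ιE, (s.card : ℚ) * (24 / 100) ≤ ∑ i ∈ s, sE T (b i) := fun s => by
    have := Finset.card_nsmul_le_sum s (fun i => sE T (b i)) (24 / 100)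
      (fun i _ => (sE_bounds hT (hb i)).1)
    simpa [nsmul_eq_mul] using this
  have lZ : ∀ s : Finset ιZ, (s.card : ℚ) * (20 / 100) ≤ ∑ i ∈ s, sZ T (z i) := fun s => by
    have := Finset.card_nsmul_le_sum s (fun i => sZ T (z i)) (20 / 100)
      (fun i _ => (sZ_bounds hT (hz i)).1)
    simpa [nsmul_eq_mul] using this
  have hcnt : ∀ β, 55 * (FA β).card + 24 * (FE β).card + 20 * (FZ β).card ≤ 100 := by
    intro β
    have h1 := hsum β
    have h2 := lA (FA β)
    have h3 := lE (FE β)
    have h4 := lZ (FZ β)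
    have : ((55 * (FA β).card + 24 * (FE β).card + 20 * (FZ β).card : ℕ) : ℚ) ≤ 100 := by
      push_cast; linarith
    exact_mod_cast this
  let N : Fin (B + c) → Prop := fun β => 0 < (FA β).card ∧ 0 < (FE β).card ∧ 0 < (FZ β).card
  have eA : ∀ β : {β // N β}, ∃ i, i ∈ FA β.1 := fun β => Finset.card_pos.1 β.2.1
  have eE : ∀ β : {β // N β}, ∃ i, i ∈ FE β.1 := fun β => Finset.card_pos.1 β.2.2.1
  have eZ : ∀ β : {β // N β}, ∃ i, i ∈ FZ β.1 := fun β => Finset.card_pos.1 β.2.2.2
  choose iA hiA using eA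
  choose iE hiE using eE
  choose iZ hiZ using eZ
  have gA : ∀ β, g (Sum.inl (iA β)) = β.1 := fun β => (Finset.mem_filter.1 (hiA β)).2
  have gE : ∀ β, g (Sum.inr (Sum.inl (iE β))) = β.1 := fun β => (Finset.mem_filter.1 (hiE β)).2
  have gZ : ∀ β, g (Sum.inr (Sum.inr (iZ β))) = β.1 := fun β => (Finset.mem_filter.1 (hiZ β)).2
  refine ⟨img fun β : {β // N β} => (a (iA β), b (iE β), z (iZ β)), ?_, ?_, ?_, ?_, ?_⟩
  · intro q hq
    obtain ⟨β, -, rfl⟩ := Multiset.mem_map.1 hq
    refine (fit_iff hT _ _ _).1 (le_trans ?_ (hsum β.1))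
    have h1 : sA T (a (iA β)) ≤ ∑ i ∈ FA β.1, sA T (a i) :=
      Finset.single_le_sum (f := fun i => sA T (a i))
        (fun i _ => by have := (sA_bounds hT (ha i)).1; linarith) (hiA β)
    have h2 : sE T (b (iE β)) ≤ ∑ i ∈ FE β.1, sE T (b i) :=
      Finset.single_le_sum (f := fun i => sE T (b i))
        (fun i _ => by have := (sE_bounds hT (hb i)).1; linarith) (hiE β)
    have h3 : sZ T (z (iZ β)) ≤ ∑ i ∈ FZ β.1, sZ T (z i) :=
      Finset.single_le_sum (f := fun i => sZ T (z i))
        (fun i _ => by have := (sZ_bounds hT (hz i)).1; linarith) (hiZ β)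
    linarith
  · rw [← img_comp]
    exact img_comp_le a iA fun β β' h => Subtype.ext (by rw [← gA β, ← gA β', h])
  · rw [← img_comp]
    exact img_comp_le b iE fun β β' h => Subtype.ext (by rw [← gE β, ← gE β', h])
  · rw [← img_comp]
    exact img_comp_le z iZ fun β β' h => Subtype.ext (by rw [← gZ β, ← gZ β', h])
  · rw [card_img, Fintype.card_subtype]
    have sA' : ∑ β, (FA β).card = B := by
      exact (Finset.card_eq_sum_card_fiberwise (f := fun i => g (Sum.inl i))
        (fun _ _ => Finset.mem_coe.2 (mem_univ _))).symm.trans hA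
    have sE' : ∑ β, (FE β).card = B := by
      exact (Finset.card_eq_sum_card_fiberwise (f := fun i => g (Sum.inr (Sum.inl i)))
        (fun _ _ => Finset.mem_coe.2 (mem_univ _))).symm.trans hE
    have sZ' : ∑ β, (FZ β).card = B := by
      exact (Finset.card_eq_sum_card_fiberwise (f := fun i => g (Sum.inr (Sum.inr i)))
        (fun _ _ => Finset.mem_coe.2 (mem_univ _))).symm.trans hZ
    have key := Finset.sum_le_sum (s := (univ : Finset (Fin (B + c))))
      fun β _ => count_ineq _ _ _ (hcnt β)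
    rw [Finset.sum_add_distrib, Finset.sum_add_distrib, ← Finset.mul_sum, ← Finset.mul_sum,
      sA', sE', sZ', Finset.sum_add_distrib, ← Finset.card_filter] at key
    simp only [Finset.sum_const, Finset.card_univ, Fintype.card_fin, smul_eq_mul] at key
    have key2 : 6 * B + 2 * B + B ≤ (B + c) * 8 + (univ.filter N).card := by
      convert key
    have key3 : B ≤ (univ.filter N).card + 8 * c := by omega
    convert key3

theorem near_of_packs {ι : Type*} [Fintype ι] {A E Z : List ℕ} (hE : E.length = A.length)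
    (hZ : Z.length = A.length) (s : ι → ℚ) (hs : img s = (sizes A E Z : Multiset ℚ)) (c : ℕ)
    (h : PacksInto s (A.length + c)) : Near (8 * c) A E Z := by
  have h1 : img (Sum.elim (fun i : Fin A.length => sA (bnd A E Z) (A.get i))
      (Sum.elim (fun i : Fin E.length => sE (bnd A E Z) (E.get i))
        (fun i : Fin Z.length => sZ (bnd A E Z) (Z.get i)))) = img s := by
    rw [hs, coe_sizes, img_sum, img_sum, img_comp (fun i : Fin A.length => A.get i),
      img_comp (fun i : Fin E.length => E.get i), img_comp (fun i : Fin Z.length => Z.get i),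
      img_get, img_get, img_get]
  obtain ⟨Q, h2, h3, h4, h5, h6⟩ := near_of_packs_aux (fun i : Fin A.length => A.get i)
    (fun i : Fin E.length => E.get i) (fun i : Fin Z.length => Z.get i) (bnd_pos A E Z)
    (fun i => le_bnd_A (List.get_mem _ _)) (fun i => le_bnd_E (List.get_mem _ _))
    (fun i => le_bnd_Z (List.get_mem _ _)) A.length c (by simp) (by simp [hE]) (by simp [hZ])
    (packsInto_of_img_eq h1 h)
  rw [img_get] at h3 h4 h5
  exact ⟨Q, h2, h3, h4, h5, h6⟩

/-! ### YES direction: the bins of an `m`-fold matching -/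

/-- an `m`-fold matching as a table of `m * |A|` bins with three slots -/
theorem exists_table {m : ℕ} {A E Z : List ℕ} (h : MYes m A E Z) :
    ∃ v : Fin (m * A.length) → Fin 3 → ℚ,
      img (fun p : Fin (m * A.length) × Fin 3 => v p.1 p.2) = m • (sizes A E Z : Multiset ℚ) ∧
      (∀ i, Function.Injective (v i)) ∧ (∀ i, ∑ t, v i t ≤ 1) := by
  obtain ⟨Q, hF, hA, hE, hZ⟩ := h
  have hc : Q.toList.length = m * A.length := by
    have := congrArg Multiset.card hA
    simpa using this
  let T := bnd A E Z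
  let q : Fin (m * A.length) → ℕ × ℕ × ℕ := fun i => Q.toList.get (i.cast hc.symm)
  have hq : img q = Q := by
    have h1 := img_get Q.toList
    rw [Multiset.coe_toList] at h1
    rw [← h1, img_eq_sum, img_eq_sum]
    exact Fintype.sum_equiv (finCongr hc.symm) _ _ fun i => rfl
  have hqm : ∀ i, q i ∈ Q := fun i => Multiset.mem_toList.1 (List.get_mem _ _)
  have mA : ∀ i, (q i).1 ≤ T := fun i => by
    have : (q i).1 ∈ Q.map (fun q => q.1) := Multiset.mem_map_of_mem _ (hqm i)
    rw [hA] at this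
    exact le_bnd_A (Multiset.mem_coe.1 (Multiset.mem_of_mem_nsmul this))
  have mE : ∀ i, (q i).2.1 ≤ T := fun i => by
    have : (q i).2.1 ∈ Q.map (fun q => q.2.1) := Multiset.mem_map_of_mem _ (hqm i)
    rw [hE] at this
    exact le_bnd_E (Multiset.mem_coe.1 (Multiset.mem_of_mem_nsmul this))
  have mZ : ∀ i, (q i).2.2 ≤ T := fun i => by
    have : (q i).2.2 ∈ Q.map (fun q => q.2.2) := Multiset.mem_map_of_mem _ (hqm i)
    rw [hZ] at this
    exact le_bnd_Z (Multiset.mem_coe.1 (Multiset.mem_of_mem_nsmul this))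
  have hT : 0 < T := bnd_pos A E Z
  refine ⟨fun i => ![sA T (q i).1, sE T (q i).2.1, sZ T (q i).2.2], ?_, ?_, ?_⟩
  · rw [coe_sizes, smul_add, smul_add, ← Multiset.map_nsmul, ← Multiset.map_nsmul,
      ← Multiset.map_nsmul, ← hA, ← hE, ← hZ, ← hq, ← img_comp, ← img_comp, ← img_comp,
      ← img_comp, ← img_comp, ← img_comp]
    simp only [img_eq_sum, Fintype.sum_prod_type, Fin.sum_univ_three, Finset.sum_add_distrib]
    simp [add_assoc, T]
  · intro i
    have h1 := sA_bounds hT (mA i)
    have h2 := sE_bounds hT (mE i)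
    have h3 := sZ_bounds hT (mZ i)
    intro t t' h
    fin_cases t <;> fin_cases t' <;> simp at h ⊢ <;> linarith
  · intro i
    rw [Fin.sum_univ_three]
    simpa using (fit_iff hT _ _ _).2 (hF _ (hqm i))

theorem packs_of_myes {ι : Type*} [Fintype ι] {A E Z : List ℕ} (h : MYes 1 A E Z) (s : ι → ℚ)
    (hs : img s = (sizes A E Z : Multiset ℚ)) : PacksInto s A.length := by
  classical
  obtain ⟨v, h1, -, h3⟩ := exists_table h
  rw [one_smul, ← hs] at h1
  refine packsInto_of_img_eq h1.symm ⟨fun p => p.1.cast (one_mul _), fun β => ?_⟩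
  refine le_of_eq_of_le ?_ (h3 (β.cast (one_mul _).symm))
  rw [Finset.sum_filter, Fintype.sum_prod_type, Finset.sum_eq_single (β.cast (one_mul _).symm)]
  · simp
  · intro i _ hi
    refine Finset.sum_eq_zero fun t _ => if_neg fun h => hi ?_
    rw [← h]; rfl
  · simp

end Crest.Agent.T318.Pack21
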