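import Crest.Agent.T318.Flat_17

/-!
# The tableau formula of a flat machine (Cook–Levin)

Only forward implications are written down: the variables of the true computation are forced to be
true, and the last row excludes the rejecting symbols.
-/

set_option autoImplicit false

namespace Crest.Agent.T318.CL

open Crest.Agent.Lib.PT

/-- code of a cell content -/
def cv : Option Bool → ℕ
  | none => 0
  | some false => 1
  | some true => 2

theorem cv_inj {a b : Option Bool} (h : cv a = cv b) : a = b := by
  rcases a with _ | _ | _ <;> rcases b with _ | _ | _ <;> simp_all [cv]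

theorem cv_le (a : Option Bool) : cv a ≤ 2 := by
  rcases a with _ | _ | _ <;> simp [cv]

/-- number of a variable -/
def vr (B t k i v : ℕ) : ℕ := ((t * B + k) * B + i) * B + v

theorem vr_lt {B t k i v : ℕ} (ht : t < B) (hk : k < B) (hi : i < B) (hv : v < B) :
    vr B t k i v < B * B * B * B := by
  unfold vr
  have h1 : t * B + k + 1 ≤ B * B := by nlinarith
  have h2 : (t * B + k) * B + i + 1 ≤ B * B * B := by nlinarith
  nlinarith

theorem vr_dec {B t k i v : ℕ} (hk : k < B) (hi : i < B) (hv : v < B) :
    vr B t k i v / B / B / B = t ∧ vr B t k i v / B / B % B = k ∧ vr B t k i v / B % B = i ∧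
      vr B t k i v % B = v := by
  have hB : 0 < B := by omega
  have e : ∀ a r : ℕ, r < B → (a * B + r) / B = a ∧ (a * B + r) % B = r := by
    intro a r hr
    constructor
    · rw [add_comm, Nat.add_mul_div_right _ _ hB, Nat.div_eq_of_lt hr, zero_add]
    · rw [add_comm, Nat.add_mul_mod_self_right, Nat.mod_eq_of_lt hr]
  unfold vr
  rw [(e _ v hv).1, (e _ v hv).2, (e _ i hi).1, (e _ i hi).2, (e _ k hk).1, (e _ k hk).2]
  exact ⟨rfl, rfl, rfl, rfl⟩

/-- clauses: a literal `(v, b)` holds when variable `v` has the value `b` -/
abbrev Cl : Type := List (ℕ × Bool)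

/-- satisfaction of a list of clauses -/
def Sat (σ : ℕ → Bool) (F : List Cl) : Prop := ∀ c ∈ F, ∃ l ∈ c, σ l.1 = l.2

/-- the three cell contents -/
def vals : List (Option Bool) := [none, some false, some true]

theorem mem_vals (v : Option Bool) : v ∈ vals := by
  rcases v with _ | _ | _ <;> simp [vals]

/-- cell variable -/
def cel (B t k i : ℕ) (v : Option Bool) : ℕ := vr B t k i (cv v)

section

variable {Λ : Type} (M : Λ → Ins Λ) (ι : Λ → ℕ) (K : ℕ) (Ls : List Λ) (l₀ : Λ)

/-- label variable -/
def lab (B t : ℕ) (l : Λ) : ℕ := vr B t (K + 1) 0 (ι l)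

/-- the action of label `l` on stack `k` -/
def eff (l : Λ) (k : ℕ) : Act := if k = (M l).k then (M l).act else .keep

theorem fstep_snd (p : Λ × Store) (k : ℕ) : (fstep M p).2 k = (eff M p.1 k).app (p.2 k) := by
  unfold fstep eff
  by_cases h : k = (M p.1).k
  · subst h; simp
  · simp [h, Act.app]

/-- clauses moving the cells -/
def cellCl (B t : ℕ) (l : Λ) (k i : ℕ) (v : Option Bool) : Act → List Cl
  | .keep => [[(lab ι K B t l, false), (cel B t k i v, false), (cel B (t + 1) k i v, true)]]
  | .pop => [[(lab ι K B t l, false), (cel B t k (i + 1) v, false), (cel B (t + 1) k i v, true)]]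
  | .push b => [[(lab ι K B t l, false), (cel B (t + 1) k 0 (some b), true)],
      [(lab ι K B t l, false), (cel B t k i v, false), (cel B (t + 1) k (i + 1) v, true)]]

/-- clauses of one step at one label -/
def transCl (B S t : ℕ) (l : Λ) : List Cl :=
  vals.flatMap (fun v => [[(lab ι K B t l, false), (cel B t (M l).k 0 v, false),
      (lab ι K B (t + 1) ((M l).nx v), true)]]) ++
    (List.range (K + 1)).flatMap (fun k => vals.flatMap (fun v =>
      (List.range S).flatMap (fun i => cellCl ι K B t l k i v (eff M l k))))

/-- clauses of the first row -/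
def initCl (B S : ℕ) (z : List Bool) (m : ℕ) : List Cl :=
  [[(lab ι K B 0 l₀, true)]] ++
    ((List.range z.length).zip z).map (fun p => [(vr B 0 0 p.1 (bif p.2 then 2 else 1), true)]) ++
    (List.range m).map (fun j => [(cel B 0 0 (z.length + j) (some false), true),
      (cel B 0 0 (z.length + j) (some true), true)]) ++
    (List.range S).map (fun j => [(cel B 0 0 (z.length + m + j) none, true)]) ++
    (List.range K).flatMap (fun k => (List.range S).map (fun i => [(cel B 0 (k + 1) i none, true)]))

/-- clauses of the last row -/
def finCl (B T : ℕ) : List Cl := [[(cel B T 0 0 none, false)], [(cel B T 0 0 (some false), false)]]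

/-- the tableau formula -/
def form (B T : ℕ) (z : List Bool) (m : ℕ) : List Cl :=
  initCl ι K l₀ B (T + 1) z m ++
    (List.range T).flatMap (fun t => Ls.flatMap (fun l => transCl M ι K B (T + 1) t l)) ++ finCl B T

theorem cv_some (b : Bool) : (bif b then 2 else 1) = cv (some b) := by cases b <;> rfl

theorem mem_zip_range {z : List Bool} {p : ℕ × Bool} :
    p ∈ (List.range z.length).zip z ↔ z[p.1]? = some p.2 := by
  constructor
  · intro h
    obtain ⟨i, hi, rfl⟩ := List.mem_iff_getElem.1 h
    simp only [List.length_zip, List.length_range, min_self] at hi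
    simp [List.getElem_zip, hi]
  · intro h
    obtain ⟨hi, h2⟩ := List.getElem?_eq_some_iff.1 h
    refine List.mem_iff_getElem.2 ⟨p.1, by simpa using hi, ?_⟩
    simp [List.getElem_zip, h2]

/-! ### soundness -/

theorem sound (hK : ∀ l, (M l).k ≤ K) (hLs : ∀ l, l ∈ Ls) {B T m : ℕ} {z : List Bool}
    {σ : ℕ → Bool} (h : Sat σ (form M ι K Ls l₀ B T z m)) :
    ∃ u : List Bool, u.length = m ∧
      (((fstep M)^[T] (l₀, init (z ++ u))).2 0).head? = some true := by
  set u : List Bool := (List.range m).map (fun j => σ (cel B 0 0 (z.length + j) (some true))) with hu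
  have hul : u.length = m := by simp [hu]
  refine ⟨u, hul, ?_⟩
  have hI : Sat σ (initCl ι K l₀ B (T + 1) z m) := fun c hc => h c (by simp [form, hc])
  have hT : ∀ t < T, ∀ l, Sat σ (transCl M ι K B (T + 1) t l) := fun t ht l c hc => h c (by
    simp only [form, List.mem_append, List.mem_flatMap, List.mem_range]
    exact Or.inl (Or.inr ⟨t, ht, l, hLs l, hc⟩))
  have hF : Sat σ (finCl B T) := fun c hc => h c (by simp [form, hc])
  have key : ∀ t ≤ T, σ (lab ι K B t ((fstep M)^[t] (l₀, init (z ++ u))).1) = true ∧
      ∀ k ≤ K, ∀ i, i + t ≤ T →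
        σ (cel B t k i (((fstep M)^[t] (l₀, init (z ++ u))).2 k)[i]?) = true := by
    intro t
    induction t with
    | zero =>
      intro _
      refine ⟨?_, fun k hk i hi => ?_⟩
      · have := hI [(lab ι K B 0 l₀, true)] (by simp [initCl])
        simpa using this
      · simp only [Function.iterate_zero, id]
        rcases k with _ | k
        · rw [init_zero]
          by_cases h1 : i < z.length
          · have h2 : (z ++ u)[i]? = some z[i] := by
              rw [List.getElem?_append_left h1, List.getElem?_eq_getElem h1]
            have := hI [(vr B 0 0 i (bif z[i] then 2 else 1), true)] (by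
              simp only [initCl, List.mem_append, List.mem_map]
              refine Or.inl (Or.inl (Or.inl (Or.inr ⟨(i, z[i]), ?_, rfl⟩)))
              exact mem_zip_range.2 (List.getElem?_eq_getElem h1))
            rw [h2]
            simpa [cel, cv_some] using this
          · by_cases h2 : i < z.length + m
            · obtain ⟨j, rfl⟩ : ∃ j, i = z.length + j := ⟨i - z.length, by omega⟩
              have hj : j < m := by omega
              have h3 : (z ++ u)[z.length + j]? =
                  some (σ (cel B 0 0 (z.length + j) (some true))) := by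
                rw [List.getElem?_append_right (by omega), Nat.add_sub_cancel_left, hu]
                simp [hj]
              have := hI [(cel B 0 0 (z.length + j) (some false), true),
                  (cel B 0 0 (z.length + j) (some true), true)] (by
                simp only [initCl, List.mem_append, List.mem_map, List.mem_range]
                exact Or.inl (Or.inl (Or.inr ⟨j, hj, rfl⟩)))
              rw [h3]
              cases h4 : σ (cel B 0 0 (z.length + j) (some true))
              · simpa [h4] using this
              · exact h4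
            · obtain ⟨j, rfl⟩ : ∃ j, i = z.length + m + j := ⟨i - (z.length + m), by omega⟩
              have h3 : (z ++ u)[z.length + m + j]? = none := by
                rw [List.getElem?_eq_none_iff, List.length_append, hul]; omega
              have := hI [(cel B 0 0 (z.length + m + j) none, true)] (by
                simp only [initCl, List.mem_append, List.mem_map, List.mem_range]
                exact Or.inl (Or.inr ⟨j, by omega, rfl⟩))
              rw [h3]
              simpa using this
        · have := hI [(cel B 0 (k + 1) i none, true)] (by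
            simp only [initCl, List.mem_append, List.mem_map, List.mem_range, List.mem_flatMap]
            exact Or.inr ⟨k, by omega, i, by omega, rfl⟩)
          rw [init_succ]
          simpa using this
    | succ t ih =>
      intro ht
      obtain ⟨ihl, ihc⟩ := ih (by omega)
      rw [Function.iterate_succ_apply']
      set p := (fstep M)^[t] (l₀, init (z ++ u)) with hp
      have hTt := hT t (by omega) p.1
      refine ⟨?_, fun k hk i hi => ?_⟩
      · have h1 := ihc (M p.1).k (hK _) 0 (by omega)
        have := hTt [(lab ι K B t p.1, false), (cel B t (M p.1).k 0 (p.2 (M p.1).k)[0]?, false),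
            (lab ι K B (t + 1) ((M p.1).nx (p.2 (M p.1).k)[0]?), true)] (by
          simp only [transCl, List.mem_append, List.mem_flatMap]
          exact Or.inl ⟨_, mem_vals _, List.mem_singleton.2 rfl⟩)
        simp only [fstep, List.head?_eq_getElem?]
        simpa [ihl, h1] using this
      · have hC : ∀ v j, j < T + 1 → Sat σ (cellCl ι K B t p.1 k j v (eff M p.1 k)) := by
          intro v j hj c hc
          refine hTt c ?_
          simp only [transCl, List.mem_append, List.mem_flatMap, List.mem_range]
          exact Or.inr ⟨k, by omega, v, mem_vals v, j, hj, hc⟩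
        rw [fstep_snd]
        rcases he : eff M p.1 k with _ | _ | b
        · have h1 := ihc k hk i (by omega)
          have := hC (p.2 k)[i]? i (by omega)
          rw [he] at this
          have := this _ (List.mem_singleton.2 rfl)
          simpa [ihl, h1, Act.app] using this
        · have h1 := ihc k hk (i + 1) (by omega)
          have := hC (p.2 k)[i + 1]? i (by omega)
          rw [he] at this
          have := this _ (List.mem_singleton.2 rfl)
          simpa [ihl, h1, Act.app] using this
        · rcases i with _ | i
          · have := hC none 0 (by omega)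
            rw [he] at this
            have := this _ List.mem_cons_self
            simpa [ihl, Act.app] using this
          · have h1 := ihc k hk i (by omega)
            have := hC (p.2 k)[i]? i (by omega)
            rw [he] at this
            have := this _ (List.mem_cons_of_mem _ List.mem_cons_self)
            simpa [ihl, h1, Act.app] using this
  have h1 := (key T le_rfl).2 0 (Nat.zero_le _) 0 (by omega)
  have h2 := hF [(cel B T 0 0 none, false)] (by simp [finCl])
  have h3 := hF [(cel B T 0 0 (some false), false)] (by simp [finCl])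
  rw [List.head?_eq_getElem?]
  rcases h4 : (((fstep M)^[T] (l₀, init (z ++ u))).2 0)[0]? with _ | _ | _
  · rw [h4] at h1; simp [h1] at h2
  · rw [h4] at h1; simp [h1] at h3
  · rfl

/-! ### completeness -/

theorem complete (hι : Function.Injective ι) (hK : ∀ l, (M l).k ≤ K) {B T m : ℕ} {z : List Bool}
    (hB1 : ∀ l, ι l < B) (hB2 : K + 1 < B) (hB3 : z.length + m + T + 2 < B)
    {u : List Bool} (hu : u.length = m)
    (hacc : (((fstep M)^[T] (l₀, init (z ++ u))).2 0).head? = some true) :
    ∃ σ, Sat σ (form M ι K Ls l₀ B T z m) := by
  classical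
  set cfg : ℕ → Λ × Store := fun t => (fstep M)^[t] (l₀, init (z ++ u)) with hcfg
  let σ : ℕ → Bool := fun n => decide (if n / B / B % B = K + 1 then
    ι (cfg (n / B / B / B)).1 = n % B
    else cv ((cfg (n / B / B / B)).2 (n / B / B % B))[n / B % B]? = n % B)
  have hL : ∀ t l, σ (lab ι K B t l) = decide ((cfg t).1 = l) := by
    intro t l
    obtain ⟨h1, h2, h3, h4⟩ := vr_dec (t := t) hB2 (show 0 < B by omega) (hB1 l)
    simp only [σ, lab, h1, h2, h4, if_true, hι.eq_iff]
  have hC : ∀ t k i v, k ≤ K → i < B → σ (cel B t k i v) = decide (((cfg t).2 k)[i]? = v) := by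
    intro t k i v hk hi
    obtain ⟨h1, h2, h3, h4⟩ := vr_dec (t := t) (show k < B by omega) hi
      (show cv v < B by have := cv_le v; omega)
    have : k ≠ K + 1 := by omega
    simp only [σ, cel, h1, h2, h3, h4, this, if_false]
    congr 1
    exact propext ⟨cv_inj, fun h => by rw [h]⟩
  have hs : ∀ t, cfg (t + 1) = fstep M (cfg t) := fun t => Function.iterate_succ_apply' _ _ _
  have h0 : cfg 0 = (l₀, init (z ++ u)) := rfl
  refine ⟨σ, fun c hc => ?_⟩
  simp only [form, initCl, finCl, transCl, List.mem_append, List.mem_map, List.mem_flatMap,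
    List.mem_range, List.mem_cons, List.not_mem_nil, or_false] at hc
  rcases hc with ((((((rfl | ⟨p, hp, rfl⟩) | ⟨j, hj, rfl⟩) | ⟨j, hj, rfl⟩) | ⟨k, hk, i, hi, rfl⟩) |
    ⟨t, ht, l, -, (⟨v, -, rfl⟩ | ⟨k, hk, v, -, i, hi, hc⟩)⟩) | (rfl | rfl))
  · simp [hL, h0]
  · have h1 := mem_zip_range.1 hp
    obtain ⟨hi, h2⟩ := List.getElem?_eq_some_iff.1 h1
    have := hC 0 0 p.1 (some p.2) (Nat.zero_le _) (by omega)
    simp only [h0, init_zero, List.getElem?_append_left hi, h1] at this
    simpa [cel, cv_some] using this
  · have h1 : (z ++ u)[z.length + j]? = some (u[j]'(by omega)) := by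
      rw [List.getElem?_append_right (by omega), Nat.add_sub_cancel_left,
        List.getElem?_eq_getElem]
    simp only [List.mem_cons, List.not_mem_nil, or_false, exists_eq_or_imp, exists_eq_left,
      hC 0 0 (z.length + j) _ (Nat.zero_le _) (by omega), h0, init_zero, h1]
    cases u[j]'(by omega) <;> simp
  · have h1 : (z ++ u)[z.length + m + j]? = none := by
      rw [List.getElem?_eq_none_iff, List.length_append, hu]; omega
    simp [hC 0 0 (z.length + m + j) _ (Nat.zero_le _) (by omega), h0, h1]
  · simp [hC 0 (k + 1) i _ (by omega) (by omega), h0]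
  · simp only [List.mem_cons, List.not_mem_nil, or_false, exists_eq_or_imp, exists_eq_left, hL,
      hC t (M l).k 0 v (hK l) (by omega), hs]
    by_cases h1 : (cfg t).1 = l
    · by_cases h2 : ((cfg t).2 (M l).k)[0]? = v
      · right; right
        subst h1
        simp [fstep, List.head?_eq_getElem?, h2]
      · simp [h2]
    · simp [h1]
  · by_cases h1 : (cfg t).1 = l
    swap
    · rcases he : eff M l k with _ | _ | b <;> rw [he] at hc <;>
        simp only [cellCl, List.mem_cons, List.not_mem_nil, or_false] at hc
      · subst hc; simp [hL, h1]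
      · subst hc; simp [hL, h1]
      · rcases hc with rfl | rfl <;> simp [hL, h1]
    have h2 : (cfg (t + 1)).2 k = (eff M l k).app ((cfg t).2 k) := by rw [hs, fstep_snd, h1]
    have hk' : k ≤ K := by omega
    rcases he : eff M l k with _ | _ | b <;> rw [he] at hc h2 <;>
      simp only [cellCl, List.mem_cons, List.not_mem_nil, or_false] at hc
    · subst hc
      simp only [List.mem_cons, List.not_mem_nil, or_false, exists_eq_or_imp, exists_eq_left,
        hC _ k i v hk' (by omega), h2, Act.app]
      by_cases h3 : ((cfg t).2 k)[i]? = v <;> simp [h3]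
    · subst hc
      simp only [List.mem_cons, List.not_mem_nil, or_false, exists_eq_or_imp, exists_eq_left,
        hC _ k i v hk' (by omega), hC _ k (i + 1) v hk' (by omega), h2, Act.app]
      by_cases h3 : ((cfg t).2 k)[i + 1]? = v <;> simp [h3]
    · rcases hc with rfl | rfl
      · simp [hC _ k 0 _ hk' (by omega), h2, Act.app]
      · simp only [List.mem_cons, List.not_mem_nil, or_false, exists_eq_or_imp, exists_eq_left,
          hC _ k i v hk' (by omega), hC _ k (i + 1) v hk' (by omega), h2, Act.app]
        by_cases h3 : ((cfg t).2 k)[i]? = v <;> simp [h3]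
  · rw [List.head?_eq_getElem?] at hacc
    simp [hC T 0 0 _ (Nat.zero_le _) (by omega), hcfg, hacc]
  · rw [List.head?_eq_getElem?] at hacc
    simp [hC T 0 0 _ (Nat.zero_le _) (by omega), hcfg, hacc]

/-! ### shape -/

theorem shape (hK : ∀ l, (M l).k ≤ K) {B T m : ℕ} {z : List Bool}
    (hB1 : ∀ l, ι l < B) (hB2 : K + 1 < B) (hB3 : z.length + m + T + 2 < B) :
    ∀ c ∈ form M ι K Ls l₀ B T z m, c ≠ [] ∧ ∀ l ∈ c, l.1 < B * B * B * B := by
  have hL : ∀ t l, t < B → lab ι K B t l < B * B * B * B := fun t l ht =>
    vr_lt ht hB2 (by omega) (hB1 l)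
  have hC : ∀ t k i v, t < B → k ≤ K → i < B → cel B t k i v < B * B * B * B :=
    fun t k i v ht hk hi => vr_lt ht (by omega) hi (by have := cv_le v; omega)
  intro c hc
  simp only [form, initCl, finCl, transCl, List.mem_append, List.mem_map, List.mem_flatMap,
    List.mem_range, List.mem_cons, List.not_mem_nil, or_false] at hc
  rcases hc with ((((((rfl | ⟨p, hp, rfl⟩) | ⟨j, hj, rfl⟩) | ⟨j, hj, rfl⟩) | ⟨k, hk, i, hi, rfl⟩) |
    ⟨t, ht, l, -, (⟨v, -, rfl⟩ | ⟨k, hk, v, -, i, hi, hc⟩)⟩) | (rfl | rfl))
  · simpa using hL 0 l₀ (by omega)
  · obtain ⟨hi, h2⟩ := List.getElem?_eq_some_iff.1 (mem_zip_range.1 hp)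
    have := hC 0 0 p.1 (some p.2) (by omega) (Nat.zero_le _) (by omega)
    simpa [cel, cv_some] using this
  · simpa using ⟨hC 0 0 _ _ (by omega) (Nat.zero_le _) (by omega),
      hC 0 0 _ _ (by omega) (Nat.zero_le _) (by omega)⟩
  · simpa using hC 0 0 _ _ (by omega) (Nat.zero_le _) (by omega)
  · simpa using hC 0 (k + 1) _ _ (by omega) (by omega) (by omega)
  · simpa using ⟨hL t l (by omega), hC t _ 0 v (by omega) (hK l) (by omega),
      hL (t + 1) _ (by omega)⟩
  · have hk' : k ≤ K := by omega
    rcases he : eff M l k with _ | _ | b <;> rw [he] at hc <;>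
      simp only [cellCl, List.mem_cons, List.not_mem_nil, or_false] at hc
    · subst hc
      simpa using ⟨hL t l (by omega), hC t k i v (by omega) hk' (by omega),
        hC (t + 1) k i v (by omega) hk' (by omega)⟩
    · subst hc
      simpa using ⟨hL t l (by omega), hC t k (i + 1) v (by omega) hk' (by omega),
        hC (t + 1) k i v (by omega) hk' (by omega)⟩
    · rcases hc with rfl | rfl
      · simpa using ⟨hL t l (by omega), hC (t + 1) k 0 _ (by omega) hk' (by omega)⟩
      · simpa using ⟨hL t l (by omega), hC t k i v (by omega) hk' (by omega),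
          hC (t + 1) k (i + 1) v (by omega) hk' (by omega)⟩
  · simpa using hC T 0 0 _ (by omega) (Nat.zero_le _) (by omega)
  · simpa using hC T 0 0 _ (by omega) (Nat.zero_le _) (by omega)

end

end Crest.Agent.T318.CL
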